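import Vale.Agent.P145.FK.K1
import Vale.Agent.P145.FB.Space

/-!
P145, block F-C: summation over the edge variables of the box = averaging over independent marks.
-/

namespace Vale.Agent.P145.FK

open Finset MeasureTheory
open scoped Classical

/-- The weight of a mark. -/
noncomputable def bw (t : ℝ) (b : Bool) : ℝ := if b then t else 1 - t

lemma edge_sum {t : ℝ} (ht : t ≠ 0) (a b k l : ℤ) (c : Bool) :
    ∑ x ∈ Finset.univ.filter (fun x : Bool =>
      (!(decide (a = 0) && decide (b = 0) && (!(decide (k = l)) || x))) = c),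
        bw t x * (if a = b ∧ k = l then t⁻¹ else 1) =
    if c = false ∧ ¬ (a = 0 ∧ b = 0) then 0
      else (if a = 0 ∧ b = 0 then (if c = true then (if k = l then t⁻¹ - 1 else 0) else 1)
        else (if a = b ∧ k = l then t⁻¹ else 1)) := by
  rw [Finset.sum_filter, Fintype.sum_bool]
  by_cases ha : a = 0
  · by_cases hb : b = 0
    · subst ha; subst hb
      by_cases hk : k = l <;> cases c <;> simp [bw, hk, ht] <;> field_simp
    · have hb' : (0 : ℤ) ≠ b := Ne.symm hb
      subst ha
      by_cases hk : k = l <;> cases c <;> simp [bw, hk, hb, hb']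
  · by_cases hk : k = l <;> by_cases hab : a = b <;> cases c <;> simp [bw, hk, ha, hab] <;>
      first
        | (subst hab; simp [ha]; ring)
        | (subst hab; simp [ha])
        | ring

namespace Net

variable {V F E : Type*}

/-- The edge variable (not blocked) as a function of the signed heights and the marks. -/
noncomputable def wof (N : Net V F E) (y : V ⊕ F → ℤ) (ξ : E → Bool) (e : E) : Bool :=
  !(decide (y (.inl (N.u e)) = 0) && decide (y (.inl (N.v e)) = 0) &&
    (!(decide (y (.inr (N.f e)) = y (.inr (N.g e)))) || ξ e))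

/-- Summation over the edge variables. -/
theorem sum_phi [Fintype V] [Fintype F] [Fintype E] (N : Net V F E) {t : ℝ} (ht : t ≠ 0)
    {y : V ⊕ F → ℤ} (hy : N.HS Set.univ y) (Γ : (E → Bool) → ℝ) :
    ∑ w : E → Bool, N.Φ t Set.univ (toCf y w) * Γ w =
      N.hw t⁻¹ Set.univ y * ∑ ξ : E → Bool, (∏ e, bw t (ξ e)) * Γ (N.wof y ξ) := by
  set z : E → Prop := fun e => y (.inl (N.u e)) = 0 ∧ y (.inl (N.v e)) = 0 with hz
  set q : E → Prop := fun e => y (.inr (N.f e)) = y (.inr (N.g e)) with hq
  set he : E → ℝ := fun e => if y (.inl (N.u e)) = y (.inl (N.v e)) ∧ q e then t⁻¹ else 1 with hhe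
  set φ : E → Bool → ℝ := fun e b => if b = false ∧ ¬ z e then 0
      else (if z e then (if b = true then (if q e then t⁻¹ - 1 else 0) else 1)
        else (if y (.inl (N.u e)) = y (.inl (N.v e)) ∧ q e then t⁻¹ else 1)) with hφ
  have hE : ∀ e, N.inE Set.univ e := fun e => ⟨Set.mem_univ _, Set.mem_univ _⟩
  have e1 : ∀ w : E → Bool, N.Φ t Set.univ (toCf y w) = ∏ e, φ e (w e) := by
    intro w
    unfold Φ
    by_cases hC : toCf y w ∈ FC.Cfg N.toInc (N.UU Set.univ) Set.univ
    · rw [if_pos hC]
      unfold FC.wt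
      refine Finset.prod_congr rfl fun e _ => ?_
      have he' : N.toInc.a e ∈ (Set.univ : Set F) ∧ N.toInc.b e ∈ (Set.univ : Set F) := hE e
      rw [if_pos he', hφ]
      simp only
      rw [if_neg]
      · rfl
      · rintro ⟨hw, hn⟩
        exact hn (hC.2.2.2.2.2 e (Set.mem_univ _) (Set.mem_univ _) hw)
    · rw [if_neg hC]
      have hn : ¬ ∀ e, w e = false → z e := by
        intro h'
        exact hC ⟨hy.1, hy.2.1, hy.2.2.1, hy.2.2.2, fun e he => absurd (hE e) he,
          fun e _ _ h2 => h' e h2⟩
      push Not at hn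
      obtain ⟨e, hw, hz'⟩ := hn
      symm
      refine Finset.prod_eq_zero (Finset.mem_univ e) ?_
      rw [hφ]
      simp only
      rw [if_pos ⟨hw, hz'⟩]
  have e2 := sum_fiber (fun (e : E) (b : Bool) =>
      !(decide (y (.inl (N.u e)) = 0) && decide (y (.inl (N.v e)) = 0) &&
        (!(decide (y (.inr (N.f e)) = y (.inr (N.g e)))) || b)))
    (fun _ => Finset.univ) (fun _ _ => Finset.mem_univ _) (fun e b => bw t b * he e)
    Γ
  have e3 : ∀ (e : E) (b : Bool), ∑ x ∈ Finset.univ.filter (fun x : Bool =>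
      (!(decide (y (.inl (N.u e)) = 0) && decide (y (.inl (N.v e)) = 0) &&
        (!(decide (y (.inr (N.f e)) = y (.inr (N.g e)))) || x))) = b), bw t x * he e = φ e b := by
    intro e b
    exact edge_sum ht _ _ _ _ b
  rw [Finset.sum_congr rfl fun w _ => by rw [e1 w]]
  have e4 : N.hw t⁻¹ Set.univ y = ∏ e, he e := by
    unfold hw
    refine Finset.prod_congr rfl fun e _ => ?_
    rw [if_pos (hE e)]
  rw [Fintype.piFinset_univ] at e2
  have e5 : ∑ w : E → Bool, (∏ e, φ e (w e)) * Γ w = ∑ x : E → Bool,
      (∏ e, bw t (x e) * he e) * Γ (N.wof y x) := by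
    refine Eq.trans ?_ e2.symm
    refine Finset.sum_congr (Finset.ext fun _ => by simp) fun w _ => ?_
    congr 1
    refine Finset.prod_congr rfl fun e _ => ?_
    rw [e3]
  rw [e5, e4, Finset.mul_sum]
  refine Finset.sum_congr rfl fun x _ => ?_
  rw [Finset.prod_mul_distrib]
  ring

end Net

open Vale.Agent.P145.FB (Mk Pt mkm bern)

/-- Integrals of functions of finitely many marks. -/
theorem int_mkm {E : Type*} [Fintype E] {ι : E → Pt} (hι : Function.Injective ι) {t : ℝ}
    (h0 : 0 ≤ t) (h1 : t ≤ 1) (G : (E → Bool) → ℝ) :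
    ∫ ξ, G (fun e => ξ (ι e)) ∂(mkm t) = ∑ η : E → Bool, (∏ e, bw t (η e)) * G η := by
  set X : Mk → (E → Bool) := fun ξ e => ξ (ι e) with hX
  have hXm : Measurable X := measurable_pi_lambda _ fun e => measurable_pi_apply _
  have e1 : ∫ ξ, G (fun e => ξ (ι e)) ∂(mkm t) = ∫ η, G η ∂((mkm t).map X) := by
    rw [integral_map hXm.aemeasurable (measurable_of_finite _).aestronglyMeasurable]
  have : IsProbabilityMeasure ((mkm t).map X) :=
    Measure.isProbabilityMeasure_map hXm.aemeasurable
  rw [e1, integral_fintype Integrable.of_finite]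
  refine Finset.sum_congr rfl fun η _ => ?_
  rw [smul_eq_mul]
  congr 1
  rw [Measure.real, Measure.map_apply hXm (measurableSet_singleton _)]
  set T : Finset Pt := Finset.univ.image ι with hT
  set o : Mk := fun p => if h : ∃ e, ι e = p then η h.choose else true with ho
  have ho' : ∀ e, o (ι e) = η e := by
    intro e
    have h : ∃ e', ι e' = ι e := ⟨e, rfl⟩
    simp only [ho]
    rw [dif_pos h]
    exact congrArg η (hι h.choose_spec)
  have e2 : X ⁻¹' {η} = Set.pi (T : Set Pt) fun p => {o p} := by
    ext ξ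
    simp only [Set.mem_preimage, Set.mem_singleton_iff, Set.mem_pi, hT, Finset.coe_image,
      Finset.coe_univ, Set.image_univ, Set.mem_range, forall_exists_index, forall_apply_eq_imp_iff]
    constructor
    · intro h e
      rw [ho', ← h]
    · intro h
      funext e
      rw [← ho' e]
      exact h e
  rw [e2, mkm, Measure.infinitePi_pi _ (fun p _ => measurableSet_singleton _),
    ENNReal.toReal_prod, hT, Finset.prod_image (fun a _ b _ h => hι h)]
  refine Finset.prod_congr rfl fun e _ => ?_
  have e3 := FB.bern_real t {o (ι e)}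
  rw [Measure.real] at e3
  rw [e3, FB.cl_eq h0 h1, ho']
  cases η e <;> simp [bw]

end Vale.Agent.P145.FK
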