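import Vale.Agent.P145.FC.Plane2
import Vale.Agent.P145.FC.BoxAvg
import Vale.Agent.P145.FP.Spin

/-!
P145, block F-C: the heights of the plane on a box of faces of `ℤ²` and the incidence structure
`FK.boxN`.
-/

namespace Vale.Agent.P145.FK

open Finset MeasureTheory Vale.Agent.P145.FP Vale.Agent.P145.Dom
open Vale.Agent.P145.FA (Hgt mu0 Pl)
open Vale.Agent.P145.FB (Mk Pt mkm bern om e1 e2 o1 o2 Swap)
open scoped Classical

/-- The faces of the six-vertex lattice at the sites of the box `R`. -/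
noncomputable def Fc (R : Finset (ℤ × ℤ)) : Finset (ℤ × ℤ) :=
  (verts R).image (fun v => fc (.inl v)) ∪ R.image (fun f => fc (.inr f))

lemma fcB_inj : Function.Injective fc := fun a b h => by rw [← cf_fc a, h, cf_fc]

lemma mem_Fc_inl {R : Finset (ℤ × ℤ)} {v : ℤ × ℤ} : fc (.inl v) ∈ Fc R ↔ v ∈ verts R := by
  unfold Fc
  rw [Finset.mem_union, Finset.mem_image, Finset.mem_image]
  constructor
  · rintro (⟨v', h1, h2⟩ | ⟨f, h1, h2⟩)
    · have := fcB_inj h2
      rw [Sum.inl.injEq] at this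
      rw [← this]; exact h1
    · have := fcB_inj h2
      exact absurd this (by simp)
  · intro h
    exact Or.inl ⟨v, h, rfl⟩

lemma mem_Fc_inr {R : Finset (ℤ × ℤ)} {f : ℤ × ℤ} : fc (.inr f) ∈ Fc R ↔ f ∈ R := by
  unfold Fc
  rw [Finset.mem_union, Finset.mem_image, Finset.mem_image]
  constructor
  · rintro (⟨v', h1, h2⟩ | ⟨f', h1, h2⟩)
    · have := fcB_inj h2
      exact absurd this (by simp)
    · have := fcB_inj h2
      rw [Sum.inr.injEq] at this
      rw [← this]; exact h1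
  · intro h
    exact Or.inr ⟨f, h, rfl⟩

/-- Heights of the plane from the heights on the box. -/
noncomputable def un {R : Finset (ℤ × ℤ)} (y : VB R ⊕ FB R → ℤ) : Hgt := fun q => xt y (cf q)

lemma un_fc {R : Finset (ℤ × ℤ)} (y : VB R ⊕ FB R → ℤ) (s : Site) : un y (fc s) = xt y s := by
  unfold un; rw [cf_fc]

/-- The site of the plane. -/
def st {R : Finset (ℤ × ℤ)} (i : VB R ⊕ FB R) : Site := Sum.map Subtype.val Subtype.val i

lemma xt_st {R : Finset (ℤ × ℤ)} (y : VB R ⊕ FB R → ℤ) (i : VB R ⊕ FB R) : xt y (st i) = y i := by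
  rcases i with v | f
  · exact xt_inl y v
  · exact xt_inr y f

lemma un_st {R : Finset (ℤ × ℤ)} (y : VB R ⊕ FB R → ℤ) (i : VB R ⊕ FB R) :
    un y (fc (st i)) = y i := by rw [un_fc, xt_st]

/-- A face of the plane is in the box or the extension vanishes. -/
lemma mem_Fc_iff {R : Finset (ℤ × ℤ)} {q : ℤ × ℤ} : q ∈ Fc R ↔ ∃ i : VB R ⊕ FB R, fc (st i) = q := by
  constructor
  · intro h
    rw [← fc_cf q] at h
    rcases hq : cf q with v | f
    · rw [hq, mem_Fc_inl] at h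
      exact ⟨.inl ⟨v, h⟩, by rw [← fc_cf q, hq]; rfl⟩
    · rw [hq, mem_Fc_inr] at h
      exact ⟨.inr ⟨f, h⟩, by rw [← fc_cf q, hq]; rfl⟩
  · rintro ⟨v | f, rfl⟩
    · exact mem_Fc_inl.2 v.2
    · exact mem_Fc_inr.2 f.2

lemma un_out {R : Finset (ℤ × ℤ)} (y : VB R ⊕ FB R → ℤ) {q : ℤ × ℤ} (hq : q ∉ Fc R) :
    un y q = 0 := by
  unfold un
  rcases h : cf q with v | f
  · have : v ∉ verts R := fun h' => hq (by rw [← fc_cf q, h]; exact mem_Fc_inl.2 h')
    simp only [xt, Sum.elim_inl, dif_neg this]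
  · have : f ∉ R := fun h' => hq (by rw [← fc_cf q, h]; exact mem_Fc_inr.2 h')
    simp only [xt, Sum.elim_inr, dif_neg this]

/-- The six-vertex vertex of an edge. -/
def ewp {R : Finset (ℤ × ℤ)} : EB R → Pt :=
  Sum.elim (fun e => (e.1.1 - e.1.2 + 1, e.1.1 + e.1.2 + 1)) (fun e => (e.1.1 - e.1.2, e.1.1 + e.1.2 + 1))

lemma ewp_sites {R : Finset (ℤ × ℤ)} (e : EB R) :
    e1 (ewp e) = fc (.inl ((boxN R).v e).1) ∧ e2 (ewp e) = fc (.inl ((boxN R).u e).1) ∧
    o1 (ewp e) = fc (.inr ((boxN R).f e).1) ∧ o2 (ewp e) = fc (.inr ((boxN R).g e).1) := by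
  rcases e with ⟨⟨a, b⟩, he⟩ | ⟨⟨a, b⟩, he⟩
  · have hev : Even ((a - b + 1) + (a + b + 1)) := ⟨a + 1, by ring⟩
    have hw : ewp (R := R) (.inl ⟨(a, b), he⟩) = (a - b + 1, a + b + 1) := rfl
    rw [hw]
    unfold e1 e2 o1 o2
    rw [if_pos hev, if_pos hev, if_pos hev, if_pos hev]
    refine ⟨?_, ?_, ?_, ?_⟩ <;> refine Prod.ext ?_ ?_ <;> simp only [boxN, Sum.elim_inl, fc] <;> omega
  · have hev : ¬ Even ((a - b) + (a + b + 1)) := by
      rw [Int.not_even_iff_odd]; exact ⟨a, by ring⟩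
    have hw : ewp (R := R) (.inr ⟨(a, b), he⟩) = (a - b, a + b + 1) := rfl
    rw [hw]
    unfold e1 e2 o1 o2
    rw [if_neg hev, if_neg hev, if_neg hev, if_neg hev]
    refine ⟨?_, ?_, ?_, ?_⟩ <;> refine Prod.ext ?_ ?_ <;> simp only [boxN, Sum.elim_inr, fc] <;> omega

lemma ewp_inj {R : Finset (ℤ × ℤ)} : Function.Injective (ewp (R := R)) := by
  rintro (⟨⟨a, b⟩, he⟩ | ⟨⟨a, b⟩, he⟩) (⟨⟨a', b'⟩, he'⟩ | ⟨⟨a', b'⟩, he'⟩) h <;>
    simp only [ewp, Sum.elim_inl, Sum.elim_inr, Prod.mk.injEq] at h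
  · congr 3
    · omega
    · omega
  · omega
  · omega
  · congr 3
    · omega
    · omega

lemma mem_VB_iff {R : Finset (ℤ × ℤ)} {w : Pt} : w ∈ FC.VB (Fc R) ↔ ∃ e : EB R, ewp e = w := by
  obtain ⟨x, y⟩ := w
  simp only [FC.VB, Finset.mem_filter]
  constructor
  · rintro ⟨h1, h2, h3, h4⟩
    by_cases hp : (x + y) % 2 = 0
    · have f1 : ((x - 1, y) : ℤ × ℤ) = fc (.inr ((x + y) / 2 - 1, (y - x) / 2)) := by
        simp only [fc]; ext <;> simp <;> omega
      have f2 : ((x, y - 1) : ℤ × ℤ) = fc (.inr ((x + y) / 2 - 1, (y - x) / 2 - 1)) := by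
        simp only [fc]; ext <;> simp <;> omega
      rw [f1, mem_Fc_inr] at h2
      rw [f2, mem_Fc_inr] at h3
      refine ⟨.inl ⟨((x + y) / 2 - 1, (y - x) / 2), Finset.mem_filter.2 ⟨h2, h3⟩⟩, ?_⟩
      simp only [ewp, Sum.elim_inl]
      ext <;> simp <;> omega
    · have f1 : ((x, y) : ℤ × ℤ) = fc (.inr ((x + y - 1) / 2, (y - x - 1) / 2)) := by
        simp only [fc]; ext <;> simp <;> omega
      have f2 : ((x - 1, y - 1) : ℤ × ℤ) = fc (.inr ((x + y - 1) / 2 - 1, (y - x - 1) / 2)) := by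
        simp only [fc]; ext <;> simp <;> omega
      rw [f1, mem_Fc_inr] at h1
      rw [f2, mem_Fc_inr] at h4
      refine ⟨.inr ⟨((x + y - 1) / 2, (y - x - 1) / 2), Finset.mem_filter.2 ⟨h1, h4⟩⟩, ?_⟩
      simp only [ewp, Sum.elim_inr]
      ext <;> simp <;> omega
  · rintro ⟨e, he⟩
    obtain ⟨s1, s2, s3, s4⟩ := ewp_sites e
    rw [he] at s1 s2 s3 s4
    have m1 : e1 (x, y) ∈ Fc R := by rw [s1]; exact mem_Fc_inl.2 ((boxN R).v e).2
    have m2 : e2 (x, y) ∈ Fc R := by rw [s2]; exact mem_Fc_inl.2 ((boxN R).u e).2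
    have m3 : o1 (x, y) ∈ Fc R := by rw [s3]; exact mem_Fc_inr.2 ((boxN R).f e).2
    have m4 : o2 (x, y) ∈ Fc R := by rw [s4]; exact mem_Fc_inr.2 ((boxN R).g e).2
    by_cases hp : Even (x + y)
    · simp only [e1, e2, o1, o2, if_pos hp] at m1 m2 m3 m4
      exact ⟨m1, m3, m4, m2⟩
    · simp only [e1, e2, o1, o2, if_neg hp] at m1 m2 m3 m4
      exact ⟨m3, m1, m2, m4⟩

/-- Height functions on the box. -/
theorem Hon_iff {R : Finset (ℤ × ℤ)} (y : VB R ⊕ FB R → ℤ) :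
    FC.Hon (Fc R) (un y) ↔ (boxN R).HS Set.univ y := by
  constructor
  · rintro ⟨h1, h2, h3⟩
    refine ⟨fun v hv => absurd (fun f _ => Set.mem_univ f) hv, fun f hf => absurd (Set.mem_univ f) hf,
      fun v => ?_, fun v f hvf _ => ?_⟩
    · have e := h1 _ (mem_Fc_inl.2 v.2)
      rw [un_fc, xt_inl] at e
      simp only [fc] at e
      obtain ⟨k, hk⟩ := e
      exact ⟨k + v.1.1, by omega⟩
    · obtain ⟨a, b, ha, hb, hv⟩ := hvf
      have mv := mem_Fc_inl.2 v.2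
      have mf := mem_Fc_inr.2 f.2
      have ev := un_fc y (.inl v.1)
      have ef := un_fc y (.inr f.1)
      rw [xt_inl] at ev
      rw [xt_inr] at ef
      rw [← ev, ← ef]
      have hv1 : v.1.1 = f.1.1 + a := by rw [hv]
      have hv2 : v.1.2 = f.1.2 + b := by rw [hv]
      simp only [fc] at mv mf ⊢
      rcases ha with rfl | rfl <;> rcases hb with rfl | rfl
      · have e := h2 (f.1.1 - f.1.2) (f.1.1 + f.1.2 + 1) mf (by
          have : ((f.1.1 - f.1.2, f.1.1 + f.1.2 + 1 - 1) : ℤ × ℤ) = (v.1.1 - v.1.2, v.1.1 + v.1.2) := by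
            ext <;> simp <;> omega
          rw [this]; exact mv)
        have e' : ((f.1.1 - f.1.2, f.1.1 + f.1.2 + 1 - 1) : ℤ × ℤ) =
            (v.1.1 - v.1.2, v.1.1 + v.1.2) := by ext <;> simp <;> omega
        rw [e', abs_sub_comm] at e
        exact e
      · have e' : ((f.1.1 - f.1.2 - 1, f.1.1 + f.1.2 + 1) : ℤ × ℤ) =
            (v.1.1 - v.1.2, v.1.1 + v.1.2) := by ext <;> simp <;> omega
        have e := h3 (f.1.1 - f.1.2) (f.1.1 + f.1.2 + 1) mf (by rw [e']; exact mv)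
        rw [e'] at e
        exact e
      · have e' : ((v.1.1 - v.1.2 - 1, v.1.1 + v.1.2) : ℤ × ℤ) =
            (f.1.1 - f.1.2, f.1.1 + f.1.2 + 1) := by ext <;> simp <;> omega
        have e := h3 (v.1.1 - v.1.2) (v.1.1 + v.1.2) mv (by rw [e']; exact mf)
        rw [e', abs_sub_comm] at e
        exact e
      · have e' : ((v.1.1 - v.1.2, v.1.1 + v.1.2 - 1) : ℤ × ℤ) =
            (f.1.1 - f.1.2, f.1.1 + f.1.2 + 1) := by ext <;> simp <;> omega
        have e := h2 (v.1.1 - v.1.2) (v.1.1 + v.1.2) mv (by rw [e']; exact mf)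
        rw [e'] at e
        exact e
  · rintro ⟨-, -, h3, h4⟩
    -- adjacent faces
    have key : ∀ (v f : ℤ × ℤ) (_ : fc (.inl v) ∈ Fc R) (_ : fc (.inr f) ∈ Fc R), Cor v f →
        |un y (fc (.inl v)) - un y (fc (.inr f))| = 1 := by
      intro v f hv hf hc
      rw [mem_Fc_inl] at hv
      rw [mem_Fc_inr] at hf
      have := h4 ⟨v, hv⟩ ⟨f, hf⟩ hc (Set.mem_univ _)
      rw [un_fc, un_fc]
      rwa [← xt_inl y, ← xt_inr y] at this
    refine ⟨?_, ?_, ?_⟩
    · intro q hq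
      rcases h : cf q with v | f
      · have hq' : q = fc (.inl v) := by rw [← h, fc_cf]
        rw [hq'] at hq ⊢
        rw [mem_Fc_inl] at hq
        obtain ⟨k, hk⟩ := h3 ⟨v, hq⟩
        rw [un_fc]
        have e := xt_inl y ⟨v, hq⟩
        simp only at e
        rw [e, hk]
        simp only [fc]
        exact ⟨k - v.1, by ring⟩
      · have hq' : q = fc (.inr f) := by rw [← h, fc_cf]
        rw [hq'] at hq ⊢
        rw [mem_Fc_inr] at hq
        have hv : f ∈ verts R := mem_verts.2 ⟨f, hq, cor00 f⟩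
        obtain ⟨k, hk⟩ := h3 ⟨f, hv⟩
        have e := h4 ⟨f, hv⟩ ⟨f, hq⟩ (cor00 f) (Set.mem_univ _)
        rw [hk] at e
        rw [un_fc]
        have e' := xt_inr y ⟨f, hq⟩
        simp only at e'
        rw [e']
        simp only [fc]
        rcases (abs_eq (by norm_num)).1 e with e | e
        · exact ⟨k - f.1 - 1, by omega⟩
        · exact ⟨k - f.1, by omega⟩
    · intro x z h1 h2
      by_cases hp : (x + z) % 2 = 0
      · have e1 : ((x, z) : ℤ × ℤ) = fc (.inl ((x + z) / 2, (z - x) / 2)) := by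
          simp only [fc]; ext <;> simp <;> omega
        have e2 : ((x, z - 1) : ℤ × ℤ) = fc (.inr ((x + z) / 2 - 1, (z - x) / 2 - 1)) := by
          simp only [fc]; ext <;> simp <;> omega
        rw [e1] at h1 ⊢
        rw [e2] at h2 ⊢
        exact key _ _ h1 h2 ⟨1, 1, Or.inr rfl, Or.inr rfl, by ext <;> simp⟩
      · have e1 : ((x, z) : ℤ × ℤ) = fc (.inr ((x + z - 1) / 2, (z - x - 1) / 2)) := by
          simp only [fc]; ext <;> simp <;> omega
        have e2 : ((x, z - 1) : ℤ × ℤ) = fc (.inl ((x + z - 1) / 2, (z - x - 1) / 2)) := by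
          simp only [fc]; ext <;> simp <;> omega
        rw [e1] at h1 ⊢
        rw [e2] at h2 ⊢
        rw [abs_sub_comm]
        exact key _ _ h2 h1 ⟨0, 0, Or.inl rfl, Or.inl rfl, by ext <;> simp⟩
    · intro x z h1 h2
      by_cases hp : (x + z) % 2 = 0
      · have e1 : ((x, z) : ℤ × ℤ) = fc (.inl ((x + z) / 2, (z - x) / 2)) := by
          simp only [fc]; ext <;> simp <;> omega
        have e2 : ((x - 1, z) : ℤ × ℤ) = fc (.inr ((x + z) / 2 - 1, (z - x) / 2)) := by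
          simp only [fc]; ext <;> simp <;> omega
        rw [e1] at h1 ⊢
        rw [e2] at h2 ⊢
        rw [abs_sub_comm]
        exact key _ _ h1 h2 ⟨1, 0, Or.inr rfl, Or.inl rfl, by ext <;> simp⟩
      · have e1 : ((x, z) : ℤ × ℤ) = fc (.inr ((x + z - 1) / 2, (z - x - 1) / 2)) := by
          simp only [fc]; ext <;> simp <;> omega
        have e2 : ((x - 1, z) : ℤ × ℤ) = fc (.inl ((x + z - 1) / 2, (z - x - 1) / 2 + 1)) := by
          simp only [fc]; ext <;> simp <;> omega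
        rw [e1] at h1 ⊢
        rw [e2] at h2 ⊢
        exact key _ _ h2 h1 ⟨0, 1, Or.inl rfl, Or.inr rfl, by ext <;> simp⟩

/-- The weights agree. -/
theorem WB_eq {R : Finset (ℤ × ℤ)} (c : ℝ) (y : VB R ⊕ FB R → ℤ) :
    FC.WB c (Fc R) (un y) = (boxN R).hw c Set.univ y := by
  have e0 : FC.VB (Fc R) = Finset.univ.image (ewp (R := R)) := by
    ext w
    rw [mem_VB_iff, Finset.mem_image]
    simp
  unfold FC.WB Net.hw
  rw [e0, Finset.prod_image (fun a _ b _ h => ewp_inj h)]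
  refine Finset.prod_congr rfl fun e _ => ?_
  have hE : (boxN R).inE Set.univ e := ⟨Set.mem_univ _, Set.mem_univ _⟩
  rw [if_pos hE]
  obtain ⟨s1, s2, s3, s4⟩ := ewp_sites e
  have t1 : un y (e1 (ewp e)) = y (.inl ((boxN R).v e)) := by rw [s1, un_fc, xt_inl]
  have t2 : un y (e2 (ewp e)) = y (.inl ((boxN R).u e)) := by rw [s2, un_fc, xt_inl]
  have t3 : un y (o1 (ewp e)) = y (.inr ((boxN R).f e)) := by rw [s3, un_fc, xt_inr]
  have t4 : un y (o2 (ewp e)) = y (.inr ((boxN R).g e)) := by rw [s4, un_fc, xt_inr]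
  rw [← t1, ← t2, ← t3, ← t4]
  unfold FC.fw
  refine if_congr ?_ rfl rfl
  by_cases hp : Even ((ewp e).1 + (ewp e).2)
  · simp only [e1, e2, o1, o2, if_pos hp]
    exact ⟨fun h => ⟨h.1.symm, h.2⟩, fun h => ⟨h.1.symm, h.2⟩⟩
  · simp only [e1, e2, o1, o2, if_neg hp]
    exact ⟨fun h => ⟨h.2.symm, h.1⟩, fun h => ⟨h.2, h.1.symm⟩⟩

/-- The inner boundary of the box is outside of `F`. -/
theorem Fr_out {R F : Finset (ℤ × ℤ)} (hB : Nb R F) (i : VB R ⊕ FB R)
    (h : FC.Fr (Fc R) (fc (st i))) : ¬ (boxN R).inD (inB R F) i := by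
  obtain ⟨r, hr, h1, h2⟩ := h
  intro hD
  apply hr
  rcases i with v | f
  · obtain ⟨f0, hf0, hc0⟩ := mem_verts.1 v.2
    have hf0F : f0 ∈ F := hD ⟨f0, hf0⟩ hc0
    have hall : ∀ f', Cor v.1 f' → f' ∈ R := fun f' hf' => hB f0 hf0F v.1 hc0 f' hf'
    simp only [st, Sum.map_inl, fc] at h1 h2
    rw [abs_le] at h1 h2
    obtain ⟨x, z⟩ := r
    simp only at h1 h2
    by_cases hp : (x + z) % 2 = 0
    · have e1 : ((x, z) : ℤ × ℤ) = fc (.inl ((x + z) / 2, (z - x) / 2)) := by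
        simp only [fc]; ext <;> simp <;> omega
      rw [e1, mem_Fc_inl, mem_verts]
      by_cases ha : (x + z) / 2 ≤ v.1.1
      · by_cases hb : (z - x) / 2 ≤ v.1.2
        · refine ⟨(v.1.1 - 1, v.1.2 - 1), hall _ ⟨1, 1, Or.inr rfl, Or.inr rfl, by ext <;> simp⟩, ?_⟩
          exact ⟨(x + z) / 2 - (v.1.1 - 1), (z - x) / 2 - (v.1.2 - 1), by omega, by omega,
            by ext <;> simp⟩
        · refine ⟨(v.1.1 - 1, v.1.2), hall _ ⟨1, 0, Or.inr rfl, Or.inl rfl, by ext <;> simp⟩, ?_⟩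
          exact ⟨(x + z) / 2 - (v.1.1 - 1), (z - x) / 2 - v.1.2, by omega, by omega,
            by ext <;> simp⟩
      · by_cases hb : (z - x) / 2 ≤ v.1.2
        · refine ⟨(v.1.1, v.1.2 - 1), hall _ ⟨0, 1, Or.inl rfl, Or.inr rfl, by ext <;> simp⟩, ?_⟩
          exact ⟨(x + z) / 2 - v.1.1, (z - x) / 2 - (v.1.2 - 1), by omega, by omega,
            by ext <;> simp⟩
        · refine ⟨(v.1.1, v.1.2), hall _ ⟨0, 0, Or.inl rfl, Or.inl rfl, by ext <;> simp⟩, ?_⟩
          exact ⟨(x + z) / 2 - v.1.1, (z - x) / 2 - v.1.2, by omega, by omega,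
            by ext <;> simp⟩
    · have e1 : ((x, z) : ℤ × ℤ) = fc (.inr ((x + z - 1) / 2, (z - x - 1) / 2)) := by
        simp only [fc]; ext <;> simp <;> omega
      rw [e1, mem_Fc_inr]
      refine hall _ ⟨v.1.1 - (x + z - 1) / 2, v.1.2 - (z - x - 1) / 2, by omega, by omega, ?_⟩
      ext <;> simp
  · have hfF : f.1 ∈ F := hD
    simp only [st, Sum.map_inr, fc] at h1 h2
    rw [abs_le] at h1 h2
    obtain ⟨x, z⟩ := r
    simp only at h1 h2
    by_cases hp : (x + z) % 2 = 0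
    · have e1 : ((x, z) : ℤ × ℤ) = fc (.inl ((x + z) / 2, (z - x) / 2)) := by
        simp only [fc]; ext <;> simp <;> omega
      rw [e1, mem_Fc_inl, mem_verts]
      refine ⟨f.1, hB.mem hfF, (x + z) / 2 - f.1.1, (z - x) / 2 - f.1.2, by omega, by omega, ?_⟩
      ext <;> simp
    · have e1 : ((x, z) : ℤ × ℤ) = fc (.inr ((x + z - 1) / 2, (z - x - 1) / 2)) := by
        simp only [fc]; ext <;> simp <;> omega
      rw [e1, mem_Fc_inr]
      set g : ℤ × ℤ := ((x + z - 1) / 2, (z - x - 1) / 2) with hg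
      have g1 : g.1 = (x + z - 1) / 2 := rfl
      have g2 : g.2 = (z - x - 1) / 2 := rfl
      -- a common corner
      refine hB f.1 hfF (max f.1.1 g.1, max f.1.2 g.2) ?_ g ?_
      · exact ⟨max f.1.1 g.1 - f.1.1, max f.1.2 g.2 - f.1.2, by omega, by omega, by ext <;> simp⟩
      · exact ⟨max f.1.1 g.1 - g.1, max f.1.2 g.2 - g.2, by omega, by omega, by ext <;> simp⟩

end Vale.Agent.P145.FK
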