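import Vale.Agent.P145.FK.Explore

/-!
P145, block F-C: the sandwich. `O` is a set of odd sites (the faces outside of the larger domain),
`I` the faces of the smaller domain. The tilt consists of a function `Ξ` of the configuration
outside of `Oᶜ`, signs included (boundary values, densities), of the event that `I` is not
connected to `O` through medial vertices which are not blocked, and of a function `X` which is
decreasing and does not depend on the inside of `I`. Under the tilted law the expectation of an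
observable of `Mon` inside `I` is between the one of `I` and the one of `Oᶜ` with zero boundary
condition.
-/

namespace Vale.Agent.P145.FK

open Finset
open scoped Classical

namespace Net

variable {V F E : Type*} {K : ℕ}

/-- Outside part of a configuration with signs, seen from `O`. -/
noncomputable def repS (N : Net V F E) (O : Set F) (p : Cfg V F E K × (V ⊕ F → Bool)) :
    Cfg V F E K × (V ⊕ F → Bool) :=
  (N.mixC (N.expl O p.1)ᶜ p.1 (fun _ => 0, fun _ => false),
    N.mixS (N.expl O p.1)ᶜ p.2 (fun _ => false))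

/-- Agreement outside `D`, signs included. -/
def agS (N : Net V F E) (D : Set F) (p q : Cfg V F E K × (V ⊕ F → Bool)) : Prop :=
  N.agOut D p.1 q.1 ∧ ∀ i, ¬ N.inD D i → p.2 i = q.2 i

lemma agS_symm {N : Net V F E} {D : Set F} {p q : Cfg V F E K × (V ⊕ F → Bool)}
    (h : N.agS D p q) : N.agS D q p := ⟨agOut_symm h.1, fun i hi => (h.2 i hi).symm⟩

lemma agS_trans {N : Net V F E} {D : Set F} {p q r : Cfg V F E K × (V ⊕ F → Bool)}
    (h : N.agS D p q) (h' : N.agS D q r) : N.agS D p r :=
  ⟨agOut_trans h.1 h'.1, fun i hi => (h.2 i hi).trans (h'.2 i hi)⟩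

lemma repS_iff (N : Net V F E) (O : Set F) (p q : Cfg V F E K × (V ⊕ F → Bool)) :
    N.repS O q = N.repS O p ↔ N.agS (N.expl O p.1)ᶜ p q := by
  constructor
  · intro h
    have h1 : N.agOut (N.expl O q.1)ᶜ q.1 (N.repS O q).1 := agOut_symm (N.agOut_mixC _ _ _)
    have h2 : N.agOut (N.expl O p.1)ᶜ p.1 (N.repS O p).1 := agOut_symm (N.agOut_mixC _ _ _)
    have e1 := expl_congr h1
    have e2 := expl_congr h2
    have e3 : N.expl O q.1 = N.expl O p.1 := by rw [← e1, ← e2, h]
    rw [e3] at h1
    rw [← h] at h2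
    refine ⟨agOut_trans h2 (agOut_symm h1), fun i hi => ?_⟩
    have h3 := congrFun (congrArg Prod.snd h) i
    unfold repS at h3
    simp only [mixS, e3, if_neg hi] at h3
    exact h3.symm
  · rintro ⟨h, hs⟩
    have e := expl_congr h
    unfold repS
    rw [e]
    refine Prod.ext (Prod.ext ?_ ?_) ?_
    · funext i
      by_cases hi : N.inD (N.expl O p.1)ᶜ i
      · simp [mixC, hi]
      · simp only [mixC, hi, if_false]
        exact (h.1 i hi).symm
    · funext j
      by_cases hj : N.inE (N.expl O p.1)ᶜ j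
      · simp [mixC, hj]
      · simp only [mixC, hj, if_false]
        exact (h.2 j hj).symm
    · funext i
      by_cases hi : N.inD (N.expl O p.1)ᶜ i
      · simp [mixS, hi]
      · simp only [mixS, hi, if_false]
        exact (hs i hi).symm

lemma mixC_mono_right (N : Net V F E) (D : Set F) (x : Cfg V F E K) {y z : Cfg V F E K}
    (h : y ≤ z) : N.mixC D x y ≤ N.mixC D x z := by
  refine ⟨fun i => ?_, fun e => ?_⟩
  · by_cases hi : N.inD D i
    · simp only [mixC, hi, if_true]; exact h.1 i
    · simp only [mixC, hi, if_false]; exact le_rfl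
  · by_cases he : N.inE D e
    · simp only [mixC, he, if_true]; exact h.2 e
    · simp only [mixC, he, if_false]; exact le_rfl

lemma mixC_eq_of_agOut {N : Net V F E} {D : Set F} {x y : Cfg V F E K} (h : N.agOut D x y) :
    N.mixC D x y = y := by
  refine Prod.ext ?_ ?_
  · funext i
    by_cases hi : N.inD D i
    · simp [mixC, hi]
    · simp only [mixC, hi, if_false]; exact h.1 i hi
  · funext e
    by_cases he : N.inE D e
    · simp [mixC, he]
    · simp only [mixC, he, if_false]; exact h.2 e he

lemma mixC_congr {N : Net V F E} {D : Set F} {x y z : Cfg V F E K} (h : N.agIn D y z) :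
    N.mixC D x y = N.mixC D x z := by
  refine Prod.ext ?_ ?_
  · funext i
    by_cases hi : N.inD D i
    · simp only [mixC, hi, if_true]; exact h.1 i hi
    · simp [mixC, hi]
  · funext e
    by_cases he : N.inE D e
    · simp only [mixC, he, if_true]; exact h.2 e he
    · simp [mixC, he]

lemma agOut_mixC_congr {N : Net V F E} {D I : Set F} {x y z : Cfg V F E K} (h : N.agOut I y z) :
    N.agOut I (N.mixC D x y) (N.mixC D x z) := by
  refine ⟨fun i hi => ?_, fun e he => ?_⟩
  · by_cases hD : N.inD D i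
    · simp only [mixC, hD, if_true]; exact h.1 i hi
    · simp [mixC, hD]
  · by_cases hD : N.inE D e
    · simp only [mixC, hD, if_true]; exact h.2 e he
    · simp [mixC, hD]

lemma agOut_mono {N : Net V F E} {D D' : Set F} (h : D ⊆ D') {x y : Cfg V F E K}
    (hx : N.agOut D x y) : N.agOut D' x y :=
  ⟨fun i hi => hx.1 i fun h' => hi (inD_mono h h'), fun e he => hx.2 e fun h' => he (inE_mono h h')⟩

section
variable [Fintype V] [Fintype F] [Fintype E]

/-- Both bounds on one class of the exploration. -/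
lemma class_both (N : Net V F E) {t : ℝ} (ht0 : 0 ≤ t) (ht : t ≤ 1)
    {κ : V ⊕ F → Fin (K + 1) → ℝ} (hκ : ∀ i z, 0 ≤ κ i z) {β : E → Bool → ℝ}
    (hβ : ∀ e b, 0 ≤ β e b) (hκ0 : ∀ i, 0 < κ i 0) (hβ0 : ∀ e, 0 < β e false)
    {I D D' : Set F} (hID : I ⊆ D) (hD : D ⊆ D') {p0 : Cfg V F E K × (V ⊕ F → Bool)}
    (hp : N.blk D p0.1) {X : Cfg V F E K → ℝ} (hX : ∀ x, 0 ≤ X x) (hXa : Antitone X)
    (hXI : ∀ x y, N.agOut I x y → X x = X y)
    {A : Cfg V F E K → (V ⊕ F → Bool) → ℝ} (hA : Mon A)
    (hAI : ∀ x x' s s', N.agIn I x x' → (∀ i, N.inD I i → s i = s' i) → A x s = A x' s') :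
    N.J t κ β (fun x s => (if N.agS D p0 (x, s) then 1 else 0) * X x * A x s) *
        N.J t κ β (fun x _ => N.zbi D' x)
      ≤ N.J t κ β (fun x s => (if N.agS D p0 (x, s) then 1 else 0) * X x) *
        N.J t κ β (fun x s => N.zbi D' x * A x s) ∧
    N.J t κ β (fun x s => (if N.agS D p0 (x, s) then 1 else 0) * X x) *
        N.J t κ β (fun x s => N.zbi I x * A x s)
      ≤ N.J t κ β (fun x s => (if N.agS D p0 (x, s) then 1 else 0) * X x * A x s) *
        N.J t κ β (fun x _ => N.zbi I x) := by
  set Go : Cfg V F E K → (V ⊕ F → Bool) → ℝ := fun x s => if N.agS D p0 (x, s) then 1 else 0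
    with hGo
  set Y : Cfg V F E K → ℝ := fun x => X (N.mixC D p0.1 x) with hY
  have hY0 : ∀ x, 0 ≤ Y x := fun x => hX _
  have hYa : Antitone Y := fun x y h => hXa (N.mixC_mono_right D p0.1 h)
  have hYI : ∀ x y, N.agOut I x y → Y x = Y y := fun x y h => hXI _ _ (agOut_mixC_congr h)
  have hGo0 : ∀ x s, 0 ≤ Go x s := fun x s => by simp only [hGo]; split_ifs <;> norm_num
  have e1 : ∀ x s, Go x s * X x = Go x s * Y x := by
    intro x s
    by_cases h : N.agS D p0 (x, s)
    · have h1 : N.mixC D p0.1 x = x := mixC_eq_of_agOut h.1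
      simp only [hY, h1]
    · have h1 : Go x s = 0 := if_neg h
      rw [h1, zero_mul, zero_mul]
  have g1 : ∀ x s, Go x s ≠ 0 → N.blk D x := by
    intro x s hx
    have h : N.agS D p0 (x, s) := by
      by_contra h
      exact hx (if_neg h)
    refine ⟨fun v hv hf => ?_, fun e he => ?_⟩
    · rw [← h.1.1 _ hv]; exact hp.1 v hv hf
    · rw [← h.1.2 e fun h' => he ⟨fun _ => h'.2, fun _ => h'.1⟩]; exact hp.2 e he
  have g2 : ∀ x x' s s', N.agOut D x x' → (∀ i, ¬ N.inD D i → s i = s' i) →
      Go x s = Go x' s' := by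
    intro x x' s s' h hs
    have h1 : N.agS D (x, s) (x', s') := ⟨h, hs⟩
    have : N.agS D p0 (x, s) ↔ N.agS D p0 (x', s') :=
      ⟨fun h' => agS_trans h' h1, fun h' => agS_trans h' (agS_symm h1)⟩
    simp only [hGo, this]
  have m1 := N.markov t κ β (Go := Go) (Gi := fun x s => Y x * A x s) g1 g2 (by
    intro x x' s s' h hs
    have h1 : Y x = Y x' := by
      simp only [hY, mixC_congr h]
    have h2 : A x s = A x' s' := hAI _ _ _ _ (agIn_mono hID h) fun i hi => hs i (inD_mono hID hi)
    rw [h1, h2])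
  have m2 := N.markov t κ β (Go := Go) (Gi := fun x _ => Y x) g1 g2 (by
    intro x x' s s' h hs
    simp only [hY, mixC_congr h])
  have z0 := N.J_zbi_pos ht0 hκ hβ hκ0 hβ0 (D := D)
  have d1 := N.dom_mono ht0 ht hκ hβ hD hY0 hYa hA
  have d2 := N.zero_le_out ht0 ht hκ hβ I (X := fun _ => 1) (Θ := fun x => N.zbi D x * Y x)
    (C := fun _ => 1) (fun _ => zero_le_one) (fun _ _ _ => le_rfl)
    (fun x => mul_nonneg (N.zbi_nonneg D x) (hY0 x))
    (fun x y h => by
      have h1 : N.zbi D x = N.zbi D y := by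
        unfold zbi
        simp only [zb_congr (agOut_mono hID h)]
      rw [h1, hYI x y h]) (fun _ => zero_le_one) (fun _ _ _ => le_rfl) hA
  simp only [one_mul, mul_one] at d2
  have r1 : N.J t κ β (fun x s => Go x s * X x * A x s)
      = N.J t κ β (fun x s => Go x s * (Y x * A x s)) := by
    congr 1
    funext x s
    rw [e1, mul_assoc]
  have r2 : N.J t κ β (fun x s => Go x s * X x) = N.J t κ β (fun x s => Go x s * Y x) := by
    congr 1
    funext x s
    rw [e1]
  have r3 : N.J t κ β (fun x s => N.zbi D x * (Y x * A x s))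
      = N.J t κ β (fun x s => Y x * N.zbi D x * A x s) := by
    congr 1
    funext x s
    ring
  have r4 : N.J t κ β (fun x _ => N.zbi D x * Y x)
      = N.J t κ β (fun x _ => Y x * N.zbi D x) := by
    congr 1
    funext x s
    ring
  have r5 : N.J t κ β (fun x s => N.zbi D x * Y x * A x s)
      = N.J t κ β (fun x s => Y x * N.zbi D x * A x s) := by
    congr 1
    funext x s
    ring
  have b0 : 0 ≤ N.J t κ β Go := N.J_nonneg ht0 hκ hβ hGo0
  rw [r1, r2]
  rw [r3] at m1
  rw [r4] at m2
  rw [r5, r4] at d2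
  set a1 := N.J t κ β (fun x s => Go x s * (Y x * A x s))
  set a2 := N.J t κ β (fun x s => Go x s * Y x)
  set g := N.J t κ β Go
  set c1 := N.J t κ β (fun x s => Y x * N.zbi D x * A x s)
  set c2 := N.J t κ β (fun x _ => Y x * N.zbi D x)
  set z := N.J t κ β (fun x _ => N.zbi D x)
  constructor
  · refine le_of_mul_le_mul_right ?_ z0
    calc a1 * N.J t κ β (fun x _ => N.zbi D' x) * z
        = (a1 * z) * N.J t κ β (fun x _ => N.zbi D' x) := by ring
      _ = g * (c1 * N.J t κ β (fun x _ => N.zbi D' x)) := by rw [m1]; ring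
      _ ≤ g * (c2 * N.J t κ β (fun x s => N.zbi D' x * A x s)) := mul_le_mul_of_nonneg_left d1 b0
      _ = (a2 * z) * N.J t κ β (fun x s => N.zbi D' x * A x s) := by rw [m2]; ring
      _ = _ := by ring
  · refine le_of_mul_le_mul_right ?_ z0
    calc a2 * N.J t κ β (fun x s => N.zbi I x * A x s) * z
        = (a2 * z) * N.J t κ β (fun x s => N.zbi I x * A x s) := by ring
      _ = g * (N.J t κ β (fun x s => N.zbi I x * A x s) * c2) := by rw [m2]; ring
      _ ≤ g * (N.J t κ β (fun x _ => N.zbi I x) * c1) := mul_le_mul_of_nonneg_left d2 b0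
      _ = (a1 * z) * N.J t κ β (fun x _ => N.zbi I x) := by rw [m1]; ring
      _ = _ := by ring

/-- The sandwich. -/
theorem sandwich (N : Net V F E) (hN : N.Loc) {t : ℝ} (ht0 : 0 ≤ t) (ht : t ≤ 1)
    {κ : V ⊕ F → Fin (K + 1) → ℝ} (hκ : ∀ i z, 0 ≤ κ i z) {β : E → Bool → ℝ}
    (hβ : ∀ e b, 0 ≤ β e b) (hκ0 : ∀ i, 0 < κ i 0) (hβ0 : ∀ e, 0 < β e false)
    {O I : Set F} {Ξ : Cfg V F E K → (V ⊕ F → Bool) → ℝ} (hΞ : ∀ x s, 0 ≤ Ξ x s)
    (hΞO : ∀ x x' s s', N.agOut Oᶜ x x' → (∀ i, ¬ N.inD Oᶜ i → s i = s' i) → Ξ x s = Ξ x' s')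
    {X : Cfg V F E K → ℝ} (hX : ∀ x, 0 ≤ X x) (hXa : Antitone X)
    (hXI : ∀ x y, N.agOut I x y → X x = X y)
    {A : Cfg V F E K → (V ⊕ F → Bool) → ℝ} (hA : Mon A)
    (hAI : ∀ x x' s s', N.agIn I x x' → (∀ i, N.inD I i → s i = s' i) → A x s = A x' s') :
    N.J t κ β (fun x s => Ξ x s * X x * (if Disjoint (N.expl O x) I then 1 else 0) * A x s) *
        N.J t κ β (fun x _ => N.zbi Oᶜ x)
      ≤ N.J t κ β (fun x s => Ξ x s * X x * (if Disjoint (N.expl O x) I then 1 else 0)) *
        N.J t κ β (fun x s => N.zbi Oᶜ x * A x s) ∧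
    N.J t κ β (fun x s => Ξ x s * X x * (if Disjoint (N.expl O x) I then 1 else 0)) *
        N.J t κ β (fun x s => N.zbi I x * A x s)
      ≤ N.J t κ β (fun x s => Ξ x s * X x * (if Disjoint (N.expl O x) I then 1 else 0) * A x s) *
        N.J t κ β (fun x _ => N.zbi I x) := by
  -- decomposition of a sum over the classes
  have dec : ∀ G : Cfg V F E K → (V ⊕ F → Bool) → ℝ,
      N.J t κ β (fun x s => Ξ x s * X x * (if Disjoint (N.expl O x) I then 1 else 0) * G x s)
        = ∑ c : Cfg V F E K × (V ⊕ F → Bool), N.J t κ β (fun x s =>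
          Ξ x s * X x * ((if Disjoint (N.expl O x) I then 1 else 0) *
            (if N.repS O (x, s) = c then 1 else 0)) * G x s) := by
    intro G
    simp only [J_eq_tw]
    rw [Finset.sum_comm]
    refine Finset.sum_congr rfl fun p _ => ?_
    have h : ∑ c : Cfg V F E K × (V ⊕ F → Bool), (if N.repS O (p.1, p.2) = c then (1 : ℝ) else 0)
        = 1 := by
      simp
    calc N.tw t κ β p.1 p.2 * (Ξ p.1 p.2 * X p.1 * (if Disjoint (N.expl O p.1) I then 1 else 0) *
          G p.1 p.2)
        = N.tw t κ β p.1 p.2 * (Ξ p.1 p.2 * X p.1 * (if Disjoint (N.expl O p.1) I then 1 else 0) *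
          G p.1 p.2) * ∑ c : Cfg V F E K × (V ⊕ F → Bool),
            (if N.repS O (p.1, p.2) = c then (1 : ℝ) else 0) := by rw [h, mul_one]
      _ = _ := by
        rw [Finset.mul_sum]
        refine Finset.sum_congr rfl fun η _ => ?_
        ring
  have dec1 := dec (fun _ _ => 1)
  simp only [mul_one] at dec1
  -- each class
  have cls : ∀ c : Cfg V F E K × (V ⊕ F → Bool),
      N.J t κ β (fun x s => Ξ x s * X x * ((if Disjoint (N.expl O x) I then 1 else 0) *
            (if N.repS O (x, s) = c then 1 else 0)) * A x s) *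
          N.J t κ β (fun x _ => N.zbi Oᶜ x)
        ≤ N.J t κ β (fun x s => Ξ x s * X x * ((if Disjoint (N.expl O x) I then 1 else 0) *
            (if N.repS O (x, s) = c then 1 else 0))) *
          N.J t κ β (fun x s => N.zbi Oᶜ x * A x s) ∧
      N.J t κ β (fun x s => Ξ x s * X x * ((if Disjoint (N.expl O x) I then 1 else 0) *
            (if N.repS O (x, s) = c then 1 else 0))) *
          N.J t κ β (fun x s => N.zbi I x * A x s)
        ≤ N.J t κ β (fun x s => Ξ x s * X x * ((if Disjoint (N.expl O x) I then 1 else 0) *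
            (if N.repS O (x, s) = c then 1 else 0)) * A x s) *
          N.J t κ β (fun x _ => N.zbi I x) := by
    intro c
    by_cases hc : ∃ p0 : Cfg V F E K × (V ⊕ F → Bool), Disjoint (N.expl O p0.1) I ∧
        N.repS O p0 = c
    · obtain ⟨p0, hd, he⟩ := hc
      have hfun : ∀ x s, Ξ x s * X x * ((if Disjoint (N.expl O x) I then (1 : ℝ) else 0) *
          (if N.repS O (x, s) = c then 1 else 0))
            = Ξ p0.1 p0.2 * ((if N.agS (N.expl O p0.1)ᶜ p0 (x, s) then 1 else 0) * X x) := by
        intro x s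
        by_cases h : N.agS (N.expl O p0.1)ᶜ p0 (x, s)
        · have e := expl_congr h.1
          have hr := (N.repS_iff O p0 (x, s)).mpr h
          have hO : N.agOut Oᶜ p0.1 x :=
            agOut_mono (Set.compl_subset_compl.mpr (N.subset_expl O p0.1)) h.1
          have hΞ1 : Ξ x s = Ξ p0.1 p0.2 := by
            refine (hΞO _ _ _ _ hO fun i hi => h.2 i fun h' => hi ?_).symm
            exact inD_mono (Set.compl_subset_compl.mpr (N.subset_expl O p0.1)) h'
          have e' : N.expl O x = N.expl O p0.1 := e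
          rw [if_pos h, e', if_pos hd, hr, if_pos he, hΞ1]
          ring
        · rw [if_neg h]
          have : ¬ N.repS O (x, s) = c := by
            intro h'
            exact h ((N.repS_iff O p0 (x, s)).mp (h'.trans he.symm))
          rw [if_neg this]
          ring
      have hID : I ⊆ (N.expl O p0.1)ᶜ := fun f hf hf' => (Set.disjoint_left.mp hd) hf' hf
      have key := N.class_both ht0 ht hκ hβ hκ0 hβ0 (D := (N.expl O p0.1)ᶜ) (D' := Oᶜ) hID
        (Set.compl_subset_compl.mpr (N.subset_expl O p0.1)) (blk_expl hN O p0.1) hX hXa hXI hA hAI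
      have hm : ∀ G : Cfg V F E K → (V ⊕ F → Bool) → ℝ,
          N.J t κ β (fun x s => Ξ p0.1 p0.2 * G x s) = Ξ p0.1 p0.2 * N.J t κ β G := by
        intro G
        rw [J_eq_tw, J_eq_tw, Finset.mul_sum]
        refine Finset.sum_congr rfl fun p _ => ?_
        ring
      have f1 : N.J t κ β (fun x s => Ξ x s * X x * ((if Disjoint (N.expl O x) I then 1 else 0) *
            (if N.repS O (x, s) = c then 1 else 0)))
          = Ξ p0.1 p0.2 * N.J t κ β (fun x s =>
            (if N.agS (N.expl O p0.1)ᶜ p0 (x, s) then 1 else 0) * X x) := by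
        rw [← hm]
        congr 1
        funext x s
        exact hfun x s
      have f2 : N.J t κ β (fun x s => Ξ x s * X x * ((if Disjoint (N.expl O x) I then 1 else 0) *
            (if N.repS O (x, s) = c then 1 else 0)) * A x s)
          = Ξ p0.1 p0.2 * N.J t κ β (fun x s =>
            (if N.agS (N.expl O p0.1)ᶜ p0 (x, s) then 1 else 0) * X x * A x s) := by
        rw [← hm]
        congr 1
        funext x s
        rw [hfun x s]
        ring
      rw [f1, f2]
      constructor
      · calc _ = Ξ p0.1 p0.2 * (N.J t κ β (fun x s =>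
            (if N.agS (N.expl O p0.1)ᶜ p0 (x, s) then 1 else 0) * X x * A x s) *
            N.J t κ β (fun x _ => N.zbi Oᶜ x)) := by ring
          _ ≤ _ := mul_le_mul_of_nonneg_left key.1 (hΞ _ _)
          _ = _ := by ring
      · calc _ = Ξ p0.1 p0.2 * (N.J t κ β (fun x s =>
            (if N.agS (N.expl O p0.1)ᶜ p0 (x, s) then 1 else 0) * X x) *
            N.J t κ β (fun x s => N.zbi I x * A x s)) := by ring
          _ ≤ _ := mul_le_mul_of_nonneg_left key.2 (hΞ _ _)
          _ = _ := by ring
    · have hfun : ∀ x s, (if Disjoint (N.expl O x) I then (1 : ℝ) else 0) *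
          (if N.repS O (x, s) = c then 1 else 0) = 0 := by
        intro x s
        by_cases h1 : Disjoint (N.expl O x) I
        · by_cases h2 : N.repS O (x, s) = c
          · exact absurd ⟨(x, s), h1, h2⟩ hc
          · rw [if_neg h2, mul_zero]
        · rw [if_neg h1, zero_mul]
      simp only [hfun, mul_zero, zero_mul]
      have : N.J t κ β (fun (_ : Cfg V F E K) (_ : V ⊕ F → Bool) => (0 : ℝ)) = 0 := by
        simp [J]
      simp only [this, zero_mul, le_refl, and_self]
  rw [dec A, dec1]
  constructor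
  · rw [Finset.sum_mul, Finset.sum_mul]
    exact Finset.sum_le_sum fun c _ => (cls c).1
  · rw [Finset.sum_mul, Finset.sum_mul]
    exact Finset.sum_le_sum fun c _ => (cls c).2

end

end Net

end Vale.Agent.P145.FK
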