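import Vale.Agent.P145.FK.K1
import Vale.Agent.P145.FC.Sandwich

/-!
P145, block F-C: the sandwich for finite sums over signed heights on a rectangle with frozen
boundary values, in terms of the zero boundary expectations `Dom.ze`.
-/

namespace Vale.Agent.P145.FK

open Finset Vale.Agent.P145.FP Vale.Agent.P145.Dom
open scoped Classical

namespace Net

variable {V F E : Type*} {K : ℕ}

/-- One step through an edge with `w e = true`. -/
def stepW (N : Net V F E) (w : E → Bool) (f f' : F) : Prop :=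
  ∃ e, w e = true ∧ ((N.f e = f ∧ N.g e = f') ∨ (N.g e = f ∧ N.f e = f'))

/-- The odd sites which are connected to `O` through the edges with `w e = true`. -/
def rch (N : Net V F E) (O : Set F) (w : E → Bool) : Set F :=
  {f | ∃ f0 ∈ O, Relation.ReflTransGen (N.stepW w) f0 f}

/-- The edge variables of a configuration: not blocked. -/
noncomputable def wx (N : Net V F E) (x : Cfg V F E K) : E → Bool := fun e => decide (¬ N.blocked x e)

lemma wx_true {N : Net V F E} {x : Cfg V F E K} {e : E} : N.wx x e = true ↔ ¬ N.blocked x e := by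
  unfold wx
  exact decide_eq_true_iff

lemma rch_wx (N : Net V F E) (O : Set F) (x : Cfg V F E K) : N.rch O (N.wx x) = N.expl O x := by
  have h : N.stepW (N.wx x) = N.step x := by
    funext f f'
    refine propext ⟨?_, ?_⟩
    · rintro ⟨e, he, h⟩
      exact ⟨e, wx_true.1 he, h⟩
    · rintro ⟨e, he, h⟩
      exact ⟨e, wx_true.2 he, h⟩
  unfold rch expl
  rw [h]

lemma wx_mono {N : Net V F E} {x y : Cfg V F E K} (h : x ≤ y) : N.wx x ≤ N.wx y := by
  intro e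
  by_cases hy : N.wx y e = true
  · rw [hy]; exact le_top
  · have h1 : N.blocked y e := by
      by_contra h2
      exact hy (wx_true.2 h2)
    have h2 : N.wx x e = false := by
      rw [← Bool.not_eq_true, wx_true]
      exact not_not.2 (blocked_anti h h1)
    rw [h2]
    exact bot_le

lemma wx_congr {N : Net V F E} {I : Set F} {x y : Cfg V F E K} (h : N.agOut I x y) {e : E}
    (he : ¬ N.inE I e) : N.wx x e = N.wx y e := by
  have hu : ¬ N.inD I (.inl (N.u e)) := fun h' => he ⟨h' _ (N.huf e), h' _ (N.hug e)⟩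
  have hv : ¬ N.inD I (.inl (N.v e)) := fun h' => he ⟨h' _ (N.hvf e), h' _ (N.hvg e)⟩
  unfold wx blocked
  rw [h.1 _ hu, h.1 _ hv, h.2 _ he]

end Net

/-- `A` depends only on the heights at the vertices all of whose faces are in `F`. -/
def Dep (F : Finset (ℤ × ℤ)) (A : (Site → ℤ) → ℝ) : Prop :=
  ∀ x x' : Site → ℤ, (∀ v, (∀ f, Cor v f → f ∈ F) → x (.inl v) = x' (.inl v)) → A x = A x'

/-- The weighted sum over the signed heights on `B`. -/
noncomputable def SS {B : Finset (ℤ × ℤ)} (K : ℕ) (t : ℝ) (Γ : (EB B → Bool) → ℝ)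
    (G : (VB B ⊕ FB B → ℤ) → ℝ) : ℝ :=
  ∑ y ∈ Net.TTs (V := VB B) K (Set.univ : Set (FB B)),
    G y * ∑ w : EB B → Bool, (boxN B).Φ t Set.univ (Net.toCf y w) * Γ w

/-- The sandwich on a box. -/
theorem box_sandwich {B F₁ F₂ : Finset (ℤ × ℤ)} (hL : (boxN B).Loc) (hB : Nb B F₂) (hF : F₁ ⊆ F₂)
    {t : ℝ} (ht0 : 0 < t) (ht1 : t ≤ 1) {K : ℕ} (hK : KF F₂ ≤ K)
    {Ξ : (VB B ⊕ FB B → ℤ) → ℝ} (hΞ0 : ∀ y, 0 ≤ Ξ y)
    (hΞO : ∀ y y', (∀ i, ¬ (boxN B).inD (inB B F₂) i → y i = y' i) → Ξ y = Ξ y')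
    {Γ : (EB B → Bool) → ℝ} (hΓ0 : ∀ w, 0 ≤ Γ w) (hΓa : Antitone Γ)
    (hΓI : ∀ w w', (∀ e, ¬ (boxN B).inE (inB B F₁) e → w e = w' e) → Γ w = Γ w')
    (hΓZ : ∀ w, Γ w ≠ 0 → Disjoint ((boxN B).rch (inB B (F₂ : Set (ℤ × ℤ)))ᶜ w)
      (inB B (F₁ : Set (ℤ × ℤ))))
    {A : (Site → ℤ) → ℝ} (hA : PosH A) (hAI : Dep F₁ A) :
    SS K t Γ (fun y => Ξ y * A (xt y)) ≤ ze t⁻¹ F₂ A * SS K t Γ Ξ ∧
    ze t⁻¹ F₁ A * SS K t Γ Ξ ≤ SS K t Γ (fun y => Ξ y * A (xt y)) := by
  set N := boxN B with hNdef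
  have hB1 : Nb B (F₁ : Set (ℤ × ℤ)) := hB.mono (by exact_mod_cast hF)
  have hK1 : KF F₁ ≤ K := (KF_mono hF).trans hK
  set pu : Net.Cfg (VB B) (FB B) (EB B) K → (VB B ⊕ FB B → Bool) → (VB B ⊕ FB B → ℤ) :=
    fun x s i => Net.pv (V := VB B) (Set.univ : Set (FB B)) i (x.1 i, s i) with hpu
  have hAu : ∀ (F' : Set (ℤ × ℤ)) (x : Net.Cfg (VB B) (FB B) (EB B) K) (s : VB B ⊕ FB B → Bool),
      A (sgh F' x s) = A (xt (pu x s)) := by
    intro F' x s
    rw [hA.indep F' Set.univ x s]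
    have : inB B Set.univ = (Set.univ : Set (FB B)) := rfl
    unfold sgh
    rw [this]
  have key := N.sandwich (K := K) hL ht0.le ht1 (κ := Net.κ6) Net.κ6_nonneg (β := Net.β6 t)
    (Net.β6_nonneg ht0.le ht1) (fun i => Net.κ6_pos i 0) (Net.β6_pos ht0)
    (O := (inB B (F₂ : Set (ℤ × ℤ)))ᶜ) (I := inB B (F₁ : Set (ℤ × ℤ)))
    (Ξ := fun x s => Ξ (pu x s)) (fun x s => hΞ0 _)
    (by
      intro x x' s s' h hs
      rw [compl_compl] at h hs
      refine hΞO _ _ fun i hi => ?_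
      simp only [hpu]
      rw [h.1 _ hi, hs _ hi])
    (X := fun x => Γ (N.wx x)) (fun x => hΓ0 _) (fun x y h => hΓa (Net.wx_mono h))
    (fun x y h => hΓI _ _ fun e he => Net.wx_congr h he)
    (A := fun x s => A (sgh (F₁ : Set (ℤ × ℤ)) x s)) (hA.mon (F := (F₁ : Set (ℤ × ℤ))))
    (by
      intro x x' s s' h hs
      refine hAI _ _ fun v hv => ?_
      by_cases hvB : v ∈ verts B
      · have hD : N.inD (inB B (F₁ : Set (ℤ × ℤ))) (.inl ⟨v, hvB⟩) := fun f hf => hv f.1 hf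
        have e1 := h.1 _ hD
        have e2 := hs _ hD
        simp only [sgh, xt, Sum.elim_inl, dif_pos hvB]
        rw [e1, e2]
      · simp only [sgh, xt, Sum.elim_inl, dif_neg hvB])
  rw [compl_compl] at key
  have hZ : ∀ x : Net.Cfg (VB B) (FB B) (EB B) K, Γ (N.wx x) *
      (if Disjoint (N.expl (inB B (F₂ : Set (ℤ × ℤ)))ᶜ x) (inB B (F₁ : Set (ℤ × ℤ))) then 1 else 0)
      = Γ (N.wx x) := by
    intro x
    by_cases h : Γ (N.wx x) = 0
    · rw [h, zero_mul]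
    · have := hΓZ _ h
      rw [Net.rch_wx] at this
      rw [if_pos this, mul_one]
  have j1 : ∀ G : Net.Cfg (VB B) (FB B) (EB B) K → (VB B ⊕ FB B → Bool) → ℝ,
      N.J t Net.κ6 (Net.β6 t) (fun x s => Ξ (pu x s) * Γ (N.wx x) *
        (if Disjoint (N.expl (inB B (F₂ : Set (ℤ × ℤ)))ᶜ x) (inB B (F₁ : Set (ℤ × ℤ))) then 1
          else 0) * G x s) =
      N.J t Net.κ6 (Net.β6 t) (fun x s => Ξ (pu x s) * Γ (N.wx x) * G x s) := by
    intro G
    congr 1
    funext x s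
    rw [mul_assoc (Ξ (pu x s)), hZ]
  have j1' : N.J t Net.κ6 (Net.β6 t) (fun x s => Ξ (pu x s) * Γ (N.wx x) *
        (if Disjoint (N.expl (inB B (F₂ : Set (ℤ × ℤ)))ᶜ x) (inB B (F₁ : Set (ℤ × ℤ))) then 1
          else 0)) =
      N.J t Net.κ6 (Net.β6 t) (fun x s => Ξ (pu x s) * Γ (N.wx x)) := by
    congr 1
    funext x s
    rw [mul_assoc (Ξ (pu x s)), hZ]
  rw [j1, j1'] at key
  -- the bridge
  have hzu : ∀ x : Net.Cfg (VB B) (FB B) (EB B) K, N.zbi Set.univ x = 1 := by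
    intro x
    refine if_pos ⟨fun i hi => absurd ?_ hi, fun e he => absurd ⟨Set.mem_univ _, Set.mem_univ _⟩ he⟩
    rcases i with v | f
    · exact fun f _ => Set.mem_univ f
    · exact Set.mem_univ f
  set C : ℝ := t ^ Fintype.card (EB B) *
    2 ^ (Finset.univ.filter (fun f : FB B => f ∉ (Set.univ : Set (FB B)))).card with hC
  have hC0 : 0 < C := by rw [hC]; positivity
  have b1 : ∀ Θ : (VB B ⊕ FB B → ℤ) → ℝ,
      N.J (K := K) t Net.κ6 (Net.β6 t) (fun x s => Ξ (pu x s) * Γ (N.wx x) * Θ (pu x s)) =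
      C * SS K t Γ (fun y => Ξ y * Θ y) := by
    intro Θ
    have h1 := Net.bridge_sum (K := K) N ht0 Set.univ
      (fun y => Ξ (Sum.elim y.h y.k) * Γ y.w * Θ (Sum.elim y.h y.k))
    have e1 : (fun (x : Net.Cfg (VB B) (FB B) (EB B) K) (s : VB B ⊕ FB B → Bool) =>
        N.zbi Set.univ x * (Ξ (Sum.elim (N.img Set.univ x s).h (N.img Set.univ x s).k) *
          Γ (N.img Set.univ x s).w * Θ (Sum.elim (N.img Set.univ x s).h (N.img Set.univ x s).k)))
        = fun x s => Ξ (pu x s) * Γ (N.wx x) * Θ (pu x s) := by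
      funext x s
      have e2 : (Sum.elim (N.img Set.univ x s).h (N.img Set.univ x s).k : VB B ⊕ FB B → ℤ)
          = pu x s := by
        funext i
        rcases i with v | f <;> rfl
      have e3 : (N.img Set.univ x s).w = N.wx x := by
        funext e
        rw [Bool.eq_iff_iff, Net.img_w_true, Net.wx_true]
        exact ⟨fun h => h.2, fun h => ⟨⟨Set.mem_univ _, Set.mem_univ _⟩, h⟩⟩
      rw [hzu, one_mul, e2, e3]
    rw [e1] at h1
    rw [h1]
    have e5 : (t ^ Fintype.card (EB B) * 2 ^ (Finset.univ.filter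
        (fun f : FB B => f ∉ (Set.univ : Set (FB B)))).card : ℝ) = C := by
      rw [hC]
    refine congrArg₂ (· * ·) (by rw [← e5]; congr) ?_
    unfold SS Net.TTs
    refine Finset.sum_congr rfl fun y _ => ?_
    rw [Finset.mul_sum]
    refine Finset.sum_congr (Finset.ext fun _ => by simp) fun w _ => ?_
    have e4 : (Sum.elim (Net.toCf y w : FC.Cf (VB B) (FB B) (EB B)).h (Net.toCf y w).k :
        VB B ⊕ FB B → ℤ) = y := by
      funext i
      rcases i with v | f <;> rfl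
    rw [e4]
    show N.Φ t Set.univ (Net.toCf y w) * (Ξ y * Γ w * Θ y) =
      Ξ y * Θ y * (N.Φ t Set.univ (Net.toCf y w) * Γ w)
    ring
  have b2 : N.J (K := K) t Net.κ6 (Net.β6 t) (fun x s => Ξ (pu x s) * Γ (N.wx x)) =
      C * SS K t Γ Ξ := by
    have h1 := b1 (fun _ => 1)
    simp only [mul_one] at h1
    exact h1
  have b3 : N.J (K := K) t Net.κ6 (Net.β6 t) (fun x s => Ξ (pu x s) * Γ (N.wx x) *
      A (sgh (F₁ : Set (ℤ × ℤ)) x s)) = C * SS K t Γ (fun y => Ξ y * A (xt y)) := by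
    simp only [hAu]
    exact b1 (fun y => A (xt y))
  have b4 := J_ze hB hK ht0 ht1 A
  have b5 := J_ze hB1 hK1 ht0 ht1 A
  have b4' : N.J (K := K) t Net.κ6 (Net.β6 t) (fun x s => N.zbi (inB B (F₂ : Set (ℤ × ℤ))) x *
      A (sgh (F₁ : Set (ℤ × ℤ)) x s)) =
      N.J (K := K) t Net.κ6 (Net.β6 t) (fun x s => N.zbi (inB B (F₂ : Set (ℤ × ℤ))) x *
      A (sgh (F₂ : Set (ℤ × ℤ)) x s)) := by
    simp only [hAu]
  have p1 := N.J_zbi_pos (K := K) ht0.le Net.κ6_nonneg (Net.β6_nonneg ht0.le ht1)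
    (fun i => Net.κ6_pos i 0) (fun e => Net.β6_pos ht0 e) (inB B (F₁ : Set (ℤ × ℤ)))
  have p2 := N.J_zbi_pos (K := K) ht0.le Net.κ6_nonneg (Net.β6_nonneg ht0.le ht1)
    (fun i => Net.κ6_pos i 0) (fun e => Net.β6_pos ht0 e) (inB B (F₂ : Set (ℤ × ℤ)))
  rw [b3, b2, b4', b4, b5] at key
  set j1 := N.J (K := K) t Net.κ6 (Net.β6 t)
    (fun x _ => N.zbi (inB B (F₁ : Set (ℤ × ℤ))) x) with hj1
  set j2 := N.J (K := K) t Net.κ6 (Net.β6 t)
    (fun x _ => N.zbi (inB B (F₂ : Set (ℤ × ℤ))) x) with hj2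
  set s1 := SS K t Γ (fun y => Ξ y * A (xt y)) with hs1
  set s0 := SS K t Γ Ξ with hs0
  constructor
  · refine le_of_mul_le_mul_left ?_ (mul_pos hC0 p2)
    calc C * j2 * s1 = C * s1 * j2 := by ring
      _ ≤ C * s0 * (j2 * ze t⁻¹ F₂ A) := key.1
      _ = _ := by ring
  · refine le_of_mul_le_mul_left ?_ (mul_pos hC0 p1)
    calc C * j1 * (ze t⁻¹ F₁ A * s0) = C * s0 * (j1 * ze t⁻¹ F₁ A) := by ring
      _ ≤ C * s1 * j1 := key.2
      _ = _ := by ring

end Vale.Agent.P145.FK
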