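import Mathlib

/-!
The abstract continuity lemma for a family of moments which is monotone in the domain.

`M n s i`: the moment number `i` in the domain with parameter `s` (larger `s`, larger domain) on the
lattice number `n`; `x n i`: the moment in the lattice domain of interest, which is eventually
squeezed between `M n s i` and `M n s' i` for all `s < 0 < s'`. If every limit `m` of the `M n`
agrees with `V` at the common continuity points of `m`, and `V` is continuous at `0`, then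
`x n i → V 0 i`. No continuity of the limits at `0` is needed.
-/

namespace Vale.Agent.P145.FC

open Filter Topology Set

variable {ι : Type*}

theorem countable_discont [Countable ι] {a : ℝ} {m : ℝ → ι → ℝ}
    (hm : ∀ i, MonotoneOn (fun s => m s i) (Ioo (-a) a)) :
    {s : ℝ | s ∈ Ioo (-a) a ∧ ¬ ∀ i, ContinuousAt (fun s => m s i) s}.Countable := by
  have h : {s : ℝ | s ∈ Ioo (-a) a ∧ ¬ ∀ i, ContinuousAt (fun s => m s i) s} ⊆
      ⋃ i, {s : ℝ | s ∈ Ioo (-a) a ∧ ¬ ContinuousWithinAt (fun s => m s i) (Ioo (-a) a) s} := by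
    rintro s ⟨hs, hs'⟩
    push Not at hs'
    obtain ⟨i, hi⟩ := hs'
    refine mem_iUnion.2 ⟨i, hs, fun hc => hi ?_⟩
    exact hc.continuousAt (isOpen_Ioo.mem_nhds hs)
  exact (countable_iUnion fun i => (hm i).countable_not_continuousWithinAt).mono h

/-- A point outside a countable set in a nonempty open interval. -/
theorem exists_notMem {S : Set ℝ} (hS : S.Countable) {b c : ℝ} (h : b < c) :
    ∃ s ∈ Ioo b c, s ∉ S := by
  by_contra hcon
  push Not at hcon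
  exact absurd (Cardinal.Real.Ioo_countable_iff.1 (hS.mono hcon)) (not_le.2 h)

/-- Core of the continuity lemma: limits along any filter `L`, which exist on a dense set `S` of
parameters. -/
theorem tendsto_core [Countable ι] {a : ℝ} (ha : 0 < a) {L : Filter ℕ} {M : ℕ → ℝ → ι → ℝ}
    {x : ℕ → ι → ℝ} {V m : ℝ → ι → ℝ} {S : Set ℝ} (hS : Ioo (-a) a ⊆ closure S)
    (hm : ∀ i, MonotoneOn (fun s => m s i) (Ioo (-a) a))
    (hML : ∀ i, ∀ s ∈ S, s ∈ Ioo (-a) a → Tendsto (fun n => M n s i) L (𝓝 (m s i)))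
    (hx : ∀ i, ∀ s ∈ Ioo (-a) 0, ∀ᶠ n in L, M n s i ≤ x n i)
    (hx' : ∀ i, ∀ s ∈ Ioo 0 a, ∀ᶠ n in L, x n i ≤ M n s i)
    (hV : ∀ i, ContinuousAt (fun s => V s i) 0)
    (key : ∀ s ∈ Ioo (-a) a, (∀ i, ContinuousAt (fun s => m s i) s) → ∀ i, m s i = V s i) (i : ι) :
    Tendsto (fun n => x n i) L (𝓝 (V 0 i)) := by
  have hcount := countable_discont hm
  rw [Metric.tendsto_nhds]
  intro ε hε
  have hε3 : 0 < ε / 3 := by positivity
  obtain ⟨δ, hδ, hVδ⟩ := Metric.continuousAt_iff.1 (hV i) (ε / 3) hε3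
  have hδa : 0 < min δ a := lt_min hδ ha
  -- near a continuity point in `(b, c)` there is a good point of `S`
  have pick : ∀ b c : ℝ, -(min δ a) ≤ b → c ≤ min δ a → b < c →
      ∃ q ∈ S, q ∈ Ioo b c ∧ |m q i - V 0 i| < 2 * (ε / 3) := by
    intro b c hb hc hbc
    obtain ⟨s, hs, hsc⟩ := exists_notMem hcount hbc
    have h1 : s ∈ Ioo (-a) a := ⟨by linarith [hs.1, min_le_right δ a],
      by linarith [hs.2, min_le_right δ a]⟩
    have h3 : ∀ j, ContinuousAt (fun s => m s j) s := by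
      by_contra hcon
      exact hsc ⟨h1, hcon⟩
    have h5 := key s h1 h3 i
    have h7 : dist (V s i) (V 0 i) < ε / 3 := hVδ (by
      rw [Real.dist_eq, sub_zero, abs_lt]
      constructor <;> linarith [hs.1, hs.2, min_le_left δ a])
    obtain ⟨r, hr, hmr⟩ := Metric.continuousAt_iff.1 (h3 i) (ε / 3) hε3
    have h8 : s ∈ closure S := hS h1
    obtain ⟨q, hq⟩ := mem_closure_iff.1 h8 (Ioo b c ∩ Ioo (s - r) (s + r))
      (isOpen_Ioo.inter isOpen_Ioo) ⟨hs, by constructor <;> linarith⟩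
    refine ⟨q, hq.2, hq.1.1, ?_⟩
    have h9 : dist (m q i) (m s i) < ε / 3 := hmr (by
      rw [Real.dist_eq, abs_lt]
      constructor <;> linarith [hq.1.2.1, hq.1.2.2])
    rw [Real.dist_eq] at h7 h9
    rw [abs_lt] at *
    constructor <;> linarith [h7.1, h7.2, h9.1, h9.2]
  obtain ⟨q, hqS, hq, hq'⟩ := pick (-(min δ a)) 0 le_rfl hδa.le (by linarith)
  obtain ⟨r, hrS, hr, hr'⟩ := pick 0 (min δ a) (by linarith) le_rfl hδa
  have hqa : q ∈ Ioo (-a) 0 := ⟨by linarith [hq.1, min_le_right δ a], hq.2⟩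
  have hra : r ∈ Ioo 0 a := ⟨hr.1, by linarith [hr.2, min_le_right δ a]⟩
  have h9 := (Metric.tendsto_nhds.1 (hML i q hqS ⟨hqa.1, by linarith [hqa.2]⟩)) (ε / 3) hε3
  have h10 := (Metric.tendsto_nhds.1 (hML i r hrS ⟨by linarith [hra.1], hra.2⟩)) (ε / 3) hε3
  filter_upwards [h9, h10, hx i q hqa, hx' i r hra] with n e1 e2 e3 e4
  rw [Real.dist_eq] at *
  rw [abs_lt] at *
  constructor <;> linarith [e1.1, e1.2, e2.1, e2.2, hq'.1, hq'.2, hr'.1, hr'.2]

/-- A bounded sequence converges along every ultrafilter. -/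
theorem exists_lim (U : Ultrafilter ℕ) (hU : (U : Filter ℕ) ≤ atTop) (f : ℕ → ℝ) {B : ℝ}
    (h : ∀ᶠ n in atTop, |f n| ≤ B) : ∃ y : ℝ, |y| ≤ B ∧ Tendsto f U (𝓝 y) := by
  have h1 : (U.map f : Filter ℝ) ≤ 𝓟 (Icc (-B) B) := by
    rw [Ultrafilter.coe_map, le_principal_iff, mem_map]
    filter_upwards [hU h] with n hn
    exact abs_le.1 hn
  obtain ⟨y, hy, hy'⟩ := isCompact_Icc.ultrafilter_le_nhds _ h1
  exact ⟨y, abs_le.2 hy, hy'⟩

/-- The continuity lemma, form with ultrafilters. -/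
theorem tendsto_of_monotone [Countable ι] {a : ℝ} (ha : 0 < a) (M : ℕ → ℝ → ι → ℝ)
    (x : ℕ → ι → ℝ) (V : ℝ → ι → ℝ)
    (hmono : ∀ i, ∀ s ∈ Ioo (-a) a, ∀ s' ∈ Ioo (-a) a, s ≤ s' → ∀ᶠ n in atTop, M n s i ≤ M n s' i)
    (hbd : ∀ i, ∀ s ∈ Ioo (-a) a, ∃ B, ∀ᶠ n in atTop, |M n s i| ≤ B)
    (hx : ∀ i, ∀ s ∈ Ioo (-a) 0, ∀ᶠ n in atTop, M n s i ≤ x n i)
    (hx' : ∀ i, ∀ s ∈ Ioo 0 a, ∀ᶠ n in atTop, x n i ≤ M n s i)
    (hV : ∀ i, ContinuousAt (fun s => V s i) 0)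
    (hlim : ∀ U : Ultrafilter ℕ, (U : Filter ℕ) ≤ atTop → ∀ m : ℝ → ι → ℝ,
      (∀ i, ∀ s ∈ Ioo (-a) a, Tendsto (fun n => M n s i) U (𝓝 (m s i))) →
      (∀ i, MonotoneOn (fun s => m s i) (Ioo (-a) a)) →
      ∀ s ∈ Ioo (-a) a, (∀ i, ContinuousAt (fun s => m s i) s) → ∀ i, m s i = V s i) :
    ∀ i, Tendsto (fun n => x n i) atTop (𝓝 (V 0 i)) := by
  intro i
  rw [tendsto_iff_ultrafilter]
  intro U hU
  have hex : ∀ (s : ℝ) (j : ι), ∃ y : ℝ, s ∈ Ioo (-a) a → Tendsto (fun n => M n s j) U (𝓝 y) := by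
    intro s j
    by_cases hs : s ∈ Ioo (-a) a
    · obtain ⟨B, hB⟩ := hbd j s hs
      obtain ⟨y, -, hy⟩ := exists_lim U hU _ hB
      exact ⟨y, fun _ => hy⟩
    · exact ⟨0, fun h => absurd h hs⟩
  choose m hm using hex
  have hmm : ∀ j, MonotoneOn (fun s => m s j) (Ioo (-a) a) := by
    intro j s hs s' hs' hss
    exact le_of_tendsto_of_tendsto (hm s j hs) (hm s' j hs') (hU (hmono j s hs s' hs' hss))
  exact tendsto_core ha (S := univ) (by simp) hmm (fun j s _ hs => hm s j hs)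
    (fun j s hs => hU (hx j s hs)) (fun j s hs => hU (hx' j s hs)) hV
    (hlim U hU m (fun j s hs => hm s j hs) hmm) i

/-- Diagonal extraction: countably many eventually bounded sequences converge along a common
subsequence. -/
theorem exists_subseq {κ : Type*} [Countable κ] (f : ℕ → κ → ℝ)
    (h : ∀ k, ∃ B, ∀ᶠ n in atTop, |f n k| ≤ B) :
    ∃ (φ : ℕ → ℕ) (y : κ → ℝ), StrictMono φ ∧ ∀ k, Tendsto (fun n => f (φ n) k) atTop (𝓝 (y k)) := by
  choose B hB using h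
  have hB0 : ∀ k, 0 ≤ B k := by
    intro k
    obtain ⟨n, hn⟩ := (hB k).exists
    exact (abs_nonneg _).trans hn
  set g : ℕ → κ → ℝ := fun n k => max (-B k) (min (B k) (f n k)) with hg
  have hgm : ∀ n, g n ∈ Set.pi univ fun k => Icc (-B k) (B k) := by
    intro n k _
    refine ⟨le_max_left _ _, max_le (by linarith [hB0 k]) (min_le_left _ _)⟩
  obtain ⟨y, -, φ, hφ, hy⟩ := (isCompact_univ_pi fun k => isCompact_Icc
    (a := -B k) (b := B k)).tendsto_subseq hgm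
  refine ⟨φ, y, hφ, fun k => ?_⟩
  have h1 := (tendsto_pi_nhds.1 hy) k
  refine h1.congr' ?_
  filter_upwards [hφ.tendsto_atTop.eventually (hB k)] with n hn
  rw [abs_le] at hn
  change max (-B k) (min (B k) (f (φ n) k)) = _
  rw [min_eq_right hn.2, max_eq_right hn.1]

/-- The continuity lemma, form with subsequences: the hypothesis is needed only for limits along
strictly increasing subsequences `φ`, for which the limits exist at all rational parameters. -/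
theorem tendsto_of_monotone_subseq [Countable ι] {a : ℝ} (ha : 0 < a) (M : ℕ → ℝ → ι → ℝ)
    (x : ℕ → ι → ℝ) (V : ℝ → ι → ℝ)
    (hmono : ∀ i, ∀ s ∈ Ioo (-a) a, ∀ s' ∈ Ioo (-a) a, s ≤ s' → ∀ᶠ n in atTop, M n s i ≤ M n s' i)
    (hbd : ∀ i, ∀ s ∈ Ioo (-a) a, ∃ B, ∀ᶠ n in atTop, |M n s i| ≤ B)
    (hx : ∀ i, ∀ s ∈ Ioo (-a) 0, ∀ᶠ n in atTop, M n s i ≤ x n i)
    (hx' : ∀ i, ∀ s ∈ Ioo 0 a, ∀ᶠ n in atTop, x n i ≤ M n s i)
    (hV : ∀ i, ContinuousAt (fun s => V s i) 0)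
    (hlim : ∀ φ : ℕ → ℕ, StrictMono φ → ∀ m : ℝ → ι → ℝ,
      (∀ i, ∀ q : ℚ, (q : ℝ) ∈ Ioo (-a) a → Tendsto (fun n => M (φ n) q i) atTop (𝓝 (m q i))) →
      (∀ i, MonotoneOn (fun s => m s i) (Ioo (-a) a)) →
      ∀ s ∈ Ioo (-a) a, (∀ i, ContinuousAt (fun s => m s i) s) → ∀ i, m s i = V s i) :
    ∀ i, Tendsto (fun n => x n i) atTop (𝓝 (V 0 i)) := by
  intro i
  refine tendsto_of_subseq_tendsto fun ns hns => ?_
  obtain ⟨ψ, hψ, hnψ⟩ := strictMono_subseq_of_tendsto_atTop hns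
  set κ := {q : ℚ // (q : ℝ) ∈ Ioo (-a) a} × ι with hκ
  obtain ⟨ρ, y, hρ, hy⟩ := exists_subseq (κ := κ) (fun n k => M (ns (ψ n)) k.1.1 k.2) (by
    rintro ⟨⟨q, hq⟩, j⟩
    obtain ⟨B, hB⟩ := hbd j q hq
    exact ⟨B, (hnψ.tendsto_atTop).eventually hB⟩)
  have hφ : StrictMono (ns ∘ ψ ∘ ρ) := by
    have := hnψ.comp hρ
    exact this
  have hφt := hφ.tendsto_atTop
  -- values at all parameters, along an ultrafilter
  set U : Ultrafilter ℕ := Filter.hyperfilter ℕ with hUdef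
  have hU : (U : Filter ℕ) ≤ atTop := Nat.hyperfilter_le_atTop
  have hex : ∀ (s : ℝ) (j : ι), ∃ z : ℝ, s ∈ Ioo (-a) a →
      Tendsto (fun n => M ((ns ∘ ψ ∘ ρ) n) s j) U (𝓝 z) := by
    intro s j
    by_cases hs : s ∈ Ioo (-a) a
    · obtain ⟨B, hB⟩ := hbd j s hs
      obtain ⟨z, -, hz⟩ := exists_lim U hU (fun n => M ((ns ∘ ψ ∘ ρ) n) s j) (hφt.eventually hB)
      exact ⟨z, fun _ => hz⟩
    · exact ⟨0, fun h => absurd h hs⟩
  choose m hm using hex
  have hmm : ∀ j, MonotoneOn (fun s => m s j) (Ioo (-a) a) := by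
    intro j s hs s' hs' hss
    exact le_of_tendsto_of_tendsto (hm s j hs) (hm s' j hs')
      (hU (hφt.eventually (hmono j s hs s' hs' hss)))
  have hmq : ∀ j, ∀ q : ℚ, (q : ℝ) ∈ Ioo (-a) a →
      Tendsto (fun n => M ((ns ∘ ψ ∘ ρ) n) q j) atTop (𝓝 (m q j)) := by
    intro j q hq
    have h1 := hy (⟨q, hq⟩, j)
    have h2 : y (⟨q, hq⟩, j) = m q j := tendsto_nhds_unique (h1.mono_left hU) (hm q j hq)
    rw [← h2]
    exact h1
  refine ⟨ψ ∘ ρ, ?_⟩
  have hxs := tendsto_core (L := atTop) ha (M := fun n => M ((ns ∘ ψ ∘ ρ) n))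
    (x := fun n => x ((ns ∘ ψ ∘ ρ) n)) (V := V) (m := m) (S := range ((↑) : ℚ → ℝ))
    (by rw [Rat.isDenseEmbedding_coe_real.dense.closure_eq]; exact subset_univ _) hmm
    (by
      rintro j _ ⟨q, rfl⟩ hq
      exact hmq j q hq)
    (fun j s hs => hφt.eventually (hx j s hs)) (fun j s hs => hφt.eventually (hx' j s hs)) hV
    (hlim _ hφ m hmq hmm) i
  exact hxs

end Vale.Agent.P145.FC
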