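import Mathlib

/-!
# P145, bounded domains: crossings and circuits without planar topology

Faces are points of `ℤ × ℤ`; `E u v` means that `u` and `v` are adjacent faces whose common edge is
not blocked. That there is a blocked (closed) path crossing a rectangle in the long direction is
expressed as: there is no `E`-path crossing it in the short direction. That there is a blocked
circuit in an annulus is expressed as: no `E`-path leaves the outer box from the inner box.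

* `escape`: if four overlapping rectangles around a box are not crossed in the short direction, then
  every `E`-cluster meeting the inner box stays inside the outer box.
* `no_cross_of_chain`: if every face `v` with `|ρ v - s| ≤ δ` has its cluster in `{|ρ - s| < η}`,
  then `{ρ ≤ s - η}` is not connected to `{s + η ≤ ρ}`.
-/

namespace Vale.Agent.P145.FC

open Relation

/-- The steps of `E` change both coordinates by at most one. -/
def Near (E : ℤ × ℤ → ℤ × ℤ → Prop) : Prop :=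
  ∀ u v, E u v → |u.1 - v.1| ≤ 1 ∧ |u.2 - v.2| ≤ 1

/-- `u` and `v` are joined by an `E`-path inside `S`. -/
def Conn (E : ℤ × ℤ → ℤ × ℤ → Prop) (S : Set (ℤ × ℤ)) (u v : ℤ × ℤ) : Prop :=
  u ∈ S ∧ v ∈ S ∧ ReflTransGen (fun a b => E a b ∧ a ∈ S ∧ b ∈ S) u v

/-- The rectangle `[a, b] × [c, d]`. -/
def rct (a b c d : ℤ) : Set (ℤ × ℤ) := {v | a ≤ v.1 ∧ v.1 ≤ b ∧ c ≤ v.2 ∧ v.2 ≤ d}

/-- There is an `E`-path in the rectangle `[a, b] × [c, d]` from its bottom to its top. -/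
def CrossV (E : ℤ × ℤ → ℤ × ℤ → Prop) (a b c d : ℤ) : Prop :=
  ∃ u v, u.2 = c ∧ v.2 = d ∧ Conn E (rct a b c d) u v

/-- There is an `E`-path in the rectangle `[a, b] × [c, d]` from its left to its right side. -/
def CrossH (E : ℤ × ℤ → ℤ × ℤ → Prop) (a b c d : ℤ) : Prop :=
  ∃ u v, u.1 = a ∧ v.1 = b ∧ Conn E (rct a b c d) u v

theorem Conn.refl {E : ℤ × ℤ → ℤ × ℤ → Prop} {S : Set (ℤ × ℤ)} {u : ℤ × ℤ} (hu : u ∈ S) :
    Conn E S u u := ⟨hu, hu, ReflTransGen.refl⟩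

theorem Conn.tail {E : ℤ × ℤ → ℤ × ℤ → Prop} {S : Set (ℤ × ℤ)} {u v w : ℤ × ℤ}
    (h : Conn E S u v) (hvw : E v w) (hw : w ∈ S) : Conn E S u w :=
  ⟨h.1, hw, h.2.2.tail ⟨hvw, h.2.1, hw⟩⟩

theorem Conn.symm {E : ℤ × ℤ → ℤ × ℤ → Prop} (hE : ∀ u v, E u v → E v u) {S : Set (ℤ × ℤ)}
    {u v : ℤ × ℤ} (h : Conn E S u v) : Conn E S v u := by
  refine ⟨h.2.1, h.1, ?_⟩
  have := h.2.2
  induction this with
  | refl => exact ReflTransGen.refl
  | tail _ hbc ih => exact ReflTransGen.head ⟨hE _ _ hbc.1, hbc.2.2, hbc.2.1⟩ (ih ⟨h.1, hbc.2.1, ‹_›⟩)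

/-- **Circuit from four crossings.** Inner box `[a₁, b₁] × [c₁, d₁]`, outer box
`[a₂, b₂] × [c₂, d₂]`. If none of the four rectangles between them is crossed in the short
direction (from the inner towards the outer box), then an `E`-path which starts in the inner box
stays strictly inside the outer box. -/
theorem escape {E : ℤ × ℤ → ℤ × ℤ → Prop} (hE : Near E) {a₁ b₁ c₁ d₁ a₂ b₂ c₂ d₂ : ℤ}
    (ha : a₂ < a₁) (hb : b₁ < b₂) (hc : c₂ < c₁) (hd : d₁ < d₂)
    (hT : ¬ CrossV E a₂ b₂ d₁ d₂)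
    (hB : ¬ ∃ u v, u.2 = c₁ ∧ v.2 = c₂ ∧ Conn E (rct a₂ b₂ c₂ c₁) u v)
    (hR : ¬ CrossH E b₁ b₂ c₂ d₂)
    (hL : ¬ ∃ u v, u.1 = a₁ ∧ v.1 = a₂ ∧ Conn E (rct a₂ a₁ c₂ d₂) u v)
    {u v : ℤ × ℤ} (hu : u ∈ rct a₁ b₁ c₁ d₁) (huv : ReflTransGen E u v) :
    a₂ < v.1 ∧ v.1 < b₂ ∧ c₂ < v.2 ∧ v.2 < d₂ := by
  -- the invariant
  have key : (a₂ < v.1 ∧ v.1 < b₂ ∧ c₂ < v.2 ∧ v.2 < d₂) ∧
      (v.2 ≤ d₁ ∨ ∃ w, w.2 = d₁ ∧ Conn E (rct a₂ b₂ d₁ d₂) w v) ∧
      (c₁ ≤ v.2 ∨ ∃ w, w.2 = c₁ ∧ Conn E (rct a₂ b₂ c₂ c₁) w v) ∧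
      (v.1 ≤ b₁ ∨ ∃ w, w.1 = b₁ ∧ Conn E (rct b₁ b₂ c₂ d₂) w v) ∧
      (a₁ ≤ v.1 ∨ ∃ w, w.1 = a₁ ∧ Conn E (rct a₂ a₁ c₂ d₂) w v) := by
    induction huv with
    | refl =>
      obtain ⟨h1, h2, h3, h4⟩ := hu
      exact ⟨⟨by omega, by omega, by omega, by omega⟩, Or.inl h4, Or.inl h3, Or.inl h2, Or.inl h1⟩
    | @tail v v' _ hvv ih =>
      obtain ⟨⟨i1, i2, i3, i4⟩, iT, iB, iR, iL⟩ := ih
      obtain ⟨n1, n2⟩ := hE v v' hvv
      rw [abs_le] at n1 n2
      have kT : v'.2 ≤ d₁ ∨ ∃ w, w.2 = d₁ ∧ Conn E (rct a₂ b₂ d₁ d₂) w v' := by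
        by_cases h : v'.2 ≤ d₁
        · exact Or.inl h
        · right
          have hm : v' ∈ rct a₂ b₂ d₁ d₂ := ⟨by omega, by omega, by omega, by omega⟩
          rcases iT with h' | ⟨w, hw, hc⟩
          · have hv0 : v ∈ rct a₂ b₂ d₁ d₂ := ⟨by omega, by omega, by omega, by omega⟩
            exact ⟨v, by omega, (Conn.refl hv0).tail hvv hm⟩
          · exact ⟨w, hw, hc.tail hvv hm⟩
      have kB : c₁ ≤ v'.2 ∨ ∃ w, w.2 = c₁ ∧ Conn E (rct a₂ b₂ c₂ c₁) w v' := by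
        by_cases h : c₁ ≤ v'.2
        · exact Or.inl h
        · right
          have hm : v' ∈ rct a₂ b₂ c₂ c₁ := ⟨by omega, by omega, by omega, by omega⟩
          rcases iB with h' | ⟨w, hw, hc⟩
          · have hv0 : v ∈ rct a₂ b₂ c₂ c₁ := ⟨by omega, by omega, by omega, by omega⟩
            exact ⟨v, by omega, (Conn.refl hv0).tail hvv hm⟩
          · exact ⟨w, hw, hc.tail hvv hm⟩
      have kR : v'.1 ≤ b₁ ∨ ∃ w, w.1 = b₁ ∧ Conn E (rct b₁ b₂ c₂ d₂) w v' := by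
        by_cases h : v'.1 ≤ b₁
        · exact Or.inl h
        · right
          have hm : v' ∈ rct b₁ b₂ c₂ d₂ := ⟨by omega, by omega, by omega, by omega⟩
          rcases iR with h' | ⟨w, hw, hc⟩
          · have hv0 : v ∈ rct b₁ b₂ c₂ d₂ := ⟨by omega, by omega, by omega, by omega⟩
            exact ⟨v, by omega, (Conn.refl hv0).tail hvv hm⟩
          · exact ⟨w, hw, hc.tail hvv hm⟩
      have kL : a₁ ≤ v'.1 ∨ ∃ w, w.1 = a₁ ∧ Conn E (rct a₂ a₁ c₂ d₂) w v' := by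
        by_cases h : a₁ ≤ v'.1
        · exact Or.inl h
        · right
          have hm : v' ∈ rct a₂ a₁ c₂ d₂ := ⟨by omega, by omega, by omega, by omega⟩
          rcases iL with h' | ⟨w, hw, hc⟩
          · have hv0 : v ∈ rct a₂ a₁ c₂ d₂ := ⟨by omega, by omega, by omega, by omega⟩
            exact ⟨v, by omega, (Conn.refl hv0).tail hvv hm⟩
          · exact ⟨w, hw, hc.tail hvv hm⟩
      refine ⟨⟨?_, ?_, ?_, ?_⟩, kT, kB, kR, kL⟩
      · by_contra h
        rcases kL with h' | ⟨w, hw, hc⟩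
        · omega
        · exact hL ⟨w, v', hw, by omega, hc⟩
      · by_contra h
        rcases kR with h' | ⟨w, hw, hc⟩
        · omega
        · exact hR ⟨w, v', hw, by omega, hc⟩
      · by_contra h
        rcases kB with h' | ⟨w, hw, hc⟩
        · omega
        · exact hB ⟨w, v', hw, by omega, hc⟩
      · by_contra h
        rcases kT with h' | ⟨w, hw, hc⟩
        · omega
        · exact hT ⟨w, v', hw, by omega, hc⟩
  exact key.1

/-- `escape` for a symmetric relation, in terms of `CrossV` and `CrossH` only. -/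
theorem escape_symm {E : ℤ × ℤ → ℤ × ℤ → Prop} (hE : Near E) (hs : ∀ u v, E u v → E v u)
    {a₁ b₁ c₁ d₁ a₂ b₂ c₂ d₂ : ℤ}
    (ha : a₂ < a₁) (hb : b₁ < b₂) (hc : c₂ < c₁) (hd : d₁ < d₂)
    (hT : ¬ CrossV E a₂ b₂ d₁ d₂) (hB : ¬ CrossV E a₂ b₂ c₂ c₁)
    (hR : ¬ CrossH E b₁ b₂ c₂ d₂) (hL : ¬ CrossH E a₂ a₁ c₂ d₂)
    {u v : ℤ × ℤ} (hu : u ∈ rct a₁ b₁ c₁ d₁) (huv : ReflTransGen E u v) :
    a₂ < v.1 ∧ v.1 < b₂ ∧ c₂ < v.2 ∧ v.2 < d₂ :=
  escape hE ha hb hc hd hT (fun ⟨u, v, h1, h2, h3⟩ => hB ⟨v, u, h2, h1, h3.symm hs⟩) hR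
    (fun ⟨u, v, h1, h2, h3⟩ => hL ⟨v, u, h2, h1, h3.symm hs⟩) hu huv

/-- A rectangle which is crossed the short way, contains every shorter rectangle crossed. -/
theorem CrossV.mono {E : ℤ × ℤ → ℤ × ℤ → Prop} (hE : Near E) {a b c d a' b' c' d' : ℤ}
    (ha : a' ≤ a) (hb : b ≤ b') (hc : c ≤ c') (hd : d' ≤ d) (hcd : c' ≤ d')
    (h : CrossV E a b c d) : CrossV E a' b' c' d' := by
  obtain ⟨u, v, hu, hv, huS, hvS, hp⟩ := h
  -- the part of the path between the last visit to `c'` and the next visit to `d'`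
  have key : (∃ w z, w.2 = c' ∧ z.2 = d' ∧ Conn E (rct a' b' c' d') w z) ∨
      (v.2 ≤ c' ∨ (v.2 < d' ∧ ∃ w, w.2 = c' ∧ Conn E (rct a' b' c' d') w v)) := by
    clear hv
    induction hp with
    | refl => right; left; omega
    | @tail x y _ hxy ih =>
      obtain ⟨hxy, hx, hy⟩ := hxy
      rcases ih hx with h | h
      · exact Or.inl h
      · obtain ⟨-, n2⟩ := hE x y hxy
        rw [abs_le] at n2
        obtain ⟨hx1, hx2, hx3, hx4⟩ := hx
        obtain ⟨hy1, hy2, hy3, hy4⟩ := hy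
        by_cases hyc : y.2 ≤ c'
        · exact Or.inr (Or.inl hyc)
        · have hxm : x.2 ≤ c' → x ∈ rct a' b' c' d' := fun h =>
            ⟨by omega, by omega, by omega, by omega⟩
          by_cases hyd : y.2 ≤ d'
          · have hym : y ∈ rct a' b' c' d' := ⟨by omega, by omega, by omega, by omega⟩
            have hconn : ∃ w, w.2 = c' ∧ Conn E (rct a' b' c' d') w y := by
              rcases h with h | ⟨h, w, hw, hwx⟩
              · exact ⟨x, by omega, (Conn.refl (hxm h)).tail hxy hym⟩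
              · exact ⟨w, hw, hwx.tail hxy hym⟩
            obtain ⟨w, hw, hwy⟩ := hconn
            by_cases hyd' : y.2 < d'
            · exact Or.inr (Or.inr ⟨hyd', w, hw, hwy⟩)
            · exact Or.inl ⟨w, y, hw, by omega, hwy⟩
          · left
            rcases h with h | ⟨h, w, hw, hwx⟩
            · exact ⟨x, x, by omega, by omega, Conn.refl (hxm h)⟩
            · omega
  rcases key with ⟨w, z, hw, hz, hwz⟩ | h | ⟨h, -⟩
  · exact ⟨w, z, hw, hz, hwz⟩
  · -- then `c' = d'`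
    have hvd : v.2 = d' := by omega
    have hvc : v.2 = c' := by omega
    have hvm : v ∈ rct a' b' c' d' := ⟨by have := hvS.1; omega, by have := hvS.2.1; omega,
      by omega, by omega⟩
    exact ⟨v, v, hvc, hvd, Conn.refl hvm⟩
  · omega

/-- **Chain of circuits.** `ρ` changes by at most `δ` along a step. If the cluster of every face
with `|ρ - s| ≤ δ` stays in `{|ρ - s| < η}`, then `{ρ ≤ s - η}` and `{s + η ≤ ρ}` are not
connected. -/
theorem no_cross_of_chain {V : Type*} {E : V → V → Prop} (hs : ∀ u v, E u v → E v u) {ρ : V → ℝ}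
    {s δ η : ℝ} (hη : 0 < η) (hρ : ∀ u v, E u v → |ρ u - ρ v| ≤ δ)
    (hcl : ∀ v, |ρ v - s| ≤ δ → ∀ w, ReflTransGen E v w → |ρ w - s| < η)
    {u v : V} (hu : ρ u ≤ s - η) (hv : s + η ≤ ρ v) : ¬ ReflTransGen E u v := by
  intro huv
  -- some face of the path has `|ρ - s| ≤ δ`
  have hsym : ∀ {a b : V}, ReflTransGen E a b → ReflTransGen E b a := by
    intro a b h
    induction h with
    | refl => exact ReflTransGen.refl
    | tail _ hbc ih => exact ReflTransGen.head (hs _ _ hbc) ih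
  have key : ρ v ≤ s ∨ ∃ w, |ρ w - s| ≤ δ ∧ ReflTransGen E u w := by
    clear hv
    induction huv with
    | refl => exact Or.inl (by linarith)
    | @tail x y hux hxy ih =>
      rcases ih with h | h
      · by_cases hy : ρ y ≤ s
        · exact Or.inl hy
        · right
          have h1 := abs_le.1 (hρ x y hxy)
          push Not at hy
          exact ⟨x, by rw [abs_le]; constructor <;> linarith [h1.1, h1.2], hux⟩
      · exact Or.inr h
  rcases key with h | ⟨w, hw, huw⟩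
  · linarith
  · have h1 := hcl w hw u (hsym huw)
    rw [abs_lt] at h1
    linarith [h1.1]

end Vale.Agent.P145.FC
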