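import Mathlib

/-!
# P145, block F-C: exploration of the clusters at level zero and the domain Markov property

Heights on the even sites `V` and the odd sites (faces) `F` of an arbitrary incidence structure,
with Edwards-Sokal edge variables at level `0`. If the union of the clusters which meet `A` is
`κ`, the rest of the region carries exactly the zero boundary law of `S \ κ`.
-/

namespace Vale.Agent.P145.FC

open Finset Relation

/-- incidence structure: the edge `e` joins the even sites `u e`, `v e` and separates the faces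
`a e`, `b e`; `cor v f`: the even site `v` is a corner of the face `f`. -/
structure Inc (V F E : Type*) where
  u : E → V
  v : E → V
  a : E → F
  b : E → F
  cor : V → F → Prop
  ua : ∀ e, cor (u e) (a e)
  ub : ∀ e, cor (u e) (b e)
  va : ∀ e, cor (v e) (a e)
  vb : ∀ e, cor (v e) (b e)

/-- configurations: heights on even sites, on faces, edge variables. -/
@[ext] structure Cf (V F E : Type*) where
  h : V → ℤ
  k : F → ℤ
  w : E → Bool

variable {V F E : Type*} (I : Inc V F E)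

/-- the configurations of the region `S` (a set of faces) with free even sites `U`, all other even
sites are at height `0`. An edge variable may be closed only if both ends have height `0`. -/
def Cfg (U : Set V) (S : Set F) : Set (Cf V F E) :=
  {x | (∀ v, v ∉ U → x.h v = 0) ∧ (∀ f, f ∉ S → x.k f = 0) ∧
    (∀ v, Even (x.h v)) ∧ (∀ v f, I.cor v f → f ∈ S → |x.h v - x.k f| = 1) ∧
    (∀ e, ¬ (I.a e ∈ S ∧ I.b e ∈ S) → x.w e = false) ∧
    (∀ e, I.a e ∈ S → I.b e ∈ S → x.w e = false → x.h (I.u e) = 0 ∧ x.h (I.v e) = 0)}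

/-- weight of one edge inside the region. -/
noncomputable def ew (c : ℝ) (x : Cf V F E) (e : E) : ℝ :=
  if x.h (I.u e) = 0 ∧ x.h (I.v e) = 0 then
    (if x.w e = true then (if x.k (I.a e) = x.k (I.b e) then c - 1 else 0) else 1)
  else (if x.h (I.u e) = x.h (I.v e) ∧ x.k (I.a e) = x.k (I.b e) then c else 1)

open Classical in
/-- weight of a configuration of the region `S`. -/
noncomputable def wt [Fintype E] (c : ℝ) (S : Set F) (x : Cf V F E) : ℝ :=
  ∏ e : E, if I.a e ∈ S ∧ I.b e ∈ S then ew I c x e else 1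

/-- one step of the exploration. -/
def Step (x : Cf V F E) (f g : F) : Prop :=
  ∃ e, x.w e = true ∧ ((I.a e = f ∧ I.b e = g) ∨ (I.a e = g ∧ I.b e = f))

/-- the union of the clusters which meet `A`. -/
def Clu (A : Set F) (x : Cf V F E) : Set F := {f | ∃ g ∈ A, ReflTransGen (Step I x) g f}

/-- the free even sites of `U` all whose faces in `S` belong to `T`. -/
def rin (U : Set V) (S T : Set F) : Set V := {v | v ∈ U ∧ ∀ f ∈ S, I.cor v f → f ∈ T}

open Classical in
/-- restriction to the region `T` of `S`. -/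
noncomputable def res (U : Set V) (S T : Set F) (x : Cf V F E) : Cf V F E where
  h := fun v => if v ∈ rin I U S T then x.h v else 0
  k := fun f => if f ∈ T then x.k f else 0
  w := fun e => if I.a e ∈ T ∧ I.b e ∈ T then x.w e else false

/-- superposition of configurations of disjoint regions. -/
def add (y z : Cf V F E) : Cf V F E where
  h := fun v => y.h v + z.h v
  k := fun f => y.k f + z.k f
  w := fun e => y.w e || z.w e

/-- the faces of `S` at a free even site are joined by edges at this site. -/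
def Loc (U : Set V) (S : Set F) : Prop :=
  ∀ v ∈ U, ∀ T : Set F, (∃ f ∈ S, f ∈ T ∧ I.cor v f) → (∃ f ∈ S, f ∉ T ∧ I.cor v f) →
    ∃ e, (I.u e = v ∨ I.v e = v) ∧ I.a e ∈ S ∧ I.b e ∈ S ∧ ¬ (I.a e ∈ T ↔ I.b e ∈ T)

variable {I} {U : Set V} {S A κ : Set F} {x : Cf V F E}

theorem subset_clu : A ⊆ Clu I A x := fun f hf => ⟨f, hf, ReflTransGen.refl⟩

theorem clu_step {f g : F} (hf : f ∈ Clu I A x) (h : Step I x f g) : g ∈ Clu I A x := by
  obtain ⟨a, ha, h1⟩ := hf
  exact ⟨a, ha, h1.tail h⟩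

/-- edges which leave the explored set are closed. -/
theorem closed_of_cross {e : E} (h : ¬ (I.a e ∈ Clu I A x ↔ I.b e ∈ Clu I A x)) :
    x.w e = false := by
  by_contra hcon
  have hw : x.w e = true := by simpa using hcon
  apply h
  constructor
  · intro ha
    exact clu_step ha ⟨e, hw, Or.inl ⟨rfl, rfl⟩⟩
  · intro hb
    exact clu_step hb ⟨e, hw, Or.inr ⟨rfl, rfl⟩⟩

/-- a free even site which meets both sides of the explored set has height `0`. -/
theorem zero_of_both (hloc : Loc I U S) (hx : x ∈ Cfg I U S) {v : V}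
    (h1 : ∃ f ∈ S, f ∈ Clu I A x ∧ I.cor v f) (h2 : ∃ f ∈ S, f ∉ Clu I A x ∧ I.cor v f) :
    x.h v = 0 := by
  by_cases hv : v ∈ U
  · obtain ⟨e, he, ha, hb, hab⟩ := hloc v hv (Clu I A x) h1 h2
    have hw := closed_of_cross hab
    have h3 := hx.2.2.2.2.2 e ha hb hw
    rcases he with rfl | rfl
    · exact h3.1
    · exact h3.2
  · exact hx.1 v hv

theorem clu_subset (hA : A ⊆ S) (hx : x ∈ Cfg I U S) : Clu I A x ⊆ S := by
  rintro f ⟨g, hg, h⟩
  have hgS := hA hg
  clear hg
  induction h with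
  | refl => exact hgS
  | tail _ h2 _ =>
    obtain ⟨e, he, h3⟩ := h2
    have h4 : I.a e ∈ S ∧ I.b e ∈ S := by
      by_contra hcon
      have := hx.2.2.2.2.1 e hcon
      rw [this] at he
      exact Bool.false_ne_true he
    rcases h3 with ⟨_, rfl⟩ | ⟨rfl, _⟩
    · exact h4.2
    · exact h4.1

/-- restriction of a configuration to a union of clusters or to its complement. -/
theorem res_mem {T : Set F} (hTS : T ⊆ S) (hx : x ∈ Cfg I U S)
    (hz : ∀ v, (∃ f ∈ S, f ∈ T ∧ I.cor v f) → (∃ f ∈ S, f ∉ T ∧ I.cor v f) → x.h v = 0) :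
    res I U S T x ∈ Cfg I (rin I U S T) T := by
  classical
  have hh : ∀ v f, I.cor v f → f ∈ T → (res I U S T x).h v = x.h v := by
    intro v f hvf hf
    unfold res
    by_cases hv : v ∈ rin I U S T
    · simp [hv]
    · simp only [hv, if_false]
      by_cases hvU : v ∈ U
      · have h1 : ∃ g ∈ S, I.cor v g ∧ g ∉ T := by
          by_contra hcon
          push Not at hcon
          exact hv ⟨hvU, fun g hg hvg => hcon g hg hvg⟩
        obtain ⟨g, hg, hvg, hgT⟩ := h1
        exact (hz v ⟨f, hTS hf, hf, hvf⟩ ⟨g, hg, hgT, hvg⟩).symm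
      · exact (hx.1 v hvU).symm
  refine ⟨?_, ?_, ?_, ?_, ?_, ?_⟩
  · intro v hv
    unfold res
    simp [hv]
  · intro f hf
    unfold res
    simp [hf]
  · intro v
    unfold res
    by_cases hv : v ∈ rin I U S T
    · simp only [hv, if_true]
      exact hx.2.2.1 v
    · simp [hv]
  · intro v f hvf hf
    rw [hh v f hvf hf]
    have h1 : (res I U S T x).k f = x.k f := by
      unfold res
      simp [hf]
    rw [h1]
    exact hx.2.2.2.1 v f hvf (hTS hf)
  · intro e he
    unfold res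
    simp [he]
  · intro e ha hb hw
    have h1 : (res I U S T x).w e = x.w e := by
      unfold res
      simp [ha, hb]
    rw [h1] at hw
    rw [hh _ _ (I.ua e) ha, hh _ _ (I.va e) ha]
    exact hx.2.2.2.2.2 e (hTS ha) (hTS hb) hw

theorem res_h_eq {T : Set F} (hTS : T ⊆ S) (hx : x ∈ Cfg I U S)
    (hz : ∀ v, (∃ f ∈ S, f ∈ T ∧ I.cor v f) → (∃ f ∈ S, f ∉ T ∧ I.cor v f) → x.h v = 0)
    {v : V} {f : F} (hvf : I.cor v f) (hf : f ∈ T) : (res I U S T x).h v = x.h v := by
  classical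
  unfold res
  by_cases hv : v ∈ rin I U S T
  · simp [hv]
  · simp only [hv, if_false]
    by_cases hvU : v ∈ U
    · have h1 : ∃ g ∈ S, I.cor v g ∧ g ∉ T := by
        by_contra hcon
        push Not at hcon
        exact hv ⟨hvU, fun g hg hvg => hcon g hg hvg⟩
      obtain ⟨g, hg, hvg, hgT⟩ := h1
      exact (hz v ⟨f, hTS hf, hf, hvf⟩ ⟨g, hg, hgT, hvg⟩).symm
    · exact (hx.1 v hvU).symm

theorem res_k_eq {T : Set F} {f : F} (hf : f ∈ T) : (res I U S T x).k f = x.k f := by
  classical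
  unfold res
  simp [hf]

theorem res_w_eq {T : Set F} {e : E} (ha : I.a e ∈ T) (hb : I.b e ∈ T) :
    (res I U S T x).w e = x.w e := by
  classical
  unfold res
  simp [ha, hb]

theorem res_w_false {T : Set F} {e : E} (h : ¬ (I.a e ∈ T ∧ I.b e ∈ T)) :
    (res I U S T x).w e = false := by
  classical
  unfold res
  simp [h]

/-- the hypothesis of `res_mem` for the explored set. -/
theorem both_zero (hloc : Loc I U S) (hx : x ∈ Cfg I U S) (hκ : Clu I A x = κ) (v : V)
    (h1 : ∃ f ∈ S, f ∈ κ ∧ I.cor v f) (h2 : ∃ f ∈ S, f ∉ κ ∧ I.cor v f) : x.h v = 0 := by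
  subst hκ
  exact zero_of_both hloc hx h1 h2

/-- the hypothesis of `res_mem` for the complement of the explored set. -/
theorem both_zero' (hloc : Loc I U S) (hx : x ∈ Cfg I U S) (hκ : Clu I A x = κ) (v : V)
    (h1 : ∃ f ∈ S, f ∈ S \ κ ∧ I.cor v f) (h2 : ∃ f ∈ S, f ∉ S \ κ ∧ I.cor v f) :
    x.h v = 0 := by
  obtain ⟨f, hf, hfκ, hvf⟩ := h1
  obtain ⟨g, hg, hgκ, hvg⟩ := h2
  refine both_zero hloc hx hκ v ⟨g, hg, ?_, hvg⟩ ⟨f, hf, hfκ.2, hvf⟩
  by_contra h
  exact hgκ ⟨hg, h⟩

theorem step_mono {y : Cf V F E} (h : ∀ e, y.w e = true → x.w e = true) {f g : F}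
    (hs : Step I y f g) : Step I x f g := by
  obtain ⟨e, he, h1⟩ := hs
  exact ⟨e, h e he, h1⟩

theorem clu_mono {y : Cf V F E} (h : ∀ e, y.w e = true → x.w e = true) :
    Clu I A y ⊆ Clu I A x := by
  rintro f ⟨g, hg, h1⟩
  exact ⟨g, hg, h1.lift id fun _ _ hs => step_mono h hs⟩

theorem clu_res (hκ : Clu I A x = κ) : Clu I A (res I U S κ x) = κ := by
  classical
  apply subset_antisymm
  · refine subset_trans (clu_mono (x := x) fun e he => ?_) hκ.subset
    by_cases h : I.a e ∈ κ ∧ I.b e ∈ κ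
    · rwa [res_w_eq h.1 h.2] at he
    · rw [res_w_false h] at he
      exact absurd he Bool.false_ne_true
  · intro f hf
    have hf' := hf
    rw [← hκ] at hf'
    obtain ⟨g, hg, h1⟩ := hf'
    refine ⟨g, hg, ?_⟩
    have key : ∀ f', ReflTransGen (Step I x) g f' → ReflTransGen (Step I (res I U S κ x)) g f' ∧
        f' ∈ κ := by
      intro f' h
      induction h with
      | refl => exact ⟨ReflTransGen.refl, by rw [← hκ]; exact subset_clu hg⟩
      | tail h2 h3 ih =>
        obtain ⟨i1, i2⟩ := ih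
        have i3 := i2
        rw [← hκ] at i3
        have h4 := clu_step i3 h3
        rw [hκ] at h4
        refine ⟨i1.tail ?_, h4⟩
        obtain ⟨e, he, h5⟩ := h3
        refine ⟨e, ?_, h5⟩
        rw [res_w_eq]
        · exact he
        · rcases h5 with ⟨rfl, rfl⟩ | ⟨rfl, rfl⟩ <;> assumption
        · rcases h5 with ⟨rfl, rfl⟩ | ⟨rfl, rfl⟩ <;> assumption
    exact (key f h1).1

/-- a configuration is the superposition of its parts. -/
theorem add_res (hU : ∀ v ∈ U, ∃ f ∈ S, I.cor v f) (hloc : Loc I U S) (hA : A ⊆ S)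
    (hx : x ∈ Cfg I U S) (hκ : Clu I A x = κ) :
    add (res I U S κ x) (res I U S (S \ κ) x) = x := by
  classical
  have hκS : κ ⊆ S := hκ ▸ clu_subset hA hx
  ext t
  · change (res I U S κ x).h t + (res I U S (S \ κ) x).h t = x.h t
    by_cases htU : t ∈ U
    · obtain ⟨f, hf, htf⟩ := hU t htU
      by_cases hfκ : f ∈ κ
      · have h1 := res_h_eq (U := U) hκS hx (both_zero hloc hx hκ) htf hfκ
        have h2 : (res I U S (S \ κ) x).h t = 0 := by
          have h3 : t ∉ rin I U S (S \ κ) := fun h => (h.2 f hf htf).2 hfκ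
          unfold res
          simp [h3]
        rw [h1, h2, add_zero]
      · have hf2 : f ∈ S \ κ := ⟨hf, hfκ⟩
        have h1 := res_h_eq (U := U) Set.sdiff_subset hx (both_zero' hloc hx hκ) htf hf2
        have h2 : (res I U S κ x).h t = 0 := by
          have h3 : t ∉ rin I U S κ := fun h => hfκ (h.2 f hf htf)
          unfold res
          simp [h3]
        rw [h1, h2, zero_add]
    · have h1 : t ∉ rin I U S κ := fun h => htU h.1
      have h2 : t ∉ rin I U S (S \ κ) := fun h => htU h.1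
      unfold res
      simp [h1, h2, hx.1 t htU]
  · change (res I U S κ x).k t + (res I U S (S \ κ) x).k t = x.k t
    unfold res
    by_cases h1 : t ∈ κ
    · simp [h1]
    · by_cases h2 : t ∈ S
      · simp [h1, h2]
      · simp [h1, h2, hx.2.1 t h2]
  · change ((res I U S κ x).w t || (res I U S (S \ κ) x).w t) = x.w t
    by_cases ha : I.a t ∈ κ <;> by_cases hb : I.b t ∈ κ
    · rw [res_w_eq ha hb, res_w_false (T := S \ κ) (fun h => h.1.2 ha), Bool.or_false]
    · rw [res_w_false (T := κ) (fun h => hb h.2), res_w_false (T := S \ κ) (fun h => h.1.2 ha),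
        Bool.or_false]
      symm
      apply closed_of_cross (I := I) (A := A)
      rw [hκ]
      tauto
    · rw [res_w_false (T := κ) (fun h => ha h.1), res_w_false (T := S \ κ) (fun h => h.2.2 hb),
        Bool.or_false]
      symm
      apply closed_of_cross (I := I) (A := A)
      rw [hκ]
      tauto
    · rw [res_w_false (T := κ) (fun h => ha h.1), Bool.false_or]
      by_cases h2 : I.a t ∈ S ∧ I.b t ∈ S
      · exact res_w_eq ⟨h2.1, ha⟩ ⟨h2.2, hb⟩
      · rw [res_w_false (T := S \ κ) (fun h => h2 ⟨h.1.1, h.2.1⟩), hx.2.2.2.2.1 t h2]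

section glue

variable {y z : Cf V F E}

theorem glue_h_left (hκS : κ ⊆ S) (hz : z ∈ Cfg I (rin I U S (S \ κ)) (S \ κ)) {v : V} {f : F}
    (hvf : I.cor v f) (hf : f ∈ κ) : (add y z).h v = y.h v := by
  change y.h v + z.h v = y.h v
  rw [hz.1 v fun h => (h.2 f (hκS hf) hvf).2 hf, add_zero]

theorem glue_h_right (hy : y ∈ Cfg I (rin I U S κ) κ) {v : V} {f : F}
    (hvf : I.cor v f) (hf : f ∈ S \ κ) : (add y z).h v = z.h v := by
  change y.h v + z.h v = z.h v
  rw [hy.1 v fun h => hf.2 (h.2 f hf.1 hvf), zero_add]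

theorem glue_k_left (hz : z ∈ Cfg I (rin I U S (S \ κ)) (S \ κ)) {f : F} (hf : f ∈ κ) :
    (add y z).k f = y.k f := by
  change y.k f + z.k f = y.k f
  rw [hz.2.1 f fun h => h.2 hf, add_zero]

theorem glue_k_right (hy : y ∈ Cfg I (rin I U S κ) κ) {f : F} (hf : f ∉ κ) :
    (add y z).k f = z.k f := by
  change y.k f + z.k f = z.k f
  rw [hy.2.1 f hf, zero_add]

theorem glue_w_left (hz : z ∈ Cfg I (rin I U S (S \ κ)) (S \ κ)) {e : E}
    (h : I.a e ∈ κ ∨ I.b e ∈ κ) : (add y z).w e = y.w e := by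
  change (y.w e || z.w e) = y.w e
  rw [hz.2.2.2.2.1 e fun h' => h.elim h'.1.2 h'.2.2, Bool.or_false]

theorem glue_w_right (hy : y ∈ Cfg I (rin I U S κ) κ) {e : E} (h : I.a e ∉ κ ∨ I.b e ∉ κ) :
    (add y z).w e = z.w e := by
  change (y.w e || z.w e) = z.w e
  rw [hy.2.2.2.2.1 e fun h' => h.elim (fun h1 => h1 h'.1) (fun h1 => h1 h'.2), Bool.false_or]

theorem glue_mem (hκS : κ ⊆ S) (hy : y ∈ Cfg I (rin I U S κ) κ)
    (hz : z ∈ Cfg I (rin I U S (S \ κ)) (S \ κ)) : add y z ∈ Cfg I U S := by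
  refine ⟨?_, ?_, ?_, ?_, ?_, ?_⟩
  · intro v hv
    change y.h v + z.h v = 0
    rw [hy.1 v fun h => hv h.1, hz.1 v fun h => hv h.1, add_zero]
  · intro f hf
    change y.k f + z.k f = 0
    rw [hy.2.1 f fun h => hf (hκS h), hz.2.1 f fun h => hf h.1, add_zero]
  · intro v
    exact (hy.2.2.1 v).add (hz.2.2.1 v)
  · intro v f hvf hf
    by_cases hfκ : f ∈ κ
    · rw [glue_h_left hκS hz hvf hfκ, glue_k_left hz hfκ]
      exact hy.2.2.2.1 v f hvf hfκ
    · rw [glue_h_right hy hvf ⟨hf, hfκ⟩, glue_k_right hy hfκ]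
      exact hz.2.2.2.1 v f hvf ⟨hf, hfκ⟩
  · intro e he
    change (y.w e || z.w e) = false
    rw [hy.2.2.2.2.1 e fun h => he ⟨hκS h.1, hκS h.2⟩,
      hz.2.2.2.2.1 e fun h => he ⟨h.1.1, h.2.1⟩, Bool.or_false]
  · intro e ha hb hw
    by_cases haκ : I.a e ∈ κ
    · by_cases hbκ : I.b e ∈ κ
      · rw [glue_w_left hz (Or.inl haκ)] at hw
        rw [glue_h_left hκS hz (I.ua e) haκ, glue_h_left hκS hz (I.va e) haκ]
        exact hy.2.2.2.2.2 e haκ hbκ hw
      · constructor
        · rw [glue_h_left hκS hz (I.ua e) haκ]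
          exact hy.1 _ fun h => hbκ (h.2 _ hb (I.ub e))
        · rw [glue_h_left hκS hz (I.va e) haκ]
          exact hy.1 _ fun h => hbκ (h.2 _ hb (I.vb e))
    · by_cases hbκ : I.b e ∈ κ
      · constructor
        · rw [glue_h_left hκS hz (I.ub e) hbκ]
          exact hy.1 _ fun h => haκ (h.2 _ ha (I.ua e))
        · rw [glue_h_left hκS hz (I.vb e) hbκ]
          exact hy.1 _ fun h => haκ (h.2 _ ha (I.va e))
      · rw [glue_w_right hy (Or.inl haκ)] at hw
        rw [glue_h_right hy (I.ua e) ⟨ha, haκ⟩, glue_h_right hy (I.va e) ⟨ha, haκ⟩]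
        exact hz.2.2.2.2.2 e ⟨ha, haκ⟩ ⟨hb, hbκ⟩ hw

theorem glue_clu (hy : y ∈ Cfg I (rin I U S κ) κ) (hyκ : Clu I A y = κ)
    (hz : z ∈ Cfg I (rin I U S (S \ κ)) (S \ κ)) : Clu I A (add y z) = κ := by
  apply subset_antisymm
  · rintro f ⟨g, hg, h⟩
    have hgκ : g ∈ κ := by rw [← hyκ]; exact subset_clu hg
    clear hg
    induction h with
    | refl => exact hgκ
    | tail _ h3 ih =>
      obtain ⟨e, he, h5⟩ := h3
      rcases h5 with ⟨rfl, rfl⟩ | ⟨rfl, rfl⟩
      · rw [glue_w_left hz (Or.inl ih)] at he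
        by_contra hcon
        rw [hy.2.2.2.2.1 e fun h => hcon h.2] at he
        exact Bool.false_ne_true he
      · rw [glue_w_left hz (Or.inr ih)] at he
        by_contra hcon
        rw [hy.2.2.2.2.1 e fun h => hcon h.1] at he
        exact Bool.false_ne_true he
  · intro f hf
    rw [← hyκ] at hf
    refine clu_mono (fun e he => ?_) hf
    change (y.w e || z.w e) = true
    rw [he, Bool.true_or]

theorem res_glue_left (hU : ∀ v ∈ U, ∃ f ∈ S, I.cor v f) (hκS : κ ⊆ S)
    (hy : y ∈ Cfg I (rin I U S κ) κ)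
    (hz : z ∈ Cfg I (rin I U S (S \ κ)) (S \ κ)) : res I U S κ (add y z) = y := by
  classical
  ext t
  · by_cases ht : t ∈ rin I U S κ
    · obtain ⟨f, hf, htf⟩ := hU t ht.1
      have hfκ := ht.2 f hf htf
      have h1 : (res I U S κ (add y z)).h t = (add y z).h t := by
        unfold res
        simp [ht]
      rw [h1, glue_h_left hκS hz htf hfκ]
    · have h1 : (res I U S κ (add y z)).h t = 0 := by
        unfold res
        simp [ht]
      rw [h1, hy.1 t ht]
  · by_cases ht : t ∈ κ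
    · rw [res_k_eq ht, glue_k_left hz ht]
    · have h1 : (res I U S κ (add y z)).k t = 0 := by
        unfold res
        simp [ht]
      rw [h1, hy.2.1 t ht]
  · by_cases ht : I.a t ∈ κ ∧ I.b t ∈ κ
    · rw [res_w_eq ht.1 ht.2, glue_w_left hz (Or.inl ht.1)]
    · rw [res_w_false ht, hy.2.2.2.2.1 t ht]

theorem res_glue_right (hU : ∀ v ∈ U, ∃ f ∈ S, I.cor v f)
    (hy : y ∈ Cfg I (rin I U S κ) κ)
    (hz : z ∈ Cfg I (rin I U S (S \ κ)) (S \ κ)) : res I U S (S \ κ) (add y z) = z := by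
  classical
  ext t
  · by_cases ht : t ∈ rin I U S (S \ κ)
    · obtain ⟨f, hf, htf⟩ := hU t ht.1
      have hfκ := ht.2 f hf htf
      have h1 : (res I U S (S \ κ) (add y z)).h t = (add y z).h t := by
        unfold res
        simp [ht]
      rw [h1, glue_h_right hy htf hfκ]
    · have h1 : (res I U S (S \ κ) (add y z)).h t = 0 := by
        unfold res
        simp [ht]
      rw [h1, hz.1 t ht]
  · by_cases ht : t ∈ S \ κ
    · rw [res_k_eq ht, glue_k_right hy ht.2]
    · have h1 : (res I U S (S \ κ) (add y z)).k t = 0 := by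
        unfold res
        simp only [ht, if_false]
      rw [h1, hz.2.1 t ht]
  · by_cases ht : I.a t ∈ S \ κ ∧ I.b t ∈ S \ κ
    · rw [res_w_eq ht.1 ht.2, glue_w_right hy (Or.inl ht.1.2)]
    · rw [res_w_false ht, hz.2.2.2.2.1 t ht]

/-- the exploration as an equivalence. -/
noncomputable def split (hU : ∀ v ∈ U, ∃ f ∈ S, I.cor v f) (hloc : Loc I U S) (hA : A ⊆ S)
    (hκS : κ ⊆ S) :
    {x : Cf V F E // x ∈ Cfg I U S ∧ Clu I A x = κ} ≃
      {y : Cf V F E // y ∈ Cfg I (rin I U S κ) κ ∧ Clu I A y = κ} ×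
      {z : Cf V F E // z ∈ Cfg I (rin I U S (S \ κ)) (S \ κ)} where
  toFun x := ⟨⟨res I U S κ x.1, res_mem hκS x.2.1 (both_zero hloc x.2.1 x.2.2),
    clu_res x.2.2⟩, ⟨res I U S (S \ κ) x.1,
    res_mem Set.sdiff_subset x.2.1 (both_zero' hloc x.2.1 x.2.2)⟩⟩
  invFun p := ⟨add p.1.1 p.2.1, glue_mem hκS p.1.2.1 p.2.2, glue_clu p.1.2.1 p.1.2.2 p.2.2⟩
  left_inv x := Subtype.ext (add_res hU hloc hA x.2.1 x.2.2)
  right_inv p := Prod.ext (Subtype.ext (res_glue_left hU hκS p.1.2.1 p.2.2))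
    (Subtype.ext (res_glue_right hU p.1.2.1 p.2.2))

/-- the weight factorizes. -/
theorem wt_glue [Fintype E] (c : ℝ) (hκS : κ ⊆ S) (hy : y ∈ Cfg I (rin I U S κ) κ)
    (hz : z ∈ Cfg I (rin I U S (S \ κ)) (S \ κ)) :
    wt I c S (add y z) = wt I c κ y * wt I c (S \ κ) z := by
  classical
  unfold wt
  rw [← Finset.prod_mul_distrib]
  refine Finset.prod_congr rfl fun e _ => ?_
  by_cases haκ : I.a e ∈ κ <;> by_cases hbκ : I.b e ∈ κ
  · have h1 : I.a e ∈ S ∧ I.b e ∈ S := ⟨hκS haκ, hκS hbκ⟩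
    have h2 : ¬ (I.a e ∈ S \ κ ∧ I.b e ∈ S \ κ) := fun h => h.1.2 haκ
    rw [if_pos h1, if_pos ⟨haκ, hbκ⟩, if_neg h2, mul_one]
    unfold ew
    rw [glue_h_left hκS hz (I.ua e) haκ, glue_h_left hκS hz (I.va e) haκ, glue_k_left hz haκ,
      glue_k_left hz hbκ, glue_w_left hz (Or.inl haκ)]
  · have h2 : ¬ (I.a e ∈ S \ κ ∧ I.b e ∈ S \ κ) := fun h => h.1.2 haκ
    rw [if_neg (fun h : I.a e ∈ κ ∧ I.b e ∈ κ => hbκ h.2), if_neg h2, mul_one]
    split_ifs with h1
    · unfold ew
      rw [glue_h_left hκS hz (I.ua e) haκ, glue_h_left hκS hz (I.va e) haκ,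
        glue_w_left hz (Or.inl haκ), hy.1 _ (fun h => hbκ (h.2 _ h1.2 (I.ub e))),
        hy.1 _ (fun h => hbκ (h.2 _ h1.2 (I.vb e))), hy.2.2.2.2.1 e (fun h => hbκ h.2)]
      simp
    · rfl
  · have h2 : ¬ (I.a e ∈ S \ κ ∧ I.b e ∈ S \ κ) := fun h => h.2.2 hbκ
    rw [if_neg (fun h : I.a e ∈ κ ∧ I.b e ∈ κ => haκ h.1), if_neg h2, mul_one]
    split_ifs with h1
    · unfold ew
      rw [glue_h_left hκS hz (I.ub e) hbκ, glue_h_left hκS hz (I.vb e) hbκ,
        glue_w_left hz (Or.inr hbκ), hy.1 _ (fun h => haκ (h.2 _ h1.1 (I.ua e))),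
        hy.1 _ (fun h => haκ (h.2 _ h1.1 (I.va e))), hy.2.2.2.2.1 e (fun h => haκ h.1)]
      simp
    · rfl
  · rw [if_neg (fun h : I.a e ∈ κ ∧ I.b e ∈ κ => haκ h.1), one_mul]
    by_cases h1 : I.a e ∈ S ∧ I.b e ∈ S
    · rw [if_pos h1, if_pos ⟨⟨h1.1, haκ⟩, ⟨h1.2, hbκ⟩⟩]
      unfold ew
      rw [glue_h_right hy (I.ua e) ⟨h1.1, haκ⟩, glue_h_right hy (I.va e) ⟨h1.1, haκ⟩,
        glue_k_right hy haκ, glue_k_right hy hbκ, glue_w_right hy (Or.inl haκ)]
    · rw [if_neg h1, if_neg (fun h => h1 ⟨h.1.1, h.2.1⟩)]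

end glue

end Vale.Agent.P145.FC
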