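import Mathlib

/-!
# P145, bounded domains: Helly selection and squeezing for families monotone in the domain

`M n s t` is the value of the `n`-th lattice quantity in the domain with parameter `s` (increasing
in `s`), for the test functions `t`. If every subsequential limit agrees with `V s t` at its
continuity points and `V` is continuous at `0`, then `M n 0 t` converges to `V 0 t`.
-/

namespace Vale.Agent.P145.FC

open Filter Topology Set

variable {T : Type*} [Countable T]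

/-- **Helly selection** for countably many sequences of monotone functions. -/
theorem helly (M : ℕ → ℝ → T → ℝ) (hmono : ∀ n t, Monotone fun s => M n s t)
    (hbdd : ∀ s t, ∃ C, ∀ n, |M n s t| ≤ C) :
    ∃ k : ℕ → ℕ, StrictMono k ∧ ∃ m : ℝ → T → ℝ, (∀ t, Monotone fun s => m s t) ∧
      ∀ s t, ContinuousAt (fun s => m s t) s →
        Tendsto (fun j => M (k j) s t) atTop (𝓝 (m s t)) := by
  choose C hC using hbdd
  set K : Set (ℚ × T → ℝ) := Set.pi univ fun p => Icc (-C p.1 p.2) (C p.1 p.2) with hK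
  have hKc : IsCompact K := isCompact_univ_pi fun p => isCompact_Icc
  have hx : ∀ n, (fun p : ℚ × T => M n p.1 p.2) ∈ K := fun n p _ => abs_le.1 (hC _ _ n)
  obtain ⟨a, -, k, hk, hlim⟩ := hKc.tendsto_subseq hx
  have ha : ∀ (q : ℚ) (t : T), Tendsto (fun j => M (k j) q t) atTop (𝓝 (a (q, t))) := by
    intro q t
    exact (tendsto_pi_nhds.1 hlim) (q, t)
  have hamono : ∀ (q q' : ℚ) (t : T), (q : ℝ) ≤ q' → a (q, t) ≤ a (q', t) := fun q q' t h =>
    le_of_tendsto_of_tendsto' (ha q t) (ha q' t) fun j => hmono (k j) t h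
  set m : ℝ → T → ℝ := fun s t => sSup ((fun q : ℚ => a (q, t)) '' {q : ℚ | (q : ℝ) < s}) with hm
  have hbd : ∀ (s : ℝ) (t : T) (q' : ℚ), s < q' →
      ∀ y ∈ (fun q : ℚ => a (q, t)) '' {q : ℚ | (q : ℝ) < s}, y ≤ a (q', t) := by
    rintro s t q' hq' y ⟨q, hq, rfl⟩
    have hq1 : (q : ℝ) < s := hq
    exact hamono q q' t (hq1.trans hq').le
  have hne : ∀ (s : ℝ) (t : T), ((fun q : ℚ => a (q, t)) '' {q : ℚ | (q : ℝ) < s}).Nonempty := by
    intro s t
    obtain ⟨q, -, hq⟩ := exists_rat_btwn (show s - 1 < s by linarith)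
    exact ⟨_, q, hq, rfl⟩
  have hbA : ∀ (s : ℝ) (t : T), BddAbove ((fun q : ℚ => a (q, t)) '' {q : ℚ | (q : ℝ) < s}) := by
    intro s t
    obtain ⟨q', hq', -⟩ := exists_rat_btwn (show s < s + 1 by linarith)
    exact ⟨a (q', t), fun y hy => hbd s t q' hq' y hy⟩
  have hle : ∀ (s : ℝ) (t : T) (q : ℚ), (q : ℝ) < s → a (q, t) ≤ m s t := fun s t q hq =>
    le_csSup (hbA s t) ⟨q, hq, rfl⟩
  have hge : ∀ (s : ℝ) (t : T) (q : ℚ), s < (q : ℝ) → m s t ≤ a (q, t) := fun s t q hq =>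
    csSup_le (hne s t) (hbd s t q hq)
  have hmm : ∀ t, Monotone fun s => m s t := by
    intro t s s' hss
    exact csSup_le_csSup (hbA s' t) (hne s t) (image_mono fun q (hq : (q : ℝ) < s) =>
      (show (q : ℝ) < s' from hq.trans_le hss))
  refine ⟨k, hk, m, hmm, fun s t hcont => ?_⟩
  rw [Metric.tendsto_atTop]
  intro ε hε
  rw [Metric.continuousAt_iff] at hcont
  obtain ⟨δ, hδ, hδ'⟩ := hcont (ε / 2) (half_pos hε)
  have h1 := hδ' (x := s - δ / 2) (by rw [Real.dist_eq, abs_lt]; constructor <;> linarith)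
  have h2 := hδ' (x := s + δ / 2) (by rw [Real.dist_eq, abs_lt]; constructor <;> linarith)
  rw [Real.dist_eq, abs_lt] at h1 h2
  obtain ⟨q1, hq1, hq1'⟩ := exists_rat_btwn (show s - δ / 2 < s by linarith)
  obtain ⟨q2, hq2, hq2'⟩ := exists_rat_btwn (show s < s + δ / 2 by linarith)
  have h3 := hge (s - δ / 2) t q1 hq1
  have h4 := hle (s + δ / 2) t q2 hq2'
  have e1 : ∀ᶠ j in atTop, a (q1, t) - ε / 2 < M (k j) q1 t :=
    (ha q1 t).eventually (lt_mem_nhds (by linarith))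
  have e2 : ∀ᶠ j in atTop, M (k j) q2 t < a (q2, t) + ε / 2 :=
    (ha q2 t).eventually (gt_mem_nhds (by linarith))
  obtain ⟨N, hN⟩ := eventually_atTop.1 (e1.and e2)
  refine ⟨N, fun j hj => ?_⟩
  have h5 := hN j hj
  have h6 : M (k j) q1 t ≤ M (k j) s t := hmono (k j) t hq1'.le
  have h7 : M (k j) s t ≤ M (k j) q2 t := hmono (k j) t hq2.le
  rw [Real.dist_eq, abs_lt]
  constructor <;> linarith [h5.1, h5.2, h1.1, h1.2, h2.1, h2.2]

/-- common continuity points of countably many monotone functions are dense -/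
theorem exists_common_cont {m : ℝ → T → ℝ} (hm : ∀ t, Monotone fun s => m s t) {a b : ℝ}
    (hab : a < b) : ∃ s ∈ Ioo a b, ∀ t, ContinuousAt (fun s => m s t) s := by
  have hc : (⋃ t, {s | ¬ ContinuousAt (fun s => m s t) s}).Countable :=
    countable_iUnion fun t => (hm t).countable_not_continuousAt
  have hd : Dense (⋃ t, {s | ¬ ContinuousAt (fun s => m s t) s})ᶜ := hc.dense_compl ℝ
  obtain ⟨s, hs, hs'⟩ := hd.exists_mem_open isOpen_Ioo (nonempty_Ioo.2 hab)
  refine ⟨s, hs', fun t => ?_⟩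
  by_contra h
  exact hs (mem_iUnion.2 ⟨t, h⟩)

/-- **Squeezing.** -/
theorem tendsto_of_subseq (M : ℕ → ℝ → T → ℝ) (V : ℝ → T → ℝ) {r : ℝ} (hr : 0 < r)
    (hmono : ∀ n t, Monotone fun s => M n s t) (hbdd : ∀ s t, ∃ C, ∀ n, |M n s t| ≤ C)
    (hV : ∀ t, ContinuousAt (fun s => V s t) 0)
    (H : ∀ k : ℕ → ℕ, StrictMono k → ∀ m : ℝ → T → ℝ, (∀ t, Monotone fun s => m s t) →
      (∀ s t, ContinuousAt (fun s => m s t) s →
        Tendsto (fun j => M (k j) s t) atTop (𝓝 (m s t))) →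
      ∀ s, |s| < r → (∀ t, ContinuousAt (fun s => m s t) s) → ∀ t, m s t = V s t) (t : T) :
    Tendsto (fun n => M n 0 t) atTop (𝓝 (V 0 t)) := by
  refine tendsto_of_subseq_tendsto fun ns hns => ?_
  -- a strictly monotone subsequence of `ns`
  obtain ⟨φ, hφ, hφ'⟩ := strictMono_subseq_of_tendsto_atTop hns
  obtain ⟨k, hk, m, hm, hlim⟩ := helly (fun j => M (ns (φ j))) (fun j t => hmono _ t)
    (fun s t => by
      obtain ⟨C, hC⟩ := hbdd s t
      exact ⟨C, fun j => hC _⟩)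
  have hk2 : StrictMono fun j => ns (φ (k j)) := hφ'.comp hk
  have hH := H (fun j => ns (φ (k j))) hk2 m hm hlim
  refine ⟨fun j => φ (k j), ?_⟩
  rw [Metric.tendsto_atTop]
  intro ε hε
  have hV' := hV t
  rw [Metric.continuousAt_iff] at hV'
  obtain ⟨δ, hδ, hδ'⟩ := hV' (ε / 2) (half_pos hε)
  have hρ : 0 < min δ r := lt_min hδ hr
  obtain ⟨s1, hs1, hc1⟩ := exists_common_cont hm (show -(min δ r) < 0 by linarith)
  obtain ⟨s2, hs2, hc2⟩ := exists_common_cont hm hρ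
  have hd1 : |s1| < min δ r := by rw [abs_lt]; exact ⟨hs1.1, hs1.2.trans hρ⟩
  have hd2 : |s2| < min δ r := by rw [abs_lt]; exact ⟨by linarith [hs2.1], hs2.2⟩
  have v1 := hδ' (x := s1) (by rw [Real.dist_eq, sub_zero]; exact hd1.trans_le (min_le_left _ _))
  have v2 := hδ' (x := s2) (by rw [Real.dist_eq, sub_zero]; exact hd2.trans_le (min_le_left _ _))
  rw [Real.dist_eq, abs_lt] at v1 v2
  have l1 := hlim s1 t (hc1 t)
  have l2 := hlim s2 t (hc2 t)
  rw [hH s1 (hd1.trans_le (min_le_right _ _)) hc1 t] at l1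
  rw [hH s2 (hd2.trans_le (min_le_right _ _)) hc2 t] at l2
  have e1 : ∀ᶠ j in atTop, V s1 t - ε / 2 < M (ns (φ (k j))) s1 t :=
    l1.eventually (lt_mem_nhds (by linarith))
  have e2 : ∀ᶠ j in atTop, M (ns (φ (k j))) s2 t < V s2 t + ε / 2 :=
    l2.eventually (gt_mem_nhds (by linarith))
  obtain ⟨N, hN⟩ := eventually_atTop.1 (e1.and e2)
  refine ⟨N, fun j hj => ?_⟩
  have h5 := hN j hj
  have h6 : M (ns (φ (k j))) s1 t ≤ M (ns (φ (k j))) 0 t := hmono _ t hs1.2.le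
  have h7 : M (ns (φ (k j))) 0 t ≤ M (ns (φ (k j))) s2 t := hmono _ t hs2.1.le
  rw [Real.dist_eq, abs_lt]
  constructor <;> linarith [h5.1, h5.2, v1.1, v1.2, v2.1, v2.2]

omit [Countable T] in
/-- Squeezing between domains for which the limit is known. -/
theorem tendsto_of_sandwich {M : ℕ → ℝ} {V : ℝ}
    (h : ∀ ε > 0, ∃ (A B : ℕ → ℝ) (a b : ℝ), Tendsto A atTop (𝓝 a) ∧ Tendsto B atTop (𝓝 b) ∧
      V - ε ≤ a ∧ b ≤ V + ε ∧ ∀ᶠ n in atTop, A n ≤ M n ∧ M n ≤ B n) :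
    Tendsto M atTop (𝓝 V) := by
  rw [Metric.tendsto_atTop]
  intro ε hε
  obtain ⟨A, B, a, b, hA, hB, ha, hb, hAB⟩ := h (ε / 2) (half_pos hε)
  have e1 : ∀ᶠ n in atTop, a - ε / 2 < A n := hA.eventually (lt_mem_nhds (by linarith))
  have e2 : ∀ᶠ n in atTop, B n < b + ε / 2 := hB.eventually (gt_mem_nhds (by linarith))
  obtain ⟨N, hN⟩ := eventually_atTop.1 (e1.and (e2.and hAB))
  refine ⟨N, fun n hn => ?_⟩
  obtain ⟨h1, h2, h3, h4⟩ := hN n hn
  rw [Real.dist_eq, abs_lt]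
  constructor <;> linarith

end Vale.Agent.P145.FC
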