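import Vale.Agent.P145.FA.Base
import Vale.Agent.P145.FB.Swap

/-!
P145, block F-C: the Gibbs property of the law of the absolute heights in a finite connected set of
faces, from the swap identity for the arrows.
-/

namespace Vale.Agent.P145.FC

open Finset Filter Topology MeasureTheory
open Vale.Agent.P152 (Edge Ori Ice sgb pth pth_isHeight cyl IsHeight)
open Vale.Agent.P145.FA (Hgt mu0 Pl)
open Vale.Agent.P145.FB (Swap)

/-- `η` is a height function on the set `B` of faces. -/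
def Hon (B : Finset (ℤ × ℤ)) (η : Hgt) : Prop :=
  (∀ q ∈ B, (2 : ℤ) ∣ η q - (q.1 + q.2)) ∧
  (∀ x y, (x, y) ∈ B → (x, y - 1) ∈ B → |η (x, y) - η (x, y - 1)| = 1) ∧
  ∀ x y, (x, y) ∈ B → (x - 1, y) ∈ B → |η (x - 1, y) - η (x, y)| = 1

/-- The arrows of a height function. -/
def ow (η : Hgt) : Ori (ℤ × ℤ)
  | Sum.inl v => decide (η v - η (v.1, v.2 - 1) = 1)
  | Sum.inr v => decide (η (v.1 - 1, v.2) - η v = 1)

/-- The arrows between faces of `B`. -/
def EB (B : Finset (ℤ × ℤ)) : Finset (Edge (ℤ × ℤ)) :=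
  (B.filter fun v => (v.1, v.2 - 1) ∈ B).disjSum (B.filter fun v => (v.1 - 1, v.2) ∈ B)

/-- The vertices all four faces of which are in `B`. -/
def VB (B : Finset (ℤ × ℤ)) : Finset (ℤ × ℤ) :=
  B.filter fun v => (v.1 - 1, v.2) ∈ B ∧ (v.1, v.2 - 1) ∈ B ∧ (v.1 - 1, v.2 - 1) ∈ B

/-- `B` is connected and contains the origin. -/
def Con (B : Finset (ℤ × ℤ)) : Prop :=
  0 ∈ B ∧ ∀ p : ℤ × ℤ → Prop, p 0 →
    (∀ x y, (x, y) ∈ B → (x, y - 1) ∈ B → (p (x, y) ↔ p (x, y - 1))) →
    (∀ x y, (x, y) ∈ B → (x - 1, y) ∈ B → (p (x - 1, y) ↔ p (x, y))) → ∀ q ∈ B, p q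

/-- The weight of a vertex. -/
noncomputable def fw (c : ℝ) (η : Hgt) (v : ℤ × ℤ) : ℝ :=
  if η v = η (v.1 - 1, v.2 - 1) ∧ η (v.1 - 1, v.2) = η (v.1, v.2 - 1) then c else 1

/-- Height functions equal to `η` on `B`. -/
def Cy (B : Finset (ℤ × ℤ)) (η : Hgt) : Set Hgt := {h | ∀ q ∈ B, h q = η q}

/-- The inner boundary of `B`. -/
def Fr (B : Finset (ℤ × ℤ)) (q : ℤ × ℤ) : Prop :=
  ∃ r : ℤ × ℤ, r ∉ B ∧ |q.1 - r.1| ≤ 1 ∧ |q.2 - r.2| ≤ 1

theorem mem_EB_inl {B : Finset (ℤ × ℤ)} {x y : ℤ} :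
    (Sum.inl (x, y) : Edge (ℤ × ℤ)) ∈ EB B ↔ (x, y) ∈ B ∧ (x, y - 1) ∈ B := by
  simp [EB]

theorem mem_EB_inr {B : Finset (ℤ × ℤ)} {x y : ℤ} :
    (Sum.inr (x, y) : Edge (ℤ × ℤ)) ∈ EB B ↔ (x, y) ∈ B ∧ (x - 1, y) ∈ B := by
  simp [EB]

theorem sgb_eq_one {b : Bool} {z : ℤ} (hz : |z| = 1) : b = decide (z = 1) ↔ sgb b = z := by
  rcases (abs_eq (by norm_num)).1 hz with h | h <;> subst h <;> cases b <;> simp [sgb]

theorem heights_iff {B : Finset (ℤ × ℤ)} (hB : Con B) {η : Hgt} (hη : Hon B η)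
    {ω : Ori (ℤ × ℤ)} (hω : ∀ x y, Ice ω x y) (k : ℤ) :
    (∀ q ∈ B, pth ω q + 2 * k = η q) ↔ (2 * k = η 0 ∧ ω ∈ cyl (EB B) (ow η)) := by
  have hv : ∀ x y, pth ω (x, y) - pth ω (x, y - 1) = sgb (ω (Sum.inl (x, y))) := fun x y =>
    (pth_isHeight hω x y).1
  have hh : ∀ x y, pth ω (x - 1, y) - pth ω (x, y) = sgb (ω (Sum.inr (x, y))) := fun x y =>
    (pth_isHeight hω x y).2
  constructor
  · intro h
    refine ⟨?_, ?_⟩
    · have := h 0 hB.1
      rw [P152.pth_zero, zero_add] at this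
      exact this
    · rintro (⟨x, y⟩ | ⟨x, y⟩) he
      · rw [mem_EB_inl] at he
        have h1 := h _ he.1
        have h2 := h _ he.2
        have h3 := hv x y
        show ω (Sum.inl (x, y)) = decide (η (x, y) - η (x, y - 1) = 1)
        rw [sgb_eq_one (hη.2.1 x y he.1 he.2)]
        omega
      · rw [mem_EB_inr] at he
        have h1 := h _ he.1
        have h2 := h _ he.2
        have h3 := hh x y
        show ω (Sum.inr (x, y)) = decide (η (x - 1, y) - η (x, y) = 1)
        rw [sgb_eq_one (hη.2.2 x y he.1 he.2)]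
        omega
  · rintro ⟨h0, hc⟩
    refine hB.2 (fun q => pth ω q + 2 * k = η q) ?_ ?_ ?_
    · show pth ω 0 + 2 * k = η 0
      rw [P152.pth_zero, zero_add]
      exact h0
    · intro x y h1 h2
      have h3 : ω (Sum.inl (x, y)) = decide (η (x, y) - η (x, y - 1) = 1) :=
        hc (Sum.inl (x, y)) (mem_EB_inl.2 ⟨h1, h2⟩)
      rw [sgb_eq_one (hη.2.1 x y h1 h2)] at h3
      have h4 := hv x y
      constructor <;> intro h5 <;> omega
    · intro x y h1 h2
      have h3 : ω (Sum.inr (x, y)) = decide (η (x - 1, y) - η (x, y) = 1) :=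
        hc (Sum.inr (x, y)) (mem_EB_inr.2 ⟨h1, h2⟩)
      rw [sgb_eq_one (hη.2.2 x y h1 h2)] at h3
      have h4 := hh x y
      constructor <;> intro h5 <;> omega

theorem measurableSet_Cy (B : Finset (ℤ × ℤ)) (η : Hgt) : MeasurableSet (Cy B η) := by
  have : Cy B η = ⋂ q ∈ B, {h : Hgt | h q = η q} := by
    ext h
    simp [Cy]
  rw [this]
  refine Finset.measurableSet_biInter _ fun q _ => ?_
  have h1 : Measurable fun h : Hgt => h q := measurable_pi_apply q
  exact h1 (measurableSet_singleton (η q))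

/-- The probability of a height configuration in `B`. -/
theorem mu0_Cy {c : ℝ} {P : Measure (Ori (ℤ × ℤ))} (hP : Pl c P) {B : Finset (ℤ × ℤ)}
    (hB : Con B) {η : Hgt} (hη : Hon B η) : mu0 P (Cy B η) = P (cyl (EB B) (ow η)) := by
  unfold mu0
  rw [Measure.sum_apply _ (measurableSet_Cy B η)]
  have h0 : (2 : ℤ) ∣ η 0 := by
    have := hη.1 0 hB.1
    simpa using this
  obtain ⟨k0, hk0⟩ := h0
  have e1 : ∀ k : ℤ, (P.map (fun ω q => pth ω q + 2 * k)) (Cy B η) =
      if k = k0 then P (cyl (EB B) (ow η)) else 0 := by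
    intro k
    rw [Measure.map_apply (FA.measurable_hgt k) (measurableSet_Cy B η)]
    have e2 : ∀ᵐ ω ∂P, ω ∈ (fun ω : Ori (ℤ × ℤ) => (fun q => pth ω q + 2 * k : Hgt)) ⁻¹' (Cy B η) ↔
        ω ∈ (if k = k0 then cyl (EB B) (ow η) else ∅) := by
      filter_upwards [hP.ice] with ω hω
      have h1 := heights_iff hB hη hω k
      have h2 : ω ∈ (fun ω : Ori (ℤ × ℤ) => (fun q => pth ω q + 2 * k : Hgt)) ⁻¹' (Cy B η) ↔
        (∀ q ∈ B, pth ω q + 2 * k = η q) := Iff.rfl
      rw [h2, h1]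
      by_cases hk : k = k0
      · rw [if_pos hk]
        constructor
        · exact fun h => h.2
        · exact fun h => ⟨by rw [hk, hk0], h⟩
      · rw [if_neg hk]
        constructor
        · rintro ⟨h3, _⟩
          exact absurd (by omega) hk
        · exact fun h => absurd h (Set.notMem_empty _)
    rw [measure_congr (Filter.eventuallyEq_set.2 e2)]
    split_ifs
    · rfl
    · exact measure_empty
  rw [tsum_congr e1, tsum_ite_eq]

theorem vw_pure (c : ℝ) (A B C D : ℤ) (a1 : |D - B| = 1) (a2 : |C - A| = 1) (a3 : |C - D| = 1)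
    (a4 : |A - B| = 1) :
    P152.vw c (decide (C - A = 1)) (decide (D - B = 1)) (decide (A - B = 1)) (decide (C - D = 1)) =
      if D = A ∧ C = B then c else 1 := by
  by_cases hf : D = A ∧ C = B
  · rw [if_pos hf]
    obtain ⟨rfl, rfl⟩ := hf
    rcases (abs_eq (by norm_num)).1 a1 with a1 | a1
    · have a2 : C - D = -1 := by omega
      rw [a1, a2]
      simp [P152.vw]
    · have a2 : C - D = 1 := by omega
      rw [a1, a2]
      simp [P152.vw]
  · rw [if_neg hf]
    rcases (abs_eq (by norm_num)).1 a1 with a1 | a1 <;>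
      rcases (abs_eq (by norm_num)).1 a2 with a2 | a2 <;>
      rcases (abs_eq (by norm_num)).1 a3 with a3 | a3 <;>
      rcases (abs_eq (by norm_num)).1 a4 with a4 | a4 <;>
      first | (exfalso; omega) | (rw [a1, a2, a3, a4]; simp [P152.vw])

theorem vwt_ow {c : ℝ} {B : Finset (ℤ × ℤ)} {η : Hgt} (hη : Hon B η) {v : ℤ × ℤ}
    (hv : v ∈ VB B) : FP.vwt c (ow η) v = fw c η v := by
  obtain ⟨x, y⟩ := v
  simp only [VB, Finset.mem_filter] at hv
  obtain ⟨h1, h2, h3, h4⟩ := hv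
  have a1 := hη.2.1 x y h1 h3
  have a2 := hη.2.1 (x - 1) y h2 h4
  have a3 := hη.2.2 x y h1 h2
  have a4 := hη.2.2 x (y - 1) h3 h4
  exact vw_pure c _ _ _ _ a1 a2 a3 a4

theorem Fr_of {B : Finset (ℤ × ℤ)} {q r : ℤ × ℤ} (hr : r ∉ B) (h1 : |q.1 - r.1| ≤ 1)
    (h2 : |q.2 - r.2| ≤ 1) : Fr B q := ⟨r, hr, h1, h2⟩

/-- The Gibbs property: the probabilities of two height configurations in `B` which agree on the
inner boundary of `B` are proportional to the weights. -/
theorem mu0_swap {c : ℝ} {P : Measure (Ori (ℤ × ℤ))} (hP : Pl c P) (hS : Swap c P)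
    {B : Finset (ℤ × ℤ)} (hB : Con B) {η η' : Hgt} (hη : Hon B η) (hη' : Hon B η')
    (hFr : ∀ q ∈ B, Fr B q → η q = η' q) :
    (mu0 P).real (Cy B η) * ∏ v ∈ VB B, fw c η' v =
      (mu0 P).real (Cy B η') * ∏ v ∈ VB B, fw c η v := by
  have h1 := hS (EB B) (VB B) (ow η) (ow η')
    (by
      rintro ⟨x, y⟩ hv e he
      simp only [VB, Finset.mem_filter] at hv
      obtain ⟨h1, h2, h3, h4⟩ := hv
      simp only [FP.star, Finset.mem_insert, Finset.mem_singleton] at he
      rcases he with rfl | rfl | rfl | rfl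
      · exact mem_EB_inl.2 ⟨h2, h4⟩
      · exact mem_EB_inl.2 ⟨h1, h3⟩
      · exact mem_EB_inr.2 ⟨h3, h4⟩
      · exact mem_EB_inr.2 ⟨h1, h2⟩)
    (by
      rintro (⟨x, y⟩ | ⟨x, y⟩) he hne
      · rw [mem_EB_inl] at he
        by_contra hcon
        apply hne
        have hq : Fr B (x, y) ∧ Fr B (x, y - 1) := by
          by_contra hF
          apply hcon
          have hall : ∀ r : ℤ × ℤ, |x - r.1| ≤ 1 → |y - r.2| ≤ 1 → |y - 1 - r.2| ≤ 1 → r ∈ B := by
            intro r h1 h2 h3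
            by_contra hr
            exact hF ⟨⟨r, hr, h1, h2⟩, ⟨r, hr, h1, h3⟩⟩
          have b1 : (x - 1, y) ∈ B := hall _ (by norm_num) (by norm_num) (by norm_num)
          have b2 : (x - 1, y - 1) ∈ B := hall _ (by norm_num) (by norm_num) (by norm_num)
          have b3 : (x + 1, y) ∈ B := hall _ (by norm_num) (by norm_num) (by norm_num)
          have b4 : (x + 1, y - 1) ∈ B := hall _ (by norm_num) (by norm_num) (by norm_num)
          refine ⟨?_, ?_⟩
          · simp only [VB, Finset.mem_filter]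
            exact ⟨he.1, b1, he.2, b2⟩
          · simp only [VB, Finset.mem_filter, add_sub_cancel_right]
            exact ⟨b3, he.1, b4, he.2⟩
        have e1 := hFr _ he.1 hq.1
        have e2 := hFr _ he.2 hq.2
        show decide (η (x, y) - η (x, y - 1) = 1) = decide (η' (x, y) - η' (x, y - 1) = 1)
        rw [e1, e2]
      · rw [mem_EB_inr] at he
        by_contra hcon
        apply hne
        have hq : Fr B (x, y) ∧ Fr B (x - 1, y) := by
          by_contra hF
          apply hcon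
          have hall : ∀ r : ℤ × ℤ, |x - r.1| ≤ 1 → |x - 1 - r.1| ≤ 1 → |y - r.2| ≤ 1 → r ∈ B := by
            intro r h1 h2 h3
            by_contra hr
            exact hF ⟨⟨r, hr, h1, h3⟩, ⟨r, hr, h2, h3⟩⟩
          have b1 : (x, y - 1) ∈ B := hall _ (by norm_num) (by norm_num) (by norm_num)
          have b2 : (x - 1, y - 1) ∈ B := hall _ (by norm_num) (by norm_num) (by norm_num)
          have b3 : (x, y + 1) ∈ B := hall _ (by norm_num) (by norm_num) (by norm_num)
          have b4 : (x - 1, y + 1) ∈ B := hall _ (by norm_num) (by norm_num) (by norm_num)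
          refine ⟨?_, ?_⟩
          · simp only [VB, Finset.mem_filter]
            exact ⟨he.1, he.2, b1, b2⟩
          · simp only [VB, Finset.mem_filter, add_sub_cancel_right]
            exact ⟨b3, b4, he.1, he.2⟩
        have e1 := hFr _ he.1 hq.1
        have e2 := hFr _ he.2 hq.2
        show decide (η (x - 1, y) - η (x, y) = 1) = decide (η' (x - 1, y) - η' (x, y) = 1)
        rw [e1, e2])
  have h2 : ∀ η : Hgt, Hon B η → (mu0 P).real (Cy B η) = P.real (cyl (EB B) (ow η)) := by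
    intro η hη
    unfold Measure.real
    rw [mu0_Cy hP hB hη]
  rw [h2 η hη, h2 η' hη', Finset.prod_congr rfl fun v hv => (vwt_ow (c := c) hη' hv).symm,
    Finset.prod_congr rfl fun v hv => (vwt_ow (c := c) hη hv).symm]
  exact h1

end Vale.Agent.P145.FC
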