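import Vale.Agent.P145.FC.Plane1

/-!
P145, block F-C: integrals of local functionals of the absolute heights as sums over the frozen
boundary values of finite sums over the heights in a finite connected set of faces.
-/

namespace Vale.Agent.P145.FC

open Finset Filter Topology MeasureTheory
open Vale.Agent.P152 (Edge Ori Ice sgb pth pth_isHeight cyl IsHeight)
open Vale.Agent.P145.FA (Hgt mu0 Pl)
open Vale.Agent.P145.FB (Swap)
open scoped Classical

/-- Extension by zero. -/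
noncomputable def ext0 {B : Finset (ℤ × ℤ)} (x : B → ℤ) : Hgt := fun q =>
  if h : q ∈ B then x ⟨q, h⟩ else 0

/-- Restriction. -/
def res0 (B : Finset (ℤ × ℤ)) (h : Hgt) : B → ℤ := fun q => h q

theorem ext0_of_mem {B : Finset (ℤ × ℤ)} (x : B → ℤ) {q : ℤ × ℤ} (h : q ∈ B) :
    ext0 x q = x ⟨q, h⟩ := dif_pos h

theorem ext0_res0 {B : Finset (ℤ × ℤ)} (h : Hgt) {q : ℤ × ℤ} (hq : q ∈ B) :
    ext0 (res0 B h) q = h q := dif_pos hq

/-- Heights on `B` with the boundary values of `η₀`. -/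
def cls (B : Finset (ℤ × ℤ)) (η₀ : Hgt) : Set (B → ℤ) :=
  {x | Hon B (ext0 x) ∧ ∀ q ∈ B, Fr B q → ext0 x q = η₀ q}

/-- The weight of a height configuration on `B`. -/
noncomputable def WB (c : ℝ) (B : Finset (ℤ × ℤ)) (η : Hgt) : ℝ := ∏ v ∈ VB B, fw c η v

theorem WB_pos {c : ℝ} (hc : 0 < c) (B : Finset (ℤ × ℤ)) (η : Hgt) : 0 < WB c B η :=
  Finset.prod_pos fun v _ => by unfold fw; split_ifs <;> linarith

theorem Hon.congr {B : Finset (ℤ × ℤ)} {η η' : Hgt} (h : ∀ q ∈ B, η q = η' q) (hη : Hon B η) :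
    Hon B η' := by
  refine ⟨fun q hq => ?_, fun x y h1 h2 => ?_, fun x y h1 h2 => ?_⟩
  · rw [← h q hq]; exact hη.1 q hq
  · rw [← h _ h1, ← h _ h2]; exact hη.2.1 x y h1 h2
  · rw [← h _ h1, ← h _ h2]; exact hη.2.2 x y h1 h2

theorem exists_bound {B : Finset (ℤ × ℤ)} (hB : Con B) : ∃ R : ℤ, ∀ η : Hgt, Hon B η →
    ∀ q ∈ B, |η q - η 0| ≤ R := by
  have h1 : ∀ q ∈ B, ∃ R : ℤ, ∀ η : Hgt, Hon B η → |η q - η 0| ≤ R := by
    refine hB.2 _ ?_ ?_ ?_
    · exact ⟨0, fun η _ => by simp⟩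
    · intro x y h1 h2
      constructor
      · rintro ⟨R, hR⟩
        refine ⟨R + 1, fun η hη => ?_⟩
        have h3 := hR η hη
        have h4 := hη.2.1 x y h1 h2
        rw [abs_le] at h3 ⊢
        rcases (abs_eq (by norm_num)).1 h4 with h4 | h4 <;> omega
      · rintro ⟨R, hR⟩
        refine ⟨R + 1, fun η hη => ?_⟩
        have h3 := hR η hη
        have h4 := hη.2.1 x y h1 h2
        rw [abs_le] at h3 ⊢
        rcases (abs_eq (by norm_num)).1 h4 with h4 | h4 <;> omega
    · intro x y h1 h2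
      constructor
      · rintro ⟨R, hR⟩
        refine ⟨R + 1, fun η hη => ?_⟩
        have h3 := hR η hη
        have h4 := hη.2.2 x y h1 h2
        rw [abs_le] at h3 ⊢
        rcases (abs_eq (by norm_num)).1 h4 with h4 | h4 <;> omega
      · rintro ⟨R, hR⟩
        refine ⟨R + 1, fun η hη => ?_⟩
        have h3 := hR η hη
        have h4 := hη.2.2 x y h1 h2
        rw [abs_le] at h3 ⊢
        rcases (abs_eq (by norm_num)).1 h4 with h4 | h4 <;> omega
  choose! R hR using h1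
  refine ⟨∑ q ∈ B, |R q|, fun η hη q hq => ?_⟩
  refine (hR q hq η hη).trans ((le_abs_self _).trans ?_)
  exact Finset.single_le_sum (f := fun q => |R q|) (fun q _ => abs_nonneg _) hq

theorem exists_Fr {B : Finset (ℤ × ℤ)} (hB : Con B) : ∃ q ∈ B, Fr B q := by
  obtain ⟨q, hq, hm⟩ := Finset.exists_max_image B (fun q => q.1) ⟨0, hB.1⟩
  refine ⟨q, hq, (q.1 + 1, q.2), fun h => ?_, by norm_num, by norm_num⟩
  have := hm _ h
  simp at this

theorem cls_finite {B : Finset (ℤ × ℤ)} (hB : Con B) (η₀ : Hgt) : (cls B η₀).Finite := by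
  obtain ⟨R, hR⟩ := exists_bound hB
  obtain ⟨b, hb, hbF⟩ := exists_Fr hB
  refine Set.Finite.subset (Fintype.piFinset fun _ : B =>
    Finset.Icc (-(|η₀ b| + 2 * R)) (|η₀ b| + 2 * R)).finite_toSet ?_
  rintro x ⟨hx, hx'⟩
  rw [Finset.mem_coe, Fintype.mem_piFinset]
  intro q
  have h1 := hR _ hx q q.2
  have h2 := hR _ hx b hb
  have h3 := hx' b hb hbF
  rw [ext0_of_mem x q.2] at h1
  rw [h3] at h2
  rw [Finset.mem_Icc]
  rw [abs_le] at h1 h2
  have h4 : -|η₀ b| ≤ η₀ b ∧ η₀ b ≤ |η₀ b| := ⟨neg_abs_le _, le_abs_self _⟩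
  have h5 : x ⟨(q : ℤ × ℤ), q.2⟩ = x q := rfl
  rw [h5] at h1
  constructor <;> linarith [h1.1, h1.2, h2.1, h2.2, h4.1, h4.2]

theorem measurable_res0 (B : Finset (ℤ × ℤ)) : Measurable (res0 B) :=
  measurable_pi_lambda _ fun _ => measurable_pi_apply _

theorem ae_Hon {c : ℝ} {P : Measure (Ori (ℤ × ℤ))} (hP : Pl c P) (B : Finset (ℤ × ℤ)) :
    ∀ᵐ h ∂(mu0 P), Hon B h := by
  filter_upwards [FA.s_lip c P hP] with h hh
  refine ⟨fun q _ => (hh q).1, fun x y _ _ => ?_, fun x y _ _ => ?_⟩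
  · have := (hh (x, y - 1)).2.2
    have e1 : ((x, y - 1) + (0, 1) : ℤ × ℤ) = (x, y) := by ext <;> simp
    rwa [e1] at this
  · have := (hh (x - 1, y)).2.1
    have e1 : ((x - 1, y) + (1, 0) : ℤ × ℤ) = (x, y) := by ext <;> simp
    rw [e1, abs_sub_comm] at this
    exact this

theorem Cy_eq (B : Finset (ℤ × ℤ)) (x : B → ℤ) : Cy B (ext0 x) = res0 B ⁻¹' {x} := by
  ext h
  simp only [Cy, Set.mem_ofPred_eq, Set.mem_preimage, Set.mem_singleton_iff]
  constructor
  · intro h1
    funext q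
    have := h1 q q.2
    rw [ext0_of_mem x q.2] at this
    exact this
  · intro h1 q hq
    rw [ext0_of_mem x hq, ← h1]
    rfl

theorem real_Cy_eq_zero {c : ℝ} {P : Measure (Ori (ℤ × ℤ))} (hP : Pl c P)
    (B : Finset (ℤ × ℤ)) {x : B → ℤ} (hx : ¬ Hon B (ext0 x)) : (mu0 P).real (Cy B (ext0 x)) = 0 := by
  have h1 : (mu0 P) (Cy B (ext0 x)) = 0 := by
    refine measure_mono_null ?_ (ae_iff.1 (ae_Hon hP B))
    intro h hh hHon
    exact hx (hHon.congr hh)
  unfold Measure.real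
  rw [h1]
  rfl

/-- If all the finite sums with frozen boundary values are nonnegative, the integral is. -/
theorem integral_nonneg_of_cls {c : ℝ} (hc : 0 < c) {P : Measure (Ori (ℤ × ℤ))} (hP : Pl c P)
    (hS : Swap c P) {B : Finset (ℤ × ℤ)} (hB : Con B) {F : Hgt → ℝ}
    (hF : ∀ h h' : Hgt, (∀ q ∈ B, h q = h' q) → F h = F h') (hi : Integrable F (mu0 P))
    (hcl : ∀ η₀ : Hgt, Hon B η₀ → 0 ≤ ∑ᶠ x ∈ cls B η₀, WB c B (ext0 x) * F (ext0 x)) :
    0 ≤ ∫ h, F h ∂(mu0 P) := by
  have hFe : ∀ h, F h = F (ext0 (res0 B h)) := fun h => hF _ _ fun q hq => (ext0_res0 h hq).symm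
  have hm : AEMeasurable (res0 B) (mu0 P) := (measurable_res0 B).aemeasurable
  -- the integral over the countable space
  have hi' : Integrable (fun x : B → ℤ => F (ext0 x)) ((mu0 P).map (res0 B)) := by
    rw [integrable_map_measure (measurable_of_countable _).aestronglyMeasurable hm]
    exact hi.congr (Filter.Eventually.of_forall hFe)
  have e1 : ∫ h, F h ∂(mu0 P) = ∫ x, F (ext0 x) ∂((mu0 P).map (res0 B)) := by
    rw [integral_map hm (measurable_of_countable _).aestronglyMeasurable]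
    exact integral_congr_ae (Filter.Eventually.of_forall hFe)
  have e0 : HasSum (fun x : B → ℤ => (mu0 P).real (Cy B (ext0 x)) * F (ext0 x))
      (∫ x, F (ext0 x) ∂((mu0 P).map (res0 B))) := by
    have h1 := hasSum_integral_measure (f := fun x : B → ℤ => F (ext0 x))
      (μ := fun x : B → ℤ => ((mu0 P).map (res0 B)) {x} • Measure.dirac x)
      (by rw [Measure.sum_smul_dirac]; exact hi')
    rw [Measure.sum_smul_dirac] at h1
    refine h1.congr_fun ?_
    intro x
    rw [integral_smul_measure, integral_dirac, Measure.map_apply (measurable_res0 B)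
      (measurableSet_singleton x), ← Cy_eq]
    rfl
  have hs := e0.summable
  have e2 := e0.tsum_eq.symm
  rw [e1, e2]
  -- boundary values
  set bd : (B → ℤ) → ({q : B // Fr B q} → ℤ) := fun x q => x q with hbd
  have hs2 := (Equiv.sigmaFiberEquiv bd).summable_iff.2 hs
  have e5 := hs2.tsum_sigma' (fun b => hs2.sigma_factor b)
  rw [← (Equiv.sigmaFiberEquiv bd).tsum_eq]
  refine le_of_le_of_eq ?_ e5.symm
  refine tsum_nonneg fun b => ?_
  change 0 ≤ ∑' x : {x // bd x = b}, (mu0 P).real (Cy B (ext0 x.1)) * F (ext0 x.1)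
  by_cases hb : ∃ x0 : B → ℤ, bd x0 = b ∧ Hon B (ext0 x0)
  · obtain ⟨x0, hx0, hH0⟩ := hb
    have hmem : ∀ x : B → ℤ, (bd x = b ∧ Hon B (ext0 x)) ↔ x ∈ cls B (ext0 x0) := by
      intro x
      constructor
      · rintro ⟨h1, h2⟩
        refine ⟨h2, fun q hq hF => ?_⟩
        rw [ext0_of_mem x hq, ext0_of_mem x0 hq]
        exact congrFun (h1.trans hx0.symm) ⟨⟨q, hq⟩, hF⟩
      · rintro ⟨h1, h2⟩
        refine ⟨?_, h1⟩
        rw [← hx0]
        funext q
        have := h2 q.1 q.1.2 q.2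
        rw [ext0_of_mem x q.1.2, ext0_of_mem x0 q.1.2] at this
        exact this
    set ρ : ℝ := (mu0 P).real (Cy B (ext0 x0)) / WB c B (ext0 x0) with hρ
    have hρ0 : 0 ≤ ρ := div_nonneg measureReal_nonneg (WB_pos hc B _).le
    have hterm : ∀ x : {x // bd x = b}, (mu0 P).real (Cy B (ext0 x.1)) * F (ext0 x.1) =
        (if x.1 ∈ cls B (ext0 x0) then ρ * (WB c B (ext0 x.1) * F (ext0 x.1)) else 0) := by
      rintro ⟨x, hx⟩
      by_cases hH : x ∈ cls B (ext0 x0)
      · rw [if_pos hH]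
        have h1 := mu0_swap hP hS hB hH.1 hH0 hH.2
        have h2 : (mu0 P).real (Cy B (ext0 x)) = ρ * WB c B (ext0 x) := by
          rw [hρ, div_mul_eq_mul_div, eq_div_iff (WB_pos hc B _).ne']
          exact h1
        simp only
        rw [h2]
        ring
      · rw [if_neg hH]
        have h1 : ¬ Hon B (ext0 x) := fun h => hH ((hmem x).1 ⟨hx, h⟩)
        simp only
        rw [real_Cy_eq_zero hP B h1, zero_mul]
    have hfin := cls_finite hB (ext0 x0)
    have e3 : ∑' x : {x // bd x = b}, (mu0 P).real (Cy B (ext0 x.1)) * F (ext0 x.1) =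
        ρ * ∑ᶠ x ∈ cls B (ext0 x0), WB c B (ext0 x) * F (ext0 x) := by
      rw [tsum_congr hterm]
      have e4 : ∑' x : {x // bd x = b}, (if x.1 ∈ cls B (ext0 x0) then
          ρ * (WB c B (ext0 x.1) * F (ext0 x.1)) else 0) =
          ∑' x : B → ℤ, (if x ∈ cls B (ext0 x0) then ρ * (WB c B (ext0 x) * F (ext0 x)) else 0) := by
        refine tsum_subtype_eq_of_support_subset (f := fun x : B → ℤ =>
          (if x ∈ cls B (ext0 x0) then ρ * (WB c B (ext0 x) * F (ext0 x)) else 0))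
          (s := {x | bd x = b}) ?_
        intro x hx
        have hx' : x ∈ cls B (ext0 x0) := by
          by_contra h
          exact hx (if_neg h)
        exact ((hmem x).2 hx').1
      rw [e4, finsum_mem_eq_finite_toFinset_sum _ hfin, Finset.mul_sum,
        tsum_eq_sum (s := hfin.toFinset) (fun x hx => by
          rw [Set.Finite.mem_toFinset] at hx
          exact if_neg hx)]
      refine Finset.sum_congr rfl fun x hx => ?_
      rw [Set.Finite.mem_toFinset] at hx
      exact if_pos hx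
    rw [e3]
    exact mul_nonneg hρ0 (hcl _ hH0)
  · have h0 : ∀ x : {x // bd x = b}, (mu0 P).real (Cy B (ext0 x.1)) * F (ext0 x.1) = 0 := by
      rintro ⟨x, hx⟩
      have h1 : ¬ Hon B (ext0 x) := fun h => hb ⟨x, hx, h⟩
      simp only
      rw [real_Cy_eq_zero hP B h1, zero_mul]
    rw [tsum_congr h0, tsum_zero]

end Vale.Agent.P145.FC
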