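import Vale.Agent.P145.FC.BoxPl
import Vale.Agent.P145.FC.BoxSand

/-!
P145, block F-C: the sandwich for the law of the heights and marks of the plane.
-/

namespace Vale.Agent.P145.FK

open Finset MeasureTheory Vale.Agent.P145.FP Vale.Agent.P145.Dom
open Vale.Agent.P145.FA (Hgt mu0 Pl)
open Vale.Agent.P145.FB (Mk Pt mkm bern om e1 e2 o1 o2 Swap)
open Vale.Agent.P152 (Ori)
open scoped Classical

lemma int_ind {m : ℤ} (hm : 0 ≤ m) {s : ℤ → Prop} (h0 : s 0)
    (h : ∀ x, -m ≤ x → x + 1 ≤ m → (s x ↔ s (x + 1))) : ∀ x, -m ≤ x → x ≤ m → s x := by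
  have h1 : ∀ n : ℕ, (n : ℤ) ≤ m → s n := by
    intro n
    induction n with
    | zero => intro _; exact h0
    | succ n ih =>
      intro hn
      push_cast at hn ⊢
      exact (h n (by omega) hn).1 (ih (by omega))
  have h2 : ∀ n : ℕ, (n : ℤ) ≤ m → s (-(n : ℤ)) := by
    intro n
    induction n with
    | zero => intro _; simpa using h0
    | succ n ih =>
      intro hn
      push_cast at hn ⊢
      refine (h (-((n : ℤ) + 1)) (by omega) (by omega)).2 ?_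
      have : -((n : ℤ) + 1) + 1 = -(n : ℤ) := by ring
      rw [this]
      exact ih (by omega)
  intro x hx1 hx2
  rcases Int.eq_nat_or_neg x with ⟨n, rfl | rfl⟩
  · exact h1 n hx2
  · exact h2 n (by omega)

/-- The centred square. -/
noncomputable def Rm (m : ℤ) : Finset (ℤ × ℤ) := Finset.Icc (-m) m ×ˢ Finset.Icc (-m) m

lemma mem_Rm {m : ℤ} {f : ℤ × ℤ} : f ∈ Rm m ↔ (-m ≤ f.1 ∧ f.1 ≤ m) ∧ -m ≤ f.2 ∧ f.2 ≤ m := by
  unfold Rm
  rw [Finset.mem_product, Finset.mem_Icc, Finset.mem_Icc]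

lemma Rm_loc (m : ℤ) : (boxN (Rm m)).Loc := boxN_loc_rect _ _ _ _

lemma zero_mem_Rm {m : ℤ} (hm : 0 ≤ m) : (0, 0) ∈ Rm m := by
  rw [mem_Rm]
  simp only
  omega

/-- The faces of the six-vertex lattice in the square are connected. -/
theorem con_Fc {m : ℤ} (hm : 0 ≤ m) : FC.Con (Fc (Rm m)) := by
  have z0 : fc (.inl (0, 0)) = 0 := by simp [fc]
  refine ⟨?_, ?_⟩
  · rw [← z0, mem_Fc_inl, mem_verts]
    exact ⟨(0, 0), zero_mem_Rm hm, cor00 _⟩
  · intro p hp0 hpv hph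
    -- adjacent sites
    have key : ∀ v f : ℤ × ℤ, f ∈ Rm m → Cor v f → (p (fc (.inl v)) ↔ p (fc (.inr f))) := by
      intro v f hf hc
      have mv : fc (.inl v) ∈ Fc (Rm m) := mem_Fc_inl.2 (mem_verts.2 ⟨f, hf, hc⟩)
      have mf : fc (.inr f) ∈ Fc (Rm m) := mem_Fc_inr.2 hf
      obtain ⟨a, b, ha, hb, rfl⟩ := hc
      obtain ⟨x, z⟩ := f
      simp only [fc] at mv mf ⊢
      rcases ha with rfl | rfl <;> rcases hb with rfl | rfl
      · have e : ((x - z, x + z + 1 - 1) : ℤ × ℤ) = (x + 0 - (z + 0), x + 0 + (z + 0)) := by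
          ext <;> simp
        have := hpv (x - z) (x + z + 1) mf (by rw [e]; exact mv)
        rw [e] at this
        exact this.symm
      · have e : ((x - z - 1, x + z + 1) : ℤ × ℤ) = (x + 0 - (z + 1), x + 0 + (z + 1)) := by
          ext <;> simp <;> ring
        have := hph (x - z) (x + z + 1) mf (by rw [e]; exact mv)
        rw [e] at this
        exact this
      · have e : ((x + 1 - (z + 0) - 1, x + 1 + (z + 0)) : ℤ × ℤ) = (x - z, x + z + 1) := by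
          ext <;> simp <;> ring
        have := hph (x + 1 - (z + 0)) (x + 1 + (z + 0)) mv (by rw [e]; exact mf)
        rw [e] at this
        exact this.symm
      · have e : ((x + 1 - (z + 1), x + 1 + (z + 1) - 1) : ℤ × ℤ) = (x - z, x + z + 1) := by
          ext <;> simp <;> ring
        have := hpv (x + 1 - (z + 1)) (x + 1 + (z + 1)) mv (by rw [e]; exact mf)
        rw [e] at this
        exact this
    have hface : ∀ f ∈ Rm m, p (fc (.inr f)) := by
      rintro ⟨x, z⟩ hf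
      rw [mem_Rm] at hf
      simp only at hf
      have r0 : ∀ x, -m ≤ x → x ≤ m → p (fc (.inr (x, 0))) := by
        refine int_ind hm ?_ ?_
        · rw [← key (0, 0) (0, 0) (zero_mem_Rm hm) (cor00 _), z0]
          exact hp0
        · intro x hx1 hx2
          have m1 : ((x, 0) : ℤ × ℤ) ∈ Rm m := by rw [mem_Rm]; simp only; omega
          have m2 : ((x + 1, 0) : ℤ × ℤ) ∈ Rm m := by rw [mem_Rm]; simp only; omega
          have k1 := key (x + 1, 0) (x, 0) m1 ⟨1, 0, Or.inr rfl, Or.inl rfl, by simp⟩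
          have k2 := key (x + 1, 0) (x + 1, 0) m2 (cor00 _)
          exact k1.symm.trans k2
      refine int_ind (s := fun z => p (fc (.inr (x, z)))) hm (r0 x hf.1.1 hf.1.2) ?_ z hf.2.1 hf.2.2
      intro z hz1 hz2
      have m1 : ((x, z) : ℤ × ℤ) ∈ Rm m := by rw [mem_Rm]; simp only; omega
      have m2 : ((x, z + 1) : ℤ × ℤ) ∈ Rm m := by rw [mem_Rm]; simp only; omega
      have k1 := key (x, z + 1) (x, z) m1 ⟨0, 1, Or.inl rfl, Or.inr rfl, by simp⟩
      have k2 := key (x, z + 1) (x, z + 1) m2 (cor00 _)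
      exact k1.symm.trans k2
    intro q hq
    obtain ⟨v | f, rfl⟩ := mem_Fc_iff.1 hq
    · obtain ⟨f, hf, hc⟩ := mem_verts.1 v.2
      exact (key v.1 f hf hc).2 (hface f hf)
    · exact hface f.1 f.2

/-- Frozen boundary values. -/
noncomputable def bd {R : Finset (ℤ × ℤ)} (η₀ : Hgt) (y : VB R ⊕ FB R → ℤ) : ℝ :=
  if ∀ i : VB R ⊕ FB R, FC.Fr (Fc R) (fc (st i)) → y i = η₀ (fc (st i)) then 1 else 0

lemma bd_nonneg {R : Finset (ℤ × ℤ)} (η₀ : Hgt) (y : VB R ⊕ FB R → ℤ) : 0 ≤ bd η₀ y := by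
  unfold bd; split_ifs <;> norm_num

lemma bd_congr {R F : Finset (ℤ × ℤ)} (hB : Nb R F) (η₀ : Hgt) {y y' : VB R ⊕ FB R → ℤ}
    (h : ∀ i, ¬ (boxN R).inD (inB R F) i → y i = y' i) : bd η₀ y = bd η₀ y' := by
  unfold bd
  refine if_congr ?_ rfl rfl
  refine forall_congr' fun i => ?_
  constructor
  · intro h1 h2
    rw [← h i (Fr_out hB i h2)]
    exact h1 h2
  · intro h1 h2
    rw [h i (Fr_out hB i h2)]
    exact h1 h2

/-- Restriction of plane heights to the box. -/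
def rs {R : Finset (ℤ × ℤ)} (h : Hgt) : VB R ⊕ FB R → ℤ := fun i => h (fc (st i))

lemma un_rs {R : Finset (ℤ × ℤ)} {h : Hgt} (h0 : ∀ q, q ∉ Fc R → h q = 0) :
    un (rs (R := R) h) = h := by
  funext q
  by_cases hq : q ∈ Fc R
  · obtain ⟨i, rfl⟩ := mem_Fc_iff.1 hq
    rw [un_st]
    rfl
  · rw [un_out _ hq, h0 q hq]

lemma un_injective {R : Finset (ℤ × ℤ)} : Function.Injective (un (R := R)) := by
  intro y y' h
  funext i
  rw [← un_st y i, ← un_st y' i, h]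

/-- The sum over the heights with frozen boundary values. -/
theorem cls_sum {R : Finset (ℤ × ℤ)} (η₀ : Hgt) {K : ℕ}
    (hK : ∀ x ∈ FC.cls (Fc R) η₀, ∀ q : Fc R, |x q| ≤ 2 * (K : ℤ)) (c : ℝ) (G : Hgt → ℝ) :
    ∑ᶠ x ∈ FC.cls (Fc R) η₀, FC.WB c (Fc R) (FC.ext0 x) * G (FC.ext0 x) =
      ∑ y ∈ Net.TTs (V := VB R) K (Set.univ : Set (FB R)),
        (if (boxN R).HS Set.univ y then (boxN R).hw c Set.univ y else 0) * (bd η₀ y * G (un y)) := by
  have hun : ∀ y : VB R ⊕ FB R → ℤ, FC.ext0 (FC.res0 (Fc R) (un y)) = un y := by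
    intro y
    funext q
    by_cases hq : q ∈ Fc R
    · exact FC.ext0_res0 _ hq
    · rw [un_out y hq]
      exact dif_neg hq
  have hinj : Function.Injective (fun y : VB R ⊕ FB R → ℤ => FC.res0 (Fc R) (un y)) := by
    intro y y' h
    apply un_injective
    rw [← hun y, ← hun y']
    exact congrArg FC.ext0 h
  have hmem : ∀ y : VB R ⊕ FB R → ℤ, FC.res0 (Fc R) (un y) ∈ FC.cls (Fc R) η₀ ↔
      (boxN R).HS Set.univ y ∧ ∀ i : VB R ⊕ FB R, FC.Fr (Fc R) (fc (st i)) →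
        y i = η₀ (fc (st i)) := by
    intro y
    unfold FC.cls
    rw [Set.mem_ofPred_eq, hun, Hon_iff]
    refine and_congr_right fun _ => ?_
    constructor
    · intro h i hi
      rw [← un_st y i]
      exact h _ (mem_Fc_iff.2 ⟨i, rfl⟩) hi
    · intro h q hq hF
      obtain ⟨i, rfl⟩ := mem_Fc_iff.1 hq
      rw [un_st]
      exact h i hF
  rw [finsum_mem_def, finsum_eq_sum_of_support_subset
    (s := (Net.TTs (V := VB R) K (Set.univ : Set (FB R))).image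
      (fun y => FC.res0 (Fc R) (un y)))]
  · rw [Finset.sum_image (fun p _ q _ h => hinj h)]
    refine Finset.sum_congr rfl fun y _ => ?_
    by_cases h : FC.res0 (Fc R) (un y) ∈ FC.cls (Fc R) η₀
    · rw [Set.indicator_of_mem h, hun, WB_eq]
      obtain ⟨h1, h2⟩ := (hmem y).1 h
      rw [if_pos h1, bd, if_pos h2, one_mul]
    · rw [Set.indicator_of_notMem h]
      by_cases h1 : (boxN R).HS Set.univ y
      · have h2 : ¬ ∀ i : VB R ⊕ FB R, FC.Fr (Fc R) (fc (st i)) → y i = η₀ (fc (st i)) :=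
          fun h2 => h ((hmem y).2 ⟨h1, h2⟩)
        rw [bd, if_neg h2, zero_mul, mul_zero]
      · rw [if_neg h1, zero_mul]
  · intro x hx
    have hxC : x ∈ FC.cls (Fc R) η₀ := by
      by_contra h
      exact hx (Set.indicator_of_notMem h _)
    rw [Finset.coe_image, Set.mem_image]
    set y : VB R ⊕ FB R → ℤ := rs (FC.ext0 x) with hy
    have huy : un y = FC.ext0 x := un_rs fun q hq => dif_neg hq
    have hxy : FC.res0 (Fc R) (un y) = x := by
      rw [huy]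
      funext q
      exact dif_pos q.2
    refine ⟨y, ?_, hxy⟩
    have hHS : (boxN R).HS Set.univ y := by
      rw [← Hon_iff, huy]
      exact hxC.1
    have hb : ∀ i, |y i| ≤ 2 * (K : ℤ) := by
      intro i
      have hq : fc (st i) ∈ Fc R := mem_Fc_iff.2 ⟨i, rfl⟩
      have e : y i = x ⟨fc (st i), hq⟩ := dif_pos hq
      rw [e]
      exact hK x hxC _
    rw [Finset.mem_coe, Net.mem_TTs]
    intro i
    rcases i with v | f
    · exact Net.mem_TT_inl (hHS.2.2.1 v) (hb _)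
    · refine Net.mem_TT_inr (Set.mem_univ f) ?_ (by have := hb (.inr f); omega)
      have hv : f.1 ∈ verts R := mem_verts.2 ⟨f.1, f.2, cor00 f.1⟩
      obtain ⟨k, hk⟩ := hHS.2.2.1 ⟨f.1, hv⟩
      have e := hHS.2.2.2 ⟨f.1, hv⟩ f (cor00 f.1) (Set.mem_univ _)
      rw [hk] at e
      rcases (abs_eq (by norm_num)).1 e with e | e
      · exact ⟨k - 1, by omega⟩
      · exact ⟨k, by omega⟩

/-- The edges which are blocked at level `0`. -/
def bl (x : Hgt × Mk) : Set Pt := {w | x.1 (e1 w) = 0 ∧ x.1 (e2 w) = 0 ∧ x.2 w = true}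

/-- Average over the marks. -/
noncomputable def avg (t : ℝ) (g : Set Pt → ℝ) (h : Hgt) : ℝ := ∫ ξ, g (bl (h, om h ξ)) ∂(mkm t)

/-- The set of blocked edges from the edge variables of the box. -/
def bS {R : Finset (ℤ × ℤ)} (w : EB R → Bool) : Set Pt := {p | ∃ e, ewp e = p ∧ w e = false}

lemma ewp_mem_bS {R : Finset (ℤ × ℤ)} {w : EB R → Bool} {e : EB R} :
    ewp e ∈ bS w ↔ w e = false := by
  constructor
  · rintro ⟨e', h1, h2⟩
    rw [← ewp_inj h1]; exact h2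
  · intro h
    exact ⟨e, rfl, h⟩

lemma bl_wof {R : Finset (ℤ × ℤ)} (y : VB R ⊕ FB R → ℤ) (ξ : Mk) (e : EB R) :
    ewp e ∈ bl (un y, om (un y) ξ) ↔ ewp e ∈ bS ((boxN R).wof y (fun e => ξ (ewp e))) := by
  rw [ewp_mem_bS]
  obtain ⟨s1, s2, s3, s4⟩ := ewp_sites e
  have t1 : un y (e1 (ewp e)) = y (.inl ((boxN R).v e)) := by rw [s1, un_fc, xt_inl]
  have t2 : un y (e2 (ewp e)) = y (.inl ((boxN R).u e)) := by rw [s2, un_fc, xt_inl]
  have t3 : un y (o1 (ewp e)) = y (.inr ((boxN R).f e)) := by rw [s3, un_fc, xt_inr]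
  have t4 : un y (o2 (ewp e)) = y (.inr ((boxN R).g e)) := by rw [s4, un_fc, xt_inr]
  unfold bl Net.wof om
  simp only [Set.mem_ofPred_eq]
  rw [t1, t2, t3, t4]
  by_cases h1 : y (.inl ((boxN R).u e)) = 0 <;> by_cases h2 : y (.inl ((boxN R).v e)) = 0 <;>
    by_cases h3 : y (.inr ((boxN R).f e)) = y (.inr ((boxN R).g e)) <;>
    simp [h1, h2, h3]

/-- The weights with averages over the marks. -/
theorem avg_key {R : Finset (ℤ × ℤ)} {t : ℝ} (ht0 : 0 < t) (ht1 : t ≤ 1) {g : Set Pt → ℝ}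
    {W : Finset Pt} (hW : ∀ S S' : Set Pt, (∀ w ∈ W, w ∈ S ↔ w ∈ S') → g S = g S')
    (hWR : W ⊆ FC.VB (Fc R)) (y : VB R ⊕ FB R → ℤ) :
    (if (boxN R).HS Set.univ y then (boxN R).hw t⁻¹ Set.univ y else 0) * avg t g (un y) =
      ∑ w : EB R → Bool, (boxN R).Φ t Set.univ (Net.toCf y w) * g (bS w) := by
  by_cases h : (boxN R).HS Set.univ y
  · have e0 := Net.sum_phi (boxN R) ht0.ne' h (fun w => g (bS w))
    rw [if_pos h]
    refine Eq.trans ?_ (Eq.trans e0.symm (Finset.sum_congr (Finset.ext fun _ => by simp)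
      fun _ _ => rfl))
    congr 1
    rw [← int_mkm ewp_inj ht0.le ht1 (fun η => g (bS ((boxN R).wof y η)))]
    unfold avg
    congr 1
    funext ξ
    refine hW _ _ fun w hw => ?_
    obtain ⟨e, rfl⟩ := mem_VB_iff.1 (hWR hw)
    exact bl_wof y ξ e
  · rw [if_neg h, zero_mul]
    symm
    refine Finset.sum_eq_zero fun w _ => ?_
    unfold Net.Φ
    rw [if_neg, zero_mul]
    intro hC
    exact h ⟨hC.1, hC.2.1, hC.2.2.1, hC.2.2.2.1⟩

/-- One step between odd faces through an edge outside of `S`. -/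
def stp (S : Set Pt) (p q : Pt) : Prop := ∃ w, w ∉ S ∧ ((o1 w = p ∧ o2 w = q) ∨ (o2 w = p ∧ o1 w = q))

/-- The odd faces of the six-vertex lattice at the faces of `F`. -/
def oF (F : Finset (ℤ × ℤ)) : Set Pt := {p | ∃ f ∈ F, fc (.inr f) = p}

lemma mem_oF {F : Finset (ℤ × ℤ)} {f : ℤ × ℤ} : fc (.inr f) ∈ oF F ↔ f ∈ F := by
  constructor
  · rintro ⟨f', h1, h2⟩
    have := fcB_inj h2
    rw [Sum.inr.injEq] at this
    rw [← this]; exact h1
  · intro h; exact ⟨f, h, rfl⟩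

/-- What is required of a function of the set of the blocked edges. -/
structure Adm (F₁ F₂ : Finset (ℤ × ℤ)) (g : Set Pt → ℝ) : Prop where
  nn : ∀ S, 0 ≤ g S
  mono : Monotone g
  loc : ∃ W : Finset Pt, ∀ S S' : Set Pt, (∀ w ∈ W, w ∈ S ↔ w ∈ S') → g S = g S'
  off : ∀ S S' : Set Pt, (∀ w, ¬ (o1 w ∈ oF F₁ ∧ o2 w ∈ oF F₁) → (w ∈ S ↔ w ∈ S')) → g S = g S'
  sep : ∀ S, g S ≠ 0 → ∀ f ∈ F₁, ∀ p, Relation.ReflTransGen (stp S) (fc (.inr f)) p → p ∈ oF F₂

lemma stp_symm {S : Set Pt} {p q : Pt} (h : stp S p q) : stp S q p := by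
  obtain ⟨w, h1, h2 | h2⟩ := h
  · exact ⟨w, h1, Or.inr ⟨h2.2, h2.1⟩⟩
  · exact ⟨w, h1, Or.inl ⟨h2.2, h2.1⟩⟩

lemma rch_path {R : Finset (ℤ × ℤ)} {w : EB R → Bool} {f0 f : FB R}
    (h : Relation.ReflTransGen ((boxN R).stepW w) f0 f) :
    Relation.ReflTransGen (stp (bS w)) (fc (.inr f.1)) (fc (.inr f0.1)) := by
  induction h with
  | refl => exact Relation.ReflTransGen.refl
  | @tail a b _ hab ih =>
    refine Relation.ReflTransGen.head ?_ ih
    obtain ⟨e, he, h1⟩ := hab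
    obtain ⟨s1, s2, s3, s4⟩ := ewp_sites e
    refine ⟨ewp e, ?_, ?_⟩
    · rw [ewp_mem_bS, he]
      simp
    · rw [s3, s4]
      rcases h1 with ⟨rfl, rfl⟩ | ⟨rfl, rfl⟩
      · exact Or.inr ⟨rfl, rfl⟩
      · exact Or.inl ⟨rfl, rfl⟩

/-- The sandwich on the square, for arbitrary frozen boundary values. -/
theorem square_sandwich {m : ℤ} {F₁ F₂ : Finset (ℤ × ℤ)} (hB : Nb (Rm m) F₂) (hF : F₁ ⊆ F₂)
    {t : ℝ} (ht0 : 0 < t) (ht1 : t ≤ 1) {K : ℕ} (hK : KF F₂ ≤ K) {g : Set Pt → ℝ}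
    (hg : Adm F₁ F₂ g) {A : (Site → ℤ) → ℝ} (hA : PosH A) (hAI : Dep F₁ A) (η₀ : Hgt) :
    SS (B := Rm m) K t (fun w => g (bS w)) (fun y => bd η₀ y * A (xt y)) ≤
      ze t⁻¹ F₂ A * SS (B := Rm m) K t (fun w => g (bS w)) (bd η₀) ∧
    ze t⁻¹ F₁ A * SS (B := Rm m) K t (fun w => g (bS w)) (bd η₀) ≤
      SS (B := Rm m) K t (fun w => g (bS w)) (fun y => bd η₀ y * A (xt y)) := by
  refine box_sandwich (Rm_loc m) hB hF ht0 ht1 hK (bd_nonneg η₀) (fun y y' h => bd_congr hB η₀ h)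
    (fun w => hg.nn _) ?_ ?_ ?_ hA hAI
  · intro w w' h
    refine hg.mono ?_
    rintro p ⟨e, he, hw⟩
    refine ⟨e, he, ?_⟩
    have := h e
    rw [hw] at this
    exact le_bot_iff.1 this
  · intro w w' h
    refine hg.off _ _ fun p hp => ?_
    constructor
    · rintro ⟨e, rfl, hw⟩
      refine ⟨e, rfl, ?_⟩
      rw [← h e, hw]
      rintro ⟨i1, i2⟩
      obtain ⟨s1, s2, s3, s4⟩ := ewp_sites e
      apply hp
      rw [s3, s4, mem_oF, mem_oF]
      exact ⟨i1, i2⟩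
    · rintro ⟨e, rfl, hw⟩
      refine ⟨e, rfl, ?_⟩
      rw [h e, hw]
      rintro ⟨i1, i2⟩
      obtain ⟨s1, s2, s3, s4⟩ := ewp_sites e
      apply hp
      rw [s3, s4, mem_oF, mem_oF]
      exact ⟨i1, i2⟩
  · intro w hw
    rw [Set.disjoint_left]
    rintro f ⟨f0, hf0, hpath⟩ hf
    apply hf0
    exact mem_oF.1 (hg.sep _ hw f.1 hf _ (rch_path hpath))

/-- The sums with frozen boundary values of the observables. -/
theorem cls_eval {m : ℤ} {t : ℝ} (ht0 : 0 < t) (ht1 : t ≤ 1) {g : Set Pt → ℝ}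
    {W : Finset Pt} (hW : ∀ S S' : Set Pt, (∀ w ∈ W, w ∈ S ↔ w ∈ S') → g S = g S')
    (hWR : W ⊆ FC.VB (Fc (Rm m))) (η₀ : Hgt) {K : ℕ}
    (hK : ∀ x ∈ FC.cls (Fc (Rm m)) η₀, ∀ q : Fc (Rm m), |x q| ≤ 2 * (K : ℤ))
    (A : (Site → ℤ) → ℝ) (a b : ℝ) :
    ∑ᶠ x ∈ FC.cls (Fc (Rm m)) η₀, FC.WB t⁻¹ (Fc (Rm m)) (FC.ext0 x) *
        (avg t g (FC.ext0 x) * (a + b * A (fun s => FC.ext0 x (fc s)))) =
      a * SS (B := Rm m) K t (fun w => g (bS w)) (bd η₀) +
      b * SS (B := Rm m) K t (fun w => g (bS w)) (fun y => bd η₀ y * A (xt y)) := by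
  rw [cls_sum η₀ hK t⁻¹ (fun h => avg t g h * (a + b * A (fun s => h (fc s))))]
  unfold SS
  rw [Finset.mul_sum, Finset.mul_sum, ← Finset.sum_add_distrib]
  refine Finset.sum_congr rfl fun y _ => ?_
  rw [← avg_key ht0 ht1 hW hWR y]
  have e1 : (fun s => un y (fc s)) = xt y := funext fun s => un_fc y s
  rw [e1]
  ring

lemma exists_square (F : Finset (ℤ × ℤ)) (W : Finset Pt) : ∃ m : ℤ, 0 ≤ m ∧ Nb (Rm m) F ∧
    W ⊆ FC.VB (Fc (Rm m)) := by
  set m1 : ℕ := F.sup (fun f => f.1.natAbs + f.2.natAbs) with hm1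
  have hF : ∀ f ∈ F, f.1.natAbs + f.2.natAbs ≤ m1 := fun f hf =>
    Finset.le_sup (f := fun f : ℤ × ℤ => f.1.natAbs + f.2.natAbs) hf
  set m2 : ℕ := W.sup (fun f => f.1.natAbs + f.2.natAbs) with hm2
  have hW : ∀ f ∈ W, f.1.natAbs + f.2.natAbs ≤ m2 := fun f hf =>
    Finset.le_sup (f := fun f : ℤ × ℤ => f.1.natAbs + f.2.natAbs) hf
  refine ⟨(m1 : ℤ) + m2 + 4, by positivity, ?_, ?_⟩
  · rintro f hf v ⟨a, b, ha, hb, rfl⟩ f' ⟨a', b', ha', hb', hv⟩
    rw [mem_Rm]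
    simp only [Prod.mk.injEq] at hv
    have := hF f hf
    omega
  · rintro ⟨x, y⟩ hw
    have hxy := hW _ hw
    simp only at hxy
    rw [mem_VB_iff]
    by_cases hp : (x + y) % 2 = 0
    · refine ⟨.inl ⟨((x + y) / 2 - 1, (y - x) / 2), Finset.mem_filter.2 ⟨?_, ?_⟩⟩, ?_⟩
      · rw [mem_Rm]; simp only; omega
      · rw [mem_Rm]; simp only; omega
      · simp only [ewp, Sum.elim_inl]
        ext <;> simp <;> omega
    · refine ⟨.inr ⟨((x + y - 1) / 2, (y - x - 1) / 2), Finset.mem_filter.2 ⟨?_, ?_⟩⟩, ?_⟩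
      · rw [mem_Rm]; simp only; omega
      · rw [mem_Rm]; simp only; omega
      · simp only [ewp, Sum.elim_inr]
        ext <;> simp <;> omega

/-- **The sandwich in the plane.** -/
theorem plane_sandwich {c : ℝ} (hc : 1 ≤ c) {P : Measure (Ori (ℤ × ℤ))} (hP : Pl c P)
    (hS : Swap c P) {F₁ F₂ : Finset (ℤ × ℤ)} (hF : F₁ ⊆ F₂) {g : Set Pt → ℝ} (hg : Adm F₁ F₂ g)
    {A : (Site → ℤ) → ℝ} (hA : PosH A) (hAI : Dep F₁ A)
    (hi0 : Integrable (fun h => avg c⁻¹ g h) (mu0 P))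
    (hi1 : Integrable (fun h => avg c⁻¹ g h * A (fun s => h (fc s))) (mu0 P)) :
    ∫ h, avg c⁻¹ g h * A (fun s => h (fc s)) ∂(mu0 P) ≤
        ze c F₂ A * ∫ h, avg c⁻¹ g h ∂(mu0 P) ∧
      ze c F₁ A * ∫ h, avg c⁻¹ g h ∂(mu0 P) ≤
        ∫ h, avg c⁻¹ g h * A (fun s => h (fc s)) ∂(mu0 P) := by
  have hc0 : 0 < c := by linarith
  have ht0 : 0 < c⁻¹ := inv_pos.mpr hc0
  have ht1 : c⁻¹ ≤ 1 := inv_le_one_of_one_le₀ hc
  obtain ⟨W, hW⟩ := hg.loc
  obtain ⟨m, hm, hNb, hWR⟩ := exists_square F₂ W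
  -- locality
  have hloc : ∀ h h' : Hgt, (∀ q ∈ Fc (Rm m), h q = h' q) → avg c⁻¹ g h = avg c⁻¹ g h' ∧
      A (fun s => h (fc s)) = A (fun s => h' (fc s)) := by
    intro h h' hh
    constructor
    · unfold avg
      congr 1
      funext ξ
      refine hW _ _ fun w hw => ?_
      obtain ⟨e, rfl⟩ := mem_VB_iff.1 (hWR hw)
      obtain ⟨s1, s2, s3, s4⟩ := ewp_sites e
      have u1 : h (e1 (ewp e)) = h' (e1 (ewp e)) := by
        rw [s1]; exact hh _ (mem_Fc_inl.2 ((boxN (Rm m)).v e).2)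
      have u2 : h (e2 (ewp e)) = h' (e2 (ewp e)) := by
        rw [s2]; exact hh _ (mem_Fc_inl.2 ((boxN (Rm m)).u e).2)
      have u3 : h (o1 (ewp e)) = h' (o1 (ewp e)) := by
        rw [s3]; exact hh _ (mem_Fc_inr.2 ((boxN (Rm m)).f e).2)
      have u4 : h (o2 (ewp e)) = h' (o2 (ewp e)) := by
        rw [s4]; exact hh _ (mem_Fc_inr.2 ((boxN (Rm m)).g e).2)
      unfold bl om
      simp only [Set.mem_ofPred_eq]
      rw [u1, u2, u3, u4]
    · refine hAI _ _ fun v hv => ?_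
      refine hh _ (mem_Fc_inl.2 (mem_verts.2 ⟨v, ?_, cor00 v⟩))
      exact hNb.mem (hF (hv v (cor00 v)))
  -- nonnegativity of a linear combination
  have main : ∀ a b : ℝ, (∀ (η₀ : Hgt) (K : ℕ), KF F₂ ≤ K →
      0 ≤ a * SS (B := Rm m) K c⁻¹ (fun w => g (bS w)) (bd η₀) +
        b * SS (B := Rm m) K c⁻¹ (fun w => g (bS w)) (fun y => bd η₀ y * A (xt y))) →
      0 ≤ a * (∫ h, avg c⁻¹ g h ∂(mu0 P)) +
        b * ∫ h, avg c⁻¹ g h * A (fun s => h (fc s)) ∂(mu0 P) := by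
    intro a b hab
    have e0 : ∀ h : Hgt, avg c⁻¹ g h * (a + b * A (fun s => h (fc s))) =
        a * avg c⁻¹ g h + b * (avg c⁻¹ g h * A (fun s => h (fc s))) := fun h => by ring
    have hi : Integrable (fun h => avg c⁻¹ g h * (a + b * A (fun s => h (fc s)))) (mu0 P) := by
      simp only [e0]
      exact (hi0.const_mul a).add (hi1.const_mul b)
    have h1 := FC.integral_nonneg_of_cls hc0 hP hS (con_Fc hm)
      (F := fun h => avg c⁻¹ g h * (a + b * A (fun s => h (fc s))))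
      (fun h h' hh => by rw [(hloc h h' hh).1, (hloc h h' hh).2]) hi
      (by
        intro η₀ _
        obtain ⟨K0, hK0⟩ : ∃ K0 : ℕ, ∀ x ∈ FC.cls (Fc (Rm m)) η₀, ∀ q : Fc (Rm m),
            |x q| ≤ 2 * (K0 : ℤ) := by
          have hfin := FC.cls_finite (con_Fc hm) η₀
          refine ⟨∑ x ∈ hfin.toFinset, ∑ q, (x q).natAbs, fun x hx q => ?_⟩
          have h2 : (x q).natAbs ≤ ∑ q, (x q).natAbs :=
            Finset.single_le_sum (f := fun q => (x q).natAbs) (fun _ _ => Nat.zero_le _)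
              (Finset.mem_univ q)
          have h3 : ∑ q, (x q).natAbs ≤ ∑ x ∈ hfin.toFinset, ∑ q, (x q).natAbs :=
            Finset.single_le_sum (f := fun x : Fc (Rm m) → ℤ => ∑ q, (x q).natAbs)
              (fun _ _ => Nat.zero_le _) (hfin.mem_toFinset.2 hx)
          have h4 := h2.trans h3
          rw [Int.abs_eq_natAbs]
          have h5 : (((x q).natAbs : ℕ) : ℤ) ≤ ((∑ x ∈ hfin.toFinset, ∑ q, (x q).natAbs : ℕ) : ℤ) := by
            exact_mod_cast h4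
          linarith [Int.natCast_nonneg (∑ x ∈ hfin.toFinset, ∑ q, (x q).natAbs)]
        have hK : ∀ x ∈ FC.cls (Fc (Rm m)) η₀, ∀ q : Fc (Rm m),
            |x q| ≤ 2 * ((max K0 (KF F₂) : ℕ) : ℤ) := by
          intro x hx q
          have h2 := hK0 x hx q
          have h3 : (K0 : ℤ) ≤ ((max K0 (KF F₂) : ℕ) : ℤ) := by exact_mod_cast le_max_left _ _
          linarith
        have h4 := cls_eval (m := m) ht0 ht1 hW hWR η₀ hK A a b
        rw [inv_inv] at h4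
        rw [h4]
        exact hab η₀ _ (le_max_right _ _))
    simp only [e0] at h1
    rw [integral_add (hi0.const_mul a) (hi1.const_mul b), integral_const_mul,
      integral_const_mul] at h1
    exact h1
  constructor
  · have h1 := main (ze c F₂ A) (-1) (fun η₀ K hK => by
      have h2 := (square_sandwich hNb hF ht0 ht1 hK hg hA hAI η₀).1
      rw [inv_inv] at h2
      linarith)
    linarith
  · have h1 := main (-ze c F₁ A) 1 (fun η₀ K hK => by
      have h2 := (square_sandwich hNb hF ht0 ht1 hK hg hA hAI η₀).2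
      rw [inv_inv] at h2
      linarith)
    linarith

end Vale.Agent.P145.FK
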