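import Vale.Agent.P145.FC.Up
import Vale.Agent.P145.FB.Mu

/-!
P145, block F-C: the sandwich for `MU t P`, the law of the absolute heights and the bonds.
-/

namespace Vale.Agent.P145.FK

open Finset MeasureTheory Vale.Agent.P145.FP Vale.Agent.P145.Dom
open Vale.Agent.P145.FA (Hgt mu0 Pl)
open Vale.Agent.P145.FB (Mk Pt mkm om e1 e2 o1 o2 Swap MU measurable_om)
open Vale.Agent.P152 (Ori)

instance sfinite_mu0 (P : Measure (Ori (ℤ × ℤ))) [SFinite P] : SFinite (mu0 P) := by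
  unfold mu0; infer_instance

/-- Integrals with respect to `MU`. -/
theorem int_MU {t : ℝ} {P : Measure (Ori (ℤ × ℤ))} [SFinite P] {f : Hgt × Mk → ℝ}
    (hf : Integrable f (MU t P)) :
    ∫ x, f x ∂(MU t P) = ∫ h, ∫ ξ, f (h, om h ξ) ∂(mkm t) ∂(mu0 P) ∧
    Integrable (fun h => ∫ ξ, f (h, om h ξ) ∂(mkm t)) (mu0 P) := by
  have h1 : Integrable (fun x : Hgt × Mk => f (x.1, om x.1 x.2)) ((mu0 P).prod (mkm t)) :=
    (integrable_map_measure hf.aestronglyMeasurable measurable_om.aemeasurable).1 hf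
  refine ⟨?_, h1.integral_prod_left⟩
  unfold MU
  rw [integral_map measurable_om.aemeasurable hf.aestronglyMeasurable]
  exact integral_prod _ h1

/-- **The sandwich for `MU`.** -/
theorem MU_sandwich {c : ℝ} (hc : 1 ≤ c) {P : Measure (Ori (ℤ × ℤ))} (hP : Pl c P)
    (hS : Swap c P) {F₁ F₂ : Finset (ℤ × ℤ)} (hF : F₁ ⊆ F₂) {g : Set Pt → ℝ} (hg : Adm F₁ F₂ g)
    {A : (Site → ℤ) → ℝ} (hA : PosH A) (hAI : Dep F₁ A)
    (hi0 : Integrable (fun x => g (bl x)) (MU c⁻¹ P))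
    (hi1 : Integrable (fun x => g (bl x) * A (fun s => x.1 (fc s))) (MU c⁻¹ P)) :
    ∫ x, g (bl x) * A (fun s => x.1 (fc s)) ∂(MU c⁻¹ P) ≤
        ze c F₂ A * ∫ x, g (bl x) ∂(MU c⁻¹ P) ∧
      ze c F₁ A * ∫ x, g (bl x) ∂(MU c⁻¹ P) ≤
        ∫ x, g (bl x) * A (fun s => x.1 (fc s)) ∂(MU c⁻¹ P) := by
  have := hP.prob
  obtain ⟨a1, a2⟩ := int_MU hi0
  obtain ⟨b1, b2⟩ := int_MU hi1
  have e1 : ∀ h : Hgt, ∫ ξ, g (bl (h, om h ξ)) ∂(mkm c⁻¹) = avg c⁻¹ g h := fun h => rfl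
  have e2 : ∀ h : Hgt, ∫ ξ, g (bl (h, om h ξ)) * A (fun s => h (fc s)) ∂(mkm c⁻¹) =
      avg c⁻¹ g h * A (fun s => h (fc s)) := fun h => integral_mul_const _ _
  simp only at a1 a2 b1 b2
  simp only [e1] at a1 a2
  simp only [e2] at b1 b2
  rw [a1, b1]
  exact plane_sandwich hc hP hS hF hg hA hAI a2 b2

end Vale.Agent.P145.FK
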