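import Vale.Agent.P145.FC.Plane2
import Vale.Agent.P145.FA.RpG

/-!
P145, block F-C: the height functions on a square of faces with value zero at the origin are the ice
configurations of the box with free arrows; convergence of the height sums to the plane measure.
-/

namespace Vale.Agent.P145.FC

open Finset Filter Topology MeasureTheory
open Vale.Agent.P152 (Edge Ori Ice sgb pth pth_step_h cyl vw w6 w6_val wc Pairing anti anti_zero
  anti_step sgb_eq)
open Vale.Agent.P152.GFF.B3 (BE boxNet rd Net)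
open Vale.Agent.P145.FA (Hgt)

/-- The square of faces `[-N, N]²`. -/
noncomputable def SqF (N : ℕ) : Finset (ℤ × ℤ) := Finset.Icc (-(N : ℤ)) N ×ˢ Finset.Icc (-(N : ℤ)) N

theorem mem_SqF {N : ℕ} {v : ℤ × ℤ} :
    v ∈ SqF N ↔ (-(N : ℤ) ≤ v.1 ∧ v.1 ≤ N) ∧ -(N : ℤ) ≤ v.2 ∧ v.2 ≤ N := by
  simp [SqF]

theorem mem_VB_SqF {N : ℕ} {v : ℤ × ℤ} :
    v ∈ VB (SqF N) ↔ (-(N : ℤ) < v.1 ∧ v.1 ≤ N) ∧ -(N : ℤ) < v.2 ∧ v.2 ≤ N := by
  simp only [VB, Finset.mem_filter, mem_SqF]
  omega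

theorem con_SqF (N : ℕ) : Con (SqF N) := by
  refine ⟨mem_SqF.2 ⟨⟨by simp, by simp⟩, by simp, by simp⟩, fun p h0 h1 h2 => ?_⟩
  have a : ∀ m : ℕ, m ≤ N → p (0, (m : ℤ)) ∧ p (0, -(m : ℤ)) := by
    intro m
    induction m with
    | zero =>
      intro _
      have e0 : ((0, ((0 : ℕ) : ℤ)) : ℤ × ℤ) = 0 := rfl
      have e1 : ((0, -((0 : ℕ) : ℤ)) : ℤ × ℤ) = 0 := rfl
      rw [e0, e1]
      exact ⟨h0, h0⟩
    | succ m ih =>
      intro hm
      obtain ⟨i1, i2⟩ := ih (by omega)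
      constructor
      · have e : ((0, ((m + 1 : ℕ) : ℤ) - 1) : ℤ × ℤ) = (0, (m : ℤ)) := by push_cast; simp
        refine (h1 0 ((m + 1 : ℕ) : ℤ) ?_ ?_).2 ?_
        · rw [mem_SqF]; push_cast; omega
        · rw [mem_SqF]; push_cast; omega
        · rw [e]; exact i1
      · have e : ((0, -(m : ℤ) - 1) : ℤ × ℤ) = (0, -((m + 1 : ℕ) : ℤ)) := by
          push_cast; ext <;> simp; ring
        rw [← e]
        refine (h1 0 (-(m : ℤ)) ?_ ?_).1 i2
        · rw [mem_SqF]; omega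
        · rw [mem_SqF]; omega
  have b : ∀ y : ℤ, -(N : ℤ) ≤ y → y ≤ N → p (0, y) := by
    intro y hy1 hy2
    rcases le_total 0 y with h | h
    · have := (a y.toNat (by omega)).1
      rwa [Int.toNat_of_nonneg h] at this
    · have := (a (-y).toNat (by omega)).2
      rwa [Int.toNat_of_nonneg (by omega), neg_neg] at this
  have d : ∀ y : ℤ, -(N : ℤ) ≤ y → y ≤ N → ∀ m : ℕ, m ≤ N → p ((m : ℤ), y) ∧ p (-(m : ℤ), y) := by
    intro y hy1 hy2 m
    induction m with
    | zero => intro _; exact ⟨by simpa using b y hy1 hy2, by simpa using b y hy1 hy2⟩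
    | succ m ih =>
      intro hm
      obtain ⟨i1, i2⟩ := ih (by omega)
      constructor
      · have e : ((((m + 1 : ℕ) : ℤ) - 1, y) : ℤ × ℤ) = ((m : ℤ), y) := by push_cast; simp
        refine (h2 ((m + 1 : ℕ) : ℤ) y ?_ ?_).1 ?_
        · rw [mem_SqF]; push_cast; omega
        · rw [mem_SqF]; push_cast; omega
        · rw [e]; exact i1
      · have e : ((-(m : ℤ) - 1, y) : ℤ × ℤ) = (-((m + 1 : ℕ) : ℤ), y) := by
          push_cast; ext <;> simp; ring
        rw [← e]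
        refine (h2 (-(m : ℤ)) y ?_ ?_).2 i2
        · rw [mem_SqF]; omega
        · rw [mem_SqF]; omega
  rintro ⟨x, y⟩ hq
  rw [mem_SqF] at hq
  simp only at hq
  rcases le_total 0 x with h | h
  · have := (d y hq.2.1 hq.2.2 x.toNat (by omega)).1
    rwa [Int.toNat_of_nonneg h] at this
  · have := (d y hq.2.1 hq.2.2 (-x).toNat (by omega)).2
    rwa [Int.toNat_of_nonneg (by omega), neg_neg] at this

/-- The arrows of the box as arrows of the plane. -/
def un (N n : ℕ) (k : BE n n → ZMod 2) : Ori (ℤ × ℤ)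
  | Sum.inl v => if h : (v.1 + N).toNat < n + 1 ∧ (v.2 + N - 1).toNat < n then
      decide (k (Sum.inl (⟨(v.1 + N).toNat, h.1⟩, ⟨(v.2 + N - 1).toNat, h.2⟩)) = 0) else false
  | Sum.inr v => if h : (v.1 + N - 1).toNat < n ∧ (v.2 + N).toNat < n + 1 then
      decide (k (Sum.inr (⟨(v.1 + N - 1).toNat, h.1⟩, ⟨(v.2 + N).toNat, h.2⟩)) = 0) else false

theorem z01 (x : ZMod 2) : (if decide (x = 0) = true then (0 : ZMod 2) else 1) = x := by
  revert x; decide

theorem rd_un {N n : ℕ} (k : BE n n → ZMod 2) :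
    rd n n (1 - (N : ℤ)) (1 - (N : ℤ)) (un N n k) = k := by
  funext e
  rcases e with ⟨i, j⟩ | ⟨i, j⟩
  · have h1 : (1 - (N : ℤ) + i - 1 + N).toNat = i := by omega
    have h2 : (1 - (N : ℤ) + j + N - 1).toNat = j := by omega
    show (if un N n k (Sum.inl (1 - (N : ℤ) + i - 1, 1 - (N : ℤ) + j)) = true then (0 : ZMod 2)
      else 1) = _
    have h3 : un N n k (Sum.inl (1 - (N : ℤ) + i - 1, 1 - (N : ℤ) + j)) =
        decide (k (Sum.inl (i, j)) = 0) := by
      show (if h : _ then _ else _) = _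
      rw [dif_pos ⟨by omega, by omega⟩]
      congr 5 <;> exact Fin.ext (by assumption)
    rw [h3, z01]
  · have h1 : (1 - (N : ℤ) + i + N - 1).toNat = i := by omega
    have h2 : (1 - (N : ℤ) + j - 1 + N).toNat = j := by omega
    show (if un N n k (Sum.inr (1 - (N : ℤ) + i, 1 - (N : ℤ) + j - 1)) = true then (0 : ZMod 2)
      else 1) = _
    have h3 : un N n k (Sum.inr (1 - (N : ℤ) + i, 1 - (N : ℤ) + j - 1)) =
        decide (k (Sum.inr (i, j)) = 0) := by
      show (if h : _ then _ else _) = _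
      rw [dif_pos ⟨by omega, by omega⟩]
      congr 5 <;> exact Fin.ext (by assumption)
    rw [h3, z01]

theorem dec01 (b : Bool) : decide ((if b = true then (0 : ZMod 2) else 1) = 0) = b := by
  cases b <;> decide

theorem un_rd {N n : ℕ} (hn : n = 2 * N) (ω : Ori (ℤ × ℤ)) {e : Edge (ℤ × ℤ)}
    (he : e ∈ EB (SqF N)) : un N n (rd n n (1 - (N : ℤ)) (1 - (N : ℤ)) ω) e = ω e := by
  rcases e with ⟨x, y⟩ | ⟨x, y⟩
  · rw [mem_EB_inl, mem_SqF, mem_SqF] at he
    simp only at he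
    show (if h : (x + N).toNat < n + 1 ∧ (y + N - 1).toNat < n then
      decide (rd n n (1 - (N : ℤ)) (1 - (N : ℤ)) ω
        (Sum.inl (⟨(x + N).toNat, h.1⟩, ⟨(y + N - 1).toNat, h.2⟩)) = 0) else false) = _
    rw [dif_pos ⟨by omega, by omega⟩]
    show decide ((if ω (Sum.inl (1 - (N : ℤ) + ((x + N).toNat : ℕ) - 1,
      1 - (N : ℤ) + ((y + N - 1).toNat : ℕ))) = true then (0 : ZMod 2) else 1) = 0) = _
    rw [dec01]
    congr 3 <;> omega
  · rw [mem_EB_inr, mem_SqF, mem_SqF] at he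
    simp only at he
    show (if h : (x + N - 1).toNat < n ∧ (y + N).toNat < n + 1 then
      decide (rd n n (1 - (N : ℤ)) (1 - (N : ℤ)) ω
        (Sum.inr (⟨(x + N - 1).toNat, h.1⟩, ⟨(y + N).toNat, h.2⟩)) = 0) else false) = _
    rw [dif_pos ⟨by omega, by omega⟩]
    show decide ((if ω (Sum.inr (1 - (N : ℤ) + ((x + N - 1).toNat : ℕ),
      1 - (N : ℤ) + ((y + N).toNat : ℕ) - 1)) = true then (0 : ZMod 2) else 1) = 0) = _
    rw [dec01]
    congr 3 <;> omega

theorem w6_vw (c : ℝ) (l r b a : Bool) :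
    w6 (wc c) (if l = true then 0 else 1) (if r = true then 0 else 1) (if b = true then 0 else 1)
      (if a = true then 0 else 1) = vw c l r b a := by
  have e1 : ((0 : ZMod 2) = 1 + 1) = True := by decide
  have e2 : ((1 : ZMod 2) = 0) = False := by decide
  have e3 : ((0 : ZMod 2) = 1) = False := by decide
  have e4 : ((1 : ZMod 2) = 1 + 1) = False := by decide
  rw [w6_val]
  cases l <;> cases r <;> cases b <;> cases a <;>
    simp only [wc, vw, e1, e2, e3, e4, zero_add, if_true, if_false, Bool.false_eq_true, and_self,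
      and_true, and_false, true_and, false_and, Bool.toNat_true, Bool.toNat_false, reduceCtorEq,
      Nat.reduceAdd, Nat.reduceEqDiff, Nat.add_zero, Nat.zero_add] <;> first | ring | norm_num

/-- The weight of the box. -/
theorem W6_rd {N n : ℕ} (hn : n = 2 * N) (c : ℝ) (ω : Ori (ℤ × ℤ)) :
    (boxNet n n).W6 (wc c) (rd n n (1 - (N : ℤ)) (1 - (N : ℤ)) ω) =
      ∏ v ∈ VB (SqF N), FP.vwt c ω v := by
  unfold Net.W6
  refine Finset.prod_bij (fun v _ => (1 - (N : ℤ) + (v.1 : ℕ), 1 - (N : ℤ) + (v.2 : ℕ))) ?_ ?_ ?_ ?_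
  · rintro ⟨i, j⟩ _
    rw [mem_VB_SqF]
    have := i.2
    have := j.2
    simp only
    omega
  · rintro ⟨i, j⟩ _ ⟨i', j'⟩ _ h
    simp only [Prod.mk.injEq] at h
    exact Prod.ext (Fin.ext (by simp only; omega)) (Fin.ext (by simp only; omega))
  · rintro ⟨x, y⟩ h
    rw [mem_VB_SqF] at h
    simp only at h
    refine ⟨(⟨(x + N - 1).toNat, by omega⟩, ⟨(y + N - 1).toNat, by omega⟩), Finset.mem_univ _, ?_⟩
    simp only [Prod.mk.injEq]
    omega
  · rintro ⟨i, j⟩ _
    unfold FP.vwt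
    rw [← w6_vw]
    show w6 (wc c) (if ω (Sum.inl (1 - (N : ℤ) + ((i.castSucc : Fin (n + 1)) : ℕ) - 1,
        1 - (N : ℤ) + (j : ℕ))) = true then 0 else 1)
      (if ω (Sum.inl (1 - (N : ℤ) + ((i.succ : Fin (n + 1)) : ℕ) - 1,
        1 - (N : ℤ) + (j : ℕ))) = true then 0 else 1)
      (if ω (Sum.inr (1 - (N : ℤ) + (i : ℕ),
        1 - (N : ℤ) + ((j.castSucc : Fin (n + 1)) : ℕ) - 1)) = true then 0 else 1)
      (if ω (Sum.inr (1 - (N : ℤ) + (i : ℕ),
        1 - (N : ℤ) + ((j.succ : Fin (n + 1)) : ℕ) - 1)) = true then 0 else 1) = _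
    have e1 : 1 - (N : ℤ) + ((i.castSucc : Fin (n + 1)) : ℕ) - 1 = 1 - (N : ℤ) + (i : ℕ) - 1 := by
      simp
    have e2 : 1 - (N : ℤ) + ((i.succ : Fin (n + 1)) : ℕ) - 1 = 1 - (N : ℤ) + (i : ℕ) := by
      simp only [Fin.val_succ]; push_cast; ring
    have e3 : 1 - (N : ℤ) + ((j.castSucc : Fin (n + 1)) : ℕ) - 1 = 1 - (N : ℤ) + (j : ℕ) - 1 := by
      simp
    have e4 : 1 - (N : ℤ) + ((j.succ : Fin (n + 1)) : ℕ) - 1 = 1 - (N : ℤ) + (j : ℕ) := by
      simp only [Fin.val_succ]; push_cast; ring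
    rw [e1, e2, e3, e4]

/-- `ow` inverts the gradient. -/
theorem ow_eq {B : Finset (ℤ × ℤ)} {η : Hgt} {ω : Ori (ℤ × ℤ)}
    (h1 : ∀ x y, (x, y) ∈ B → (x, y - 1) ∈ B → η (x, y) - η (x, y - 1) = sgb (ω (Sum.inl (x, y))))
    (h2 : ∀ x y, (x, y) ∈ B → (x - 1, y) ∈ B → η (x - 1, y) - η (x, y) = sgb (ω (Sum.inr (x, y))))
    {e : Edge (ℤ × ℤ)} (he : e ∈ EB B) : ow η e = ω e := by
  rcases e with ⟨x, y⟩ | ⟨x, y⟩
  · rw [mem_EB_inl] at he
    show decide (η (x, y) - η (x, y - 1) = 1) = _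
    rw [h1 x y he.1 he.2]
    cases ω (Sum.inl (x, y)) <;> decide
  · rw [mem_EB_inr] at he
    show decide (η (x - 1, y) - η (x, y) = 1) = _
    rw [h2 x y he.1 he.2]
    cases ω (Sum.inr (x, y)) <;> decide

/-- Local existence of the heights. -/
theorem pth_local {N : ℕ} {ω : Ori (ℤ × ℤ)} (h : ∀ v ∈ VB (SqF N), Ice ω v.1 v.2) {x y : ℤ}
    (h1 : (x, y) ∈ SqF N) (h2 : (x, y - 1) ∈ SqF N) :
    pth ω (x, y) - pth ω (x, y - 1) = sgb (ω (Sum.inl (x, y))) := by
  rw [mem_SqF] at h1 h2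
  simp only at h1 h2
  have hstep : ∀ x : ℤ, -(N : ℤ) < x → x ≤ N →
      (pth ω (x, y) - pth ω (x, y - 1) - sgb (ω (Sum.inl (x, y))))
        = (pth ω (x - 1, y) - pth ω (x - 1, y - 1) - sgb (ω (Sum.inl (x - 1, y)))) := by
    intro x hx1 hx2
    have a1 := pth_step_h ω x y
    have a2 := pth_step_h ω x (y - 1)
    have a3 := h (x, y) (mem_VB_SqF.2 ⟨⟨hx1, hx2⟩, by simp only; omega⟩)
    unfold Ice at a3
    simp only at a3
    rw [sgb_eq] at a1 a2
    rw [sgb_eq, sgb_eq]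
    omega
  have h0 : pth ω (0, y) - pth ω (0, y - 1) - sgb (ω (Sum.inl (0, y))) = 0 := by
    simp only [pth, anti_zero, sub_zero]
    rw [anti_step]
    ring
  have hall : ∀ m : ℕ, m ≤ N →
      pth ω ((m : ℤ), y) - pth ω ((m : ℤ), y - 1) - sgb (ω (Sum.inl ((m : ℤ), y))) = 0 ∧
      pth ω (-(m : ℤ), y) - pth ω (-(m : ℤ), y - 1) - sgb (ω (Sum.inl (-(m : ℤ), y))) = 0 := by
    intro m
    induction m with
    | zero => intro _; simpa using h0
    | succ m ih =>
      intro hm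
      obtain ⟨i1, i2⟩ := ih (by omega)
      constructor
      · have a := hstep ((m + 1 : ℕ) : ℤ) (by omega) (by omega)
        have e : ((m + 1 : ℕ) : ℤ) - 1 = (m : ℤ) := by push_cast; ring
        rw [e, i1] at a
        exact a
      · have a := hstep (-(m : ℤ)) (by omega) (by omega)
        have e : -(m : ℤ) - 1 = -((m + 1 : ℕ) : ℤ) := by push_cast; ring
        rw [e, i2] at a
        exact a.symm
  have : pth ω (x, y) - pth ω (x, y - 1) - sgb (ω (Sum.inl (x, y))) = 0 := by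
    rcases le_total 0 x with hx | hx
    · have a := (hall x.toNat (by omega)).1
      rwa [Int.toNat_of_nonneg hx] at a
    · have a := (hall (-x).toNat (by omega)).2
      rwa [Int.toNat_of_nonneg (by omega), neg_neg] at a
  linarith

theorem abs_sgb (b : Bool) : |sgb b| = 1 := by cases b <;> decide

/-- The heights on the square with value zero at the origin. -/
def HZ (N : ℕ) : Set (SqF N → ℤ) := {x | Hon (SqF N) (ext0 x) ∧ ext0 x 0 = 0}

/-- The height sum. -/
noncomputable def ZA (c : ℝ) (N : ℕ) (f : Ori (ℤ × ℤ) → ℝ) : ℝ :=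
  ∑ᶠ x ∈ HZ N, WB c (SqF N) (ext0 x) * f (ow (ext0 x))

/-- Heights with value zero at the origin are ice configurations. -/
theorem bijOn_HZ {N n : ℕ} (hn : n = 2 * N) {c : ℝ} (hc : 0 < c) :
    Set.BijOn (fun x : SqF N → ℤ => rd n n (1 - (N : ℤ)) (1 - (N : ℤ)) (ow (ext0 x))) (HZ N)
      {k | (boxNet n n).W6 (wc c) k ≠ 0} := by
  refine ⟨?_, ?_, ?_⟩
  · rintro x ⟨hx, _⟩
    show (boxNet n n).W6 (wc c) _ ≠ 0
    rw [W6_rd hn, Finset.prod_congr rfl fun v hv => vwt_ow hx hv]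
    exact (WB_pos hc _ _).ne'
  · rintro x ⟨hx, hx0⟩ x' ⟨hx', hx0'⟩ h
    have h1 : ∀ e ∈ EB (SqF N), ow (ext0 x) e = ow (ext0 x') e := by
      intro e he
      have := congrArg (fun k => un N n k e) h
      simp only at this
      rwa [un_rd hn _ he, un_rd hn _ he] at this
    have h2 : ∀ q ∈ SqF N, ext0 x q = ext0 x' q := by
      refine (con_SqF N).2 (fun q => ext0 x q = ext0 x' q) (by rw [hx0, hx0']) ?_ ?_
      · intro a b ha hb
        have e1 := h1 (Sum.inl (a, b)) (mem_EB_inl.2 ⟨ha, hb⟩)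
        have e2 := hx.2.1 a b ha hb
        have e3 := hx'.2.1 a b ha hb
        have e4 : (ext0 x (a, b) - ext0 x (a, b - 1) = 1) ↔
            (ext0 x' (a, b) - ext0 x' (a, b - 1) = 1) := by
          have : decide (ext0 x (a, b) - ext0 x (a, b - 1) = 1) =
            decide (ext0 x' (a, b) - ext0 x' (a, b - 1) = 1) := e1
          simpa using this
        rcases (abs_eq (by norm_num)).1 e2 with e2 | e2 <;>
          rcases (abs_eq (by norm_num)).1 e3 with e3 | e3 <;>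
          (rw [e2, e3] at e4; constructor <;> intro h5 <;> omega)
      · intro a b ha hb
        have e1 := h1 (Sum.inr (a, b)) (mem_EB_inr.2 ⟨ha, hb⟩)
        have e2 := hx.2.2 a b ha hb
        have e3 := hx'.2.2 a b ha hb
        have e4 : (ext0 x (a - 1, b) - ext0 x (a, b) = 1) ↔
            (ext0 x' (a - 1, b) - ext0 x' (a, b) = 1) := by
          have : decide (ext0 x (a - 1, b) - ext0 x (a, b) = 1) =
            decide (ext0 x' (a - 1, b) - ext0 x' (a, b) = 1) := e1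
          simpa using this
        rcases (abs_eq (by norm_num)).1 e2 with e2 | e2 <;>
          rcases (abs_eq (by norm_num)).1 e3 with e3 | e3 <;>
          (rw [e2, e3] at e4; constructor <;> intro h5 <;> omega)
    funext q
    have := h2 q q.2
    rwa [ext0_of_mem x q.2, ext0_of_mem x' q.2] at this
  · intro k hk
    have hk' : (boxNet n n).W6 (wc c) k ≠ 0 := hk
    rw [← rd_un (N := N) k, W6_rd hn, Finset.prod_ne_zero_iff] at hk'
    set ω := un N n k with hω
    have hice : ∀ v ∈ VB (SqF N), Ice ω v.1 v.2 := by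
      intro v hv
      have h1 := hk' v hv
      unfold FP.vwt vw at h1
      by_contra h2
      exact h1 (if_neg h2)
    have a1 : ∀ x y, (x, y) ∈ SqF N → (x, y - 1) ∈ SqF N →
        pth ω (x, y) - pth ω (x, y - 1) = sgb (ω (Sum.inl (x, y))) :=
      fun x y h1 h2 => pth_local hice h1 h2
    have a2 : ∀ x y, (x, y) ∈ SqF N → (x - 1, y) ∈ SqF N →
        pth ω (x - 1, y) - pth ω (x, y) = sgb (ω (Sum.inr (x, y))) :=
      fun x y _ _ => pth_step_h ω x y
    have hη : Hon (SqF N) (pth ω) :=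
      ⟨fun q _ => FA.pth_parity ω q, fun x y h1 h2 => by rw [a1 x y h1 h2]; exact abs_sgb _,
        fun x y h1 h2 => by rw [a2 x y h1 h2]; exact abs_sgb _⟩
    have hE : ∀ q ∈ SqF N, ext0 (res0 (SqF N) (pth ω)) q = pth ω q := fun q hq => ext0_res0 _ hq
    refine ⟨res0 (SqF N) (pth ω), ⟨hη.congr fun q hq => (hE q hq).symm, ?_⟩, ?_⟩
    · rw [hE 0 (con_SqF N).1]
      exact P152.pth_zero ω
    · show rd n n (1 - (N : ℤ)) (1 - (N : ℤ)) (ow (ext0 (res0 (SqF N) (pth ω)))) = k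
      have h1 : ∀ e ∈ EB (SqF N), ow (ext0 (res0 (SqF N) (pth ω))) e = ω e := by
        intro e he
        refine ow_eq (B := SqF N) (fun x y h1 h2 => ?_) (fun x y h1 h2 => ?_) he
        · rw [hE _ h1, hE _ h2]; exact a1 x y h1 h2
        · rw [hE _ h1, hE _ h2]; exact a2 x y h1 h2
      rw [← rd_un (N := N) k]
      funext e
      rcases e with ⟨i, j⟩ | ⟨i, j⟩
      · show (if _ = true then (0 : ZMod 2) else 1) = (if _ = true then (0 : ZMod 2) else 1)
        rw [h1 _ (mem_EB_inl.2 ⟨?_, ?_⟩)]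
        · rw [mem_SqF]; have := i.2; have := j.2; simp only; omega
        · rw [mem_SqF]; have := i.2; have := j.2; simp only; omega
      · show (if _ = true then (0 : ZMod 2) else 1) = (if _ = true then (0 : ZMod 2) else 1)
        rw [h1 _ (mem_EB_inr.2 ⟨?_, ?_⟩)]
        · rw [mem_SqF]; have := i.2; have := j.2; simp only; omega
        · rw [mem_SqF]; have := i.2; have := j.2; simp only; omega

theorem ZA_eq {N n : ℕ} (hn : n = 2 * N) {c : ℝ} (hc : 0 < c) {f : Ori (ℤ × ℤ) → ℝ}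
    (hf : ∀ ω ω', (∀ e ∈ EB (SqF N), ω e = ω' e) → f ω = f ω') :
    ZA c N f = (boxNet n n).ar (wc c) (fun k => f (un N n k)) := by
  unfold ZA Net.ar
  rw [finsum_mem_eq_of_bijOn _ (bijOn_HZ hn hc)
    (g := fun k => f (un N n k) * (boxNet n n).W6 (wc c) k)]
  · rw [finsum_mem_def, finsum_eq_sum_of_fintype]
    refine Finset.sum_congr rfl fun k _ => ?_
    by_cases h : (boxNet n n).W6 (wc c) k = 0
    · rw [h, mul_zero]
      exact Set.indicator_of_notMem
        (show k ∉ {k | (boxNet n n).W6 (wc c) k ≠ 0} from fun h' => absurd h h') _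
    · exact Set.indicator_of_mem (show k ∈ {k | (boxNet n n).W6 (wc c) k ≠ 0} from h) _
  · rintro x ⟨hx, _⟩
    rw [W6_rd hn, Finset.prod_congr rfl fun v hv => vwt_ow hx hv, mul_comm]
    congr 1
    exact hf _ _ fun e he => (un_rd hn _ he).symm

end Vale.Agent.P145.FC
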