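import Vale.Agent.P145.FC.ZA
import Vale.Agent.P145.FB.AsPb

/-!
P145, block F-C: convergence of the sums over the heights on squares with free boundary conditions
to the plane measure.
-/

namespace Vale.Agent.P145.FC

open Finset Filter Topology MeasureTheory
open Vale.Agent.P152 (Edge Ori wc)
open Vale.Agent.P152.GFF.B3 (BE boxNet rd Net bxg mu IsP)
open Vale.Agent.P145.FA (Hgt)

theorem EB_mono {B B' : Finset (ℤ × ℤ)} (h : B ⊆ B') : EB B ⊆ EB B' := by
  rintro (⟨x, y⟩ | ⟨x, y⟩) he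
  · rw [mem_EB_inl] at he ⊢; exact ⟨h he.1, h he.2⟩
  · rw [mem_EB_inr] at he ⊢; exact ⟨h he.1, h he.2⟩

theorem SqF_mono {M N : ℕ} (h : M ≤ N) : SqF M ⊆ SqF N := by
  intro v hv
  rw [mem_SqF] at hv ⊢
  omega

/-- Every finite set of edges is contained in a square. -/
theorem exists_SqF (Λ : Finset (Edge (ℤ × ℤ))) : ∃ M : ℕ, 1 ≤ M ∧ Λ ⊆ EB (SqF M) := by
  classical
  induction Λ using Finset.induction_on with
  | empty => exact ⟨1, le_rfl, Finset.empty_subset _⟩
  | insert e Λ _ ih =>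
    obtain ⟨M, hM, hΛ⟩ := ih
    have h1 : ∃ M' : ℕ, e ∈ EB (SqF M') := by
      rcases e with ⟨x, y⟩ | ⟨x, y⟩
      · refine ⟨x.natAbs + y.natAbs + 1, ?_⟩
        rw [mem_EB_inl, mem_SqF, mem_SqF]
        simp only
        omega
      · refine ⟨x.natAbs + y.natAbs + 1, ?_⟩
        rw [mem_EB_inr, mem_SqF, mem_SqF]
        simp only
        omega
    obtain ⟨M', hM'⟩ := h1
    refine ⟨M + M', by omega, ?_⟩
    intro e' he'
    rcases Finset.mem_insert.1 he' with rfl | he'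
    · exact EB_mono (SqF_mono (by omega)) hM'
    · exact EB_mono (SqF_mono (by omega)) (hΛ he')

/-- The window of a box inside a larger box. -/
theorem un_bxg {M N m n q : ℕ} (hm : m = 2 * M) (hN : N = q + M) (hn : n = q + m + q)
    (k : BE n n → ZMod 2) {e : Edge (ℤ × ℤ)} (he : e ∈ EB (SqF M)) :
    un N n k e = un M m (fun e => k (bxg q q (by omega) (by omega) e)) e := by
  rcases e with ⟨x, y⟩ | ⟨x, y⟩
  · rw [mem_EB_inl, mem_SqF, mem_SqF] at he
    simp only at he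
    show (if h : (x + N).toNat < n + 1 ∧ (y + N - 1).toNat < n then
      decide (k (Sum.inl (⟨(x + N).toNat, h.1⟩, ⟨(y + N - 1).toNat, h.2⟩)) = 0) else false) =
      (if h : (x + M).toNat < m + 1 ∧ (y + M - 1).toNat < m then
      decide (k (bxg q q (by omega) (by omega)
        (Sum.inl (⟨(x + M).toNat, h.1⟩, ⟨(y + M - 1).toNat, h.2⟩))) = 0) else false)
    rw [dif_pos ⟨by omega, by omega⟩, dif_pos ⟨by omega, by omega⟩]
    show _ = decide (k (Sum.inl (⟨q + (x + M).toNat, _⟩, ⟨q + (y + M - 1).toNat, _⟩)) = 0)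
    congr 6 <;> omega
  · rw [mem_EB_inr, mem_SqF, mem_SqF] at he
    simp only at he
    show (if h : (x + N - 1).toNat < n ∧ (y + N).toNat < n + 1 then
      decide (k (Sum.inr (⟨(x + N - 1).toNat, h.1⟩, ⟨(y + N).toNat, h.2⟩)) = 0) else false) =
      (if h : (x + M - 1).toNat < m ∧ (y + M).toNat < m + 1 then
      decide (k (bxg q q (by omega) (by omega)
        (Sum.inr (⟨(x + M - 1).toNat, h.1⟩, ⟨(y + M).toNat, h.2⟩))) = 0) else false)
    rw [dif_pos ⟨by omega, by omega⟩, dif_pos ⟨by omega, by omega⟩]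
    show _ = decide (k (Sum.inr (⟨q + (x + M - 1).toNat, _⟩, ⟨q + (y + M).toNat, _⟩)) = 0)
    congr 6 <;> omega

/-- The height sums converge to the plane measure. -/
theorem ZA_lim {c : ℝ} (hc : 0 < c) {P : Measure (Ori (ℤ × ℤ))} (hP : IsP c P)
    (hb : FA.BoxLim c) {Λ : Finset (Edge (ℤ × ℤ))} {f : Ori (ℤ × ℤ) → ℝ}
    (hf : ∀ ω ω', (∀ e ∈ Λ, ω e = ω' e) → f ω = f ω') :
    Tendsto (fun N : ℕ => ZA c N f / ZA c N (fun _ => 1)) atTop (𝓝 (∫ ω, f ω ∂P)) := by
  obtain ⟨M, hM, hΛ⟩ := exists_SqF Λ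
  have hf' : ∀ ω ω', (∀ e ∈ EB (SqF M), ω e = ω' e) → f ω = f ω' :=
    fun ω ω' h => hf ω ω' fun e he => h e (hΛ he)
  set m : ℕ := 2 * M with hm
  have h1 := FB.lim_ar hb m m (by omega) (by omega) (fun κ => f (un M m κ))
  have h2 : ∫ ω, f ω ∂P = mu (wc c) m m (fun κ => f (un M m κ)) := by
    rw [← hP.2.2 m m (by omega) (by omega) (fun κ => f (un M m κ)) (1 - (M : ℤ)) (1 - (M : ℤ))]
    refine integral_congr_ae (Filter.Eventually.of_forall fun ω => ?_)
    exact hf' _ _ fun e he => (un_rd hm ω he).symm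
  rw [h2, ← tendsto_add_atTop_iff_nat M]
  refine h1.congr fun q => ?_
  have hn : q + m + q = 2 * (q + M) := by omega
  rw [ZA_eq hn hc (f := f), ZA_eq hn hc (f := fun _ => 1) (fun _ _ _ => rfl)]
  · congr 2
    funext k
    refine hf' _ _ fun e he => ?_
    exact (un_bxg hm rfl rfl k he).symm
  · exact fun ω ω' h => hf' ω ω' fun e he => h e (EB_mono (SqF_mono (by omega)) he)

end Vale.Agent.P145.FC
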