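import Vale.Agent.P145.FC.ZA

/-!
P145, block F-C: the height functions on a square of faces with bounded value at the origin in terms
of the ice configurations of the box with free arrows.
-/

namespace Vale.Agent.P145.FC

open Finset Filter Topology MeasureTheory
open Vale.Agent.P152 (Edge Ori Ice sgb pth pth_step_h cyl vw w6 w6_val wc Pairing anti anti_zero
  anti_step sgb_eq)
open Vale.Agent.P152.GFF.B3 (BE boxNet rd Net)
open Vale.Agent.P145.FA (Hgt ofW)

theorem anti_congr {g g' : ℤ → ℤ} {n : ℤ} (h : ∀ i, (0 < i ∧ i ≤ n) ∨ (n < i ∧ i ≤ 0) → g i = g' i) :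
    anti g n = anti g' n := by
  unfold anti
  congr 1
  · exact Finset.sum_congr rfl fun i hi => h i (Or.inl (Finset.mem_Ioc.1 hi))
  · exact Finset.sum_congr rfl fun i hi => h i (Or.inr (Finset.mem_Ioc.1 hi))

theorem pth_congr {N : ℕ} {ω ω' : Ori (ℤ × ℤ)} (h : ∀ e ∈ EB (SqF N), ω e = ω' e) {q : ℤ × ℤ}
    (hq : q ∈ SqF N) : pth ω q = pth ω' q := by
  obtain ⟨x, y⟩ := q
  rw [mem_SqF] at hq
  simp only at hq
  unfold pth
  congr 1
  · refine anti_congr fun i hi => ?_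
    simp only at hi
    rw [h _ (mem_EB_inl.2 ⟨by rw [mem_SqF]; simp only; omega, by rw [mem_SqF]; simp only; omega⟩)]
  · refine anti_congr fun i hi => ?_
    simp only at hi
    rw [h _ (mem_EB_inr.2 ⟨by rw [mem_SqF]; simp only; omega, by rw [mem_SqF]; simp only; omega⟩)]

theorem toNat_dec {z : ℤ} (hz : |z| = 1) : ((decide (z = 1)).toNat : ℤ) * 2 = z + 1 := by
  rcases (abs_eq (by norm_num)).1 hz with h | h <;> subst h <;> decide

theorem ice_ow {N : ℕ} {η : Hgt} (hη : Hon (SqF N) η) {v : ℤ × ℤ} (hv : v ∈ VB (SqF N)) :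
    Ice (ow η) v.1 v.2 := by
  obtain ⟨x, y⟩ := v
  simp only [VB, Finset.mem_filter] at hv
  obtain ⟨h1, h2, h3, h4⟩ := hv
  have a1 := toNat_dec (hη.2.1 x y h1 h3)
  have a2 := toNat_dec (hη.2.1 (x - 1) y h2 h4)
  have a3 := toNat_dec (hη.2.2 x y h1 h2)
  have a4 := toNat_dec (hη.2.2 x (y - 1) h3 h4)
  show (decide (η (x - 1, y) - η (x - 1, y - 1) = 1)).toNat +
    (decide (η (x - 1, y - 1) - η (x, y - 1) = 1)).toNat =
    (decide (η (x, y) - η (x, y - 1) = 1)).toNat + (decide (η (x - 1, y) - η (x, y) = 1)).toNat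
  omega

theorem sgb_dec {z : ℤ} (hz : |z| = 1) : sgb (decide (z = 1)) = z := by
  rcases (abs_eq (by norm_num)).1 hz with h | h <;> subst h <;> decide

theorem hgt_eq {N : ℕ} {η : Hgt} (hη : Hon (SqF N) η) {q : ℤ × ℤ} (hq : q ∈ SqF N) :
    η q = pth (ow η) q + η 0 := by
  refine (con_SqF N).2 (fun q => η q = pth (ow η) q + η 0) ?_ ?_ ?_ q hq
  · show η 0 = pth (ow η) 0 + η 0
    rw [P152.pth_zero, zero_add]
  · intro x y h1 h2
    have a1 := pth_local (fun v hv => ice_ow hη hv) h1 h2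
    have a2 : sgb (ow η (Sum.inl (x, y))) = η (x, y) - η (x, y - 1) := sgb_dec (hη.2.1 x y h1 h2)
    constructor <;> intro h <;> omega
  · intro x y h1 h2
    have a1 := pth_step_h (ow η) x y
    have a2 : sgb (ow η (Sum.inr (x, y))) = η (x - 1, y) - η (x, y) := sgb_dec (hη.2.2 x y h1 h2)
    constructor <;> intro h <;> omega

theorem ofW_un {N n : ℕ} (hn : n = 2 * N) (k : BE n n → ZMod 2) {e : Edge (ℤ × ℤ)}
    (he : e ∈ EB (SqF N)) : ofW n n (1 - (N : ℤ)) (1 - (N : ℤ)) k e = un N n k e := by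
  have h1 := (FA.window_rep n n (1 - (N : ℤ)) (1 - (N : ℤ)) (fun _ => True)
    (fun ω => if ω e = true then 1 else 0) {e} (fun ω ω' h => by
      simp only [h e (Finset.mem_singleton_self e)]) (fun e' he' => ⟨?_, fun _ _ => trivial⟩)).1
    (un N n k)
  · rw [rd_un] at h1
    cases h2 : un N n k e <;> cases h3 : ofW n n (1 - (N : ℤ)) (1 - (N : ℤ)) k e <;>
      rw [h2, h3] at h1 <;> simp at h1
  · rw [Finset.mem_singleton] at he'
    subst he'
    rcases e' with ⟨x, y⟩ | ⟨x, y⟩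
    · rw [mem_EB_inl, mem_SqF, mem_SqF] at he
      simp only at he
      refine ⟨Sum.inl (⟨(x + N).toNat, by omega⟩, ⟨(y + N - 1).toNat, by omega⟩), ?_⟩
      show Sum.inl (1 - (N : ℤ) + ((x + N).toNat : ℕ) - 1, 1 - (N : ℤ) + ((y + N - 1).toNat : ℕ)) =
        Sum.inl (x, y)
      congr 2 <;> omega
    · rw [mem_EB_inr, mem_SqF, mem_SqF] at he
      simp only at he
      refine ⟨Sum.inr (⟨(x + N - 1).toNat, by omega⟩, ⟨(y + N).toNat, by omega⟩), ?_⟩
      show Sum.inr (1 - (N : ℤ) + ((x + N - 1).toNat : ℕ), 1 - (N : ℤ) + ((y + N).toNat : ℕ) - 1) =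
        Sum.inr (x, y)
      congr 2 <;> omega

/-- The heights on the square with bounded value at the origin. -/
def HL (N L : ℕ) : Set (SqF N → ℤ) := {x | Hon (SqF N) (ext0 x) ∧ |ext0 x 0| ≤ 2 * (L : ℤ)}

theorem Hon.add {B : Finset (ℤ × ℤ)} {η : Hgt} (h : Hon B η) (j : ℤ) :
    Hon B (fun q => η q + 2 * j) := by
  refine ⟨fun q hq => ?_, fun x y h1 h2 => ?_, fun x y h1 h2 => ?_⟩
  · have := h.1 q hq
    show (2 : ℤ) ∣ η q + 2 * j - (q.1 + q.2)
    omega
  · have := h.2.1 x y h1 h2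
    show |η (x, y) + 2 * j - (η (x, y - 1) + 2 * j)| = 1
    rwa [add_sub_add_right_eq_sub]
  · have := h.2.2 x y h1 h2
    show |η (x - 1, y) + 2 * j - (η (x, y) + 2 * j)| = 1
    rwa [add_sub_add_right_eq_sub]

theorem bijOn_HL {N n : ℕ} (L : ℕ) (hn : n = 2 * N) {c : ℝ} (hc : 0 < c) :
    Set.BijOn (fun x : SqF N → ℤ =>
        ((ext0 x 0) / 2, rd n n (1 - (N : ℤ)) (1 - (N : ℤ)) (ow (ext0 x)))) (HL N L)
      {p | p.1 ∈ Finset.Icc (-(L : ℤ)) L ∧ (boxNet n n).W6 (wc c) p.2 ≠ 0} := by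
  refine ⟨?_, ?_, ?_⟩
  · rintro x ⟨hx, hx0⟩
    refine ⟨?_, ?_⟩
    · rw [Finset.mem_Icc]
      rw [abs_le] at hx0
      simp only
      omega
    · show (boxNet n n).W6 (wc c) _ ≠ 0
      rw [W6_rd hn, Finset.prod_congr rfl fun v hv => vwt_ow hx hv]
      exact (WB_pos hc _ _).ne'
  · rintro x ⟨hx, _⟩ x' ⟨hx', _⟩ h
    simp only [Prod.mk.injEq] at h
    obtain ⟨h0, h⟩ := h
    have p0 := hx.1 0 (con_SqF N).1
    have p0' := hx'.1 0 (con_SqF N).1
    simp only [Prod.fst_zero, Prod.snd_zero, add_zero, sub_zero] at p0 p0'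
    have h00 : ext0 x 0 = ext0 x' 0 := by omega
    have h1 : ∀ e ∈ EB (SqF N), ow (ext0 x) e = ow (ext0 x') e := by
      intro e he
      have := congrArg (fun k => un N n k e) h
      rwa [un_rd hn _ he, un_rd hn _ he] at this
    have h2 : ∀ q ∈ SqF N, ext0 x q = ext0 x' q := fun q hq => by
      rw [hgt_eq hx hq, hgt_eq hx' hq, pth_congr h1 hq, h00]
    funext q
    have := h2 q q.2
    rwa [ext0_of_mem x q.2, ext0_of_mem x' q.2] at this
  · rintro ⟨j, k⟩ ⟨hj, hk⟩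
    obtain ⟨x, ⟨hx, hx0⟩, hxk⟩ := (bijOn_HZ hn hc).2.2 hk
    simp only at hxk
    rw [Finset.mem_Icc] at hj
    have hE : ∀ q ∈ SqF N, ext0 (res0 (SqF N) (fun q => ext0 x q + 2 * j)) q = ext0 x q + 2 * j :=
      fun q hq => ext0_res0 _ hq
    refine ⟨res0 (SqF N) (fun q => ext0 x q + 2 * j),
      ⟨(hx.add j).congr fun q hq => (hE q hq).symm, ?_⟩, ?_⟩
    · rw [hE 0 (con_SqF N).1, hx0, abs_le]
      omega
    · refine Prod.ext ?_ ?_
      · show ext0 (res0 (SqF N) (fun q => ext0 x q + 2 * j)) 0 / 2 = j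
        rw [hE 0 (con_SqF N).1, hx0]
        omega
      · show rd n n (1 - (N : ℤ)) (1 - (N : ℤ)) (ow (ext0 (res0 (SqF N) (fun q => ext0 x q + 2 * j)))) = k
        rw [← hxk]
        have h1 : ∀ e ∈ EB (SqF N), ow (ext0 (res0 (SqF N) (fun q => ext0 x q + 2 * j))) e =
            ow (ext0 x) e := by
          rintro (⟨a, b⟩ | ⟨a, b⟩) he
          · rw [mem_EB_inl] at he
            show decide (_ - _ = 1) = decide (_ - _ = 1)
            rw [hE _ he.1, hE _ he.2, add_sub_add_right_eq_sub]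
          · rw [mem_EB_inr] at he
            show decide (_ - _ = 1) = decide (_ - _ = 1)
            rw [hE _ he.1, hE _ he.2, add_sub_add_right_eq_sub]
        funext e
        rcases e with ⟨i, j⟩ | ⟨i, j⟩
        · show (if _ = true then (0 : ZMod 2) else 1) = (if _ = true then (0 : ZMod 2) else 1)
          rw [h1 _ (mem_EB_inl.2 ⟨?_, ?_⟩)]
          · rw [mem_SqF]; have := i.2; have := j.2; simp only; omega
          · rw [mem_SqF]; have := i.2; have := j.2; simp only; omega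
        · show (if _ = true then (0 : ZMod 2) else 1) = (if _ = true then (0 : ZMod 2) else 1)
          rw [h1 _ (mem_EB_inr.2 ⟨?_, ?_⟩)]
          · rw [mem_SqF]; have := i.2; have := j.2; simp only; omega
          · rw [mem_SqF]; have := i.2; have := j.2; simp only; omega

/-- The height sum with bounded value at the origin. -/
theorem HL_sum {N n : ℕ} (L : ℕ) (hn : n = 2 * N) {c : ℝ} (hc : 0 < c) {g : Hgt → ℝ}
    (hg : ∀ h h' : Hgt, (∀ q ∈ SqF N, h q = h' q) → g h = g h') :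
    ∑ᶠ x ∈ HL N L, WB c (SqF N) (ext0 x) * g (ext0 x) =
      ∑ j ∈ Finset.Icc (-(L : ℤ)) L, ∑ k : BE n n → ZMod 2,
        g (fun q => pth (ofW n n (1 - (N : ℤ)) (1 - (N : ℤ)) k) q + 2 * j) *
          (boxNet n n).W6 (wc c) k := by
  rw [finsum_mem_eq_of_bijOn _ (bijOn_HL L hn hc)
    (g := fun p : ℤ × (BE n n → ZMod 2) =>
      g (fun q => pth (ofW n n (1 - (N : ℤ)) (1 - (N : ℤ)) p.2) q + 2 * p.1) *
          (boxNet n n).W6 (wc c) p.2)]
  · rw [← Finset.sum_product' (s := Finset.Icc (-(L : ℤ)) L) (t := Finset.univ)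
      (f := fun j k => g (fun q => pth (ofW n n (1 - (N : ℤ)) (1 - (N : ℤ)) k) q + 2 * j) *
          (boxNet n n).W6 (wc c) k)]
    rw [← finsum_mem_coe_finset]
    have e : {p : ℤ × (BE n n → ZMod 2) | p.1 ∈ Finset.Icc (-(L : ℤ)) L ∧
        (boxNet n n).W6 (wc c) p.2 ≠ 0} ⊆
        ((Finset.Icc (-(L : ℤ)) L ×ˢ (Finset.univ : Finset (BE n n → ZMod 2)) :
          Finset (ℤ × (BE n n → ZMod 2))) : Set (ℤ × (BE n n → ZMod 2))) := by
      rintro p ⟨h1, _⟩
      rw [Finset.mem_coe, Finset.mem_product]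
      exact ⟨h1, Finset.mem_univ _⟩
    refine finsum_mem_inter_support_eq _ _ _ ?_
    ext p
    simp only [Set.mem_inter_iff, Function.mem_support]
    constructor
    · rintro ⟨h1, h2⟩
      exact ⟨e h1, h2⟩
    · rintro ⟨h1, h2⟩
      rw [Finset.mem_coe, Finset.mem_product] at h1
      exact ⟨⟨h1.1, right_ne_zero_of_mul h2⟩, h2⟩
  · rintro x ⟨hx, _⟩
    have p0 := hx.1 0 (con_SqF N).1
    simp only [Prod.fst_zero, Prod.snd_zero, add_zero, sub_zero] at p0
    show _ = g (fun q => pth (ofW n n (1 - (N : ℤ)) (1 - (N : ℤ))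
      (rd n n (1 - (N : ℤ)) (1 - (N : ℤ)) (ow (ext0 x)))) q + 2 * ((ext0 x 0) / 2)) *
      (boxNet n n).W6 (wc c) (rd n n (1 - (N : ℤ)) (1 - (N : ℤ)) (ow (ext0 x)))
    rw [W6_rd hn, Finset.prod_congr rfl fun v hv => vwt_ow hx hv, mul_comm]
    congr 1
    refine hg _ _ fun q hq => ?_
    have h1 : pth (ofW n n (1 - (N : ℤ)) (1 - (N : ℤ))
        (rd n n (1 - (N : ℤ)) (1 - (N : ℤ)) (ow (ext0 x)))) q = pth (ow (ext0 x)) q :=
      pth_congr (fun e he => by rw [ofW_un hn _ he, un_rd hn _ he]) hq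
    rw [h1, hgt_eq hx hq]
    omega

theorem abs_anti_le {g : ℤ → ℤ} (hg : ∀ i, |g i| ≤ 1) (n : ℤ) : |anti g n| ≤ |n| := by
  unfold anti
  rcases le_total 0 n with h | h
  · rw [Finset.Ioc_eq_empty (show ¬ n < 0 by omega), Finset.sum_empty, sub_zero]
    refine (Finset.abs_sum_le_sum_abs _ _).trans ?_
    refine (Finset.sum_le_sum fun i _ => hg i).trans ?_
    rw [Finset.sum_const, Int.card_Ioc, nsmul_eq_mul, mul_one, sub_zero, Int.toNat_of_nonneg h,
      abs_of_nonneg h]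
  · rw [Finset.Ioc_eq_empty (show ¬ 0 < n by omega), Finset.sum_empty, zero_sub, abs_neg]
    refine (Finset.abs_sum_le_sum_abs _ _).trans ?_
    refine (Finset.sum_le_sum fun i _ => hg i).trans ?_
    rw [Finset.sum_const, Int.card_Ioc, nsmul_eq_mul, mul_one, zero_sub,
      Int.toNat_of_nonneg (by omega), abs_of_nonpos h]

theorem abs_pth_le (ω : Ori (ℤ × ℤ)) (q : ℤ × ℤ) : |pth ω q| ≤ |q.1| + |q.2| := by
  unfold pth
  have h1 := abs_anti_le (g := fun j => sgb (ω (Sum.inl (0, j)))) (fun i => (abs_sgb _).le) q.2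
  have h2 := abs_anti_le (g := fun i => sgb (ω (Sum.inr (i, q.2)))) (fun i => (abs_sgb _).le) q.1
  refine (abs_sub _ _).trans ?_
  linarith

theorem Hon_bound {N : ℕ} {η : Hgt} (hη : Hon (SqF N) η) {q : ℤ × ℤ} (hq : q ∈ SqF N) :
    |η q| ≤ |η 0| + 2 * N := by
  rw [hgt_eq hη hq]
  have h1 := abs_pth_le (ow η) q
  rw [mem_SqF] at hq
  have h2 : |q.1| ≤ N := abs_le.2 ⟨by omega, by omega⟩
  have h3 : |q.2| ≤ N := abs_le.2 ⟨by omega, by omega⟩
  have h4 := abs_add_le (pth (ow η) q) (η 0)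
  linarith

end Vale.Agent.P145.FC
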